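import Vale.Agent.P352Z.Fam
import Mathlib.LinearAlgebra.Lagrange

/-!
# P352Z: families that are polynomial in the logarithm (helper18)
-/

set_option linter.all false

open Filter Topology

namespace Vale.Agent.P352X.ZZ

noncomputable section

variable {E F G : Type*} [AddCommGroup E] [Module ℝ E] [AddCommGroup F] [Module ℝ F]
  [AddCommGroup G] [Module ℝ G] {N N' : ℕ} {x y : ℝ → E}

/-- polynomials of degree at most `N` -/
def PL (N : ℕ) (x : ℝ → E) : Prop :=
  ∃ a : ℕ → E, ∀ l, x l = ∑ j ∈ Finset.range (N + 1), l ^ j • a j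

namespace PL

/-- the coefficients of the interpolation polynomials -/
def lq (N i j : ℕ) : ℝ := (Lagrange.basis (Finset.range (N + 1)) (fun m : ℕ => (m : ℝ)) i).coeff j

/-- the coefficients of a family -/
def cf (N : ℕ) (x : ℝ → E) (j : ℕ) : E := ∑ i ∈ Finset.range (N + 1), lq N i j • x i

lemma lq_sum {n : ℕ} (hn : n ≤ N) (l : ℝ) : ∑ j ∈ Finset.range (N + 1),
    l ^ j * ∑ i ∈ Finset.range (N + 1), lq N i j * (i : ℝ) ^ n = l ^ n := by
  have inj : Set.InjOn (fun m : ℕ => (m : ℝ)) (Finset.range (N + 1)) := fun _ _ _ _ h =>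
    Nat.cast_injective (R := ℝ) h
  have h := Lagrange.eq_interpolate (f := (Polynomial.X ^ n : Polynomial ℝ)) inj (by
    rw [Polynomial.degree_X_pow, Finset.card_range]
    exact_mod_cast Nat.lt_succ_of_le hn)
  have h2 := congrArg (Polynomial.eval l) h
  rw [Lagrange.interpolate_apply, Polynomial.eval_finset_sum] at h2
  simp only [Polynomial.eval_pow, Polynomial.eval_X, Polynomial.eval_mul, Polynomial.eval_C] at h2
  rw [h2]
  simp only [Finset.mul_sum]
  rw [Finset.sum_comm]
  refine Finset.sum_congr rfl fun i hi => ?_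
  rw [Polynomial.eval_eq_sum_range' (n := N + 1) (by
    rw [Lagrange.natDegree_basis inj hi, Finset.card_range]; omega), Finset.mul_sum]
  exact Finset.sum_congr rfl fun j _ => by rw [lq]; ring

theorem eq (h : PL N x) (l : ℝ) : x l = ∑ j ∈ Finset.range (N + 1), l ^ j • cf N x j := by
  obtain ⟨a, h⟩ := h
  simp only [cf, h, Finset.smul_sum, smul_smul]
  rw [Finset.sum_congr rfl fun j _ => Finset.sum_comm, Finset.sum_comm]
  refine Finset.sum_congr rfl fun n hn => ?_
  simp only [← Finset.sum_smul, ← Finset.mul_sum,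
    lq_sum (Nat.lt_succ_iff.1 (Finset.mem_range.1 hn))]

theorem zero : PL N fun _ => (0 : E) := ⟨0, fun l => by simp⟩

theorem add (h : PL N x) (h' : PL N y) : PL N fun l => x l + y l := by
  obtain ⟨a, h⟩ := h
  obtain ⟨b, h'⟩ := h'
  exact ⟨a + b, fun l => by simp [h, h', Finset.sum_add_distrib]⟩

theorem map (h : PL N x) (A : E →ₗ[ℝ] F) : PL N fun l => A (x l) := by
  obtain ⟨a, h⟩ := h
  exact ⟨fun j => A (a j), fun l => by simp [h]⟩

theorem smul (h : PL N x) (t : ℝ) : PL N fun l => t • x l := h.map (t • LinearMap.id)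

theorem neg (h : PL N x) : PL N fun l => -x l := h.map (-LinearMap.id)

theorem sub (h : PL N x) (h' : PL N y) : PL N fun l => x l - y l := by
  simpa only [sub_eq_add_neg] using h.add h'.neg

theorem sum {ι : Type*} (s : Finset ι) {z : ι → ℝ → E} (h : ∀ i ∈ s, PL N (z i)) :
    PL N fun l => ∑ i ∈ s, z i l := by
  classical
  induction s using Finset.induction_on with
  | empty => simpa using zero
  | insert i s hi ih =>
    simpa only [Finset.sum_insert hi] using (h i (by simp)).add (ih fun j hj => h j (by simp [hj]))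

theorem congr (h : PL N x) (e : ∀ l, x l = y l) : PL N y := funext e ▸ h

theorem mon {n : ℕ} (hn : n ≤ N) (a : E) : PL N fun l => l ^ n • a :=
  ⟨Pi.single n a, fun l => by
    rw [Finset.sum_eq_single n (fun j _ hj => by simp [hj]) fun h => (h (by simp; omega)).elim]
    simp⟩

theorem const (a : E) : PL N fun _ => a := by simpa using mon (Nat.zero_le N) a

theorem mono (h : PL N x) (hN : N ≤ N') : PL N' x := by
  obtain ⟨a, h⟩ := h
  exact (sum _ fun j hj => mon (by simp at hj; omega) (a j)).congr fun l => (h l).symm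

theorem of_zero (h : PL 0 x) (l l' : ℝ) : x l = x l' := by
  obtain ⟨a, h⟩ := h
  simp [h]

theorem shift (h : PL N x) (t : ℝ) : PL N fun l => x (l + t) := by
  obtain ⟨a, h⟩ := h
  simp only [h, add_pow, Finset.sum_smul, mul_assoc, mul_smul]
  exact sum _ fun j hj => sum _ fun i hi => mon (by simp at hi hj; omega) _

theorem diff (h : PL (N + 1) x) (t : ℝ) : PL N fun l => x (l + t) - x l := by
  obtain ⟨a, h⟩ := h
  simp only [h, ← Finset.sum_sub_distrib, ← sub_smul]
  refine sum _ fun j hj => ?_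
  simp only [add_pow, Finset.sum_range_succ, Nat.sub_self, pow_zero, Nat.choose_self, Nat.cast_one,
    mul_one, add_sub_cancel_right, Finset.sum_smul, mul_assoc, mul_smul]
  exact sum _ fun i hi => mon (by simp at hi hj; omega) _

theorem bil (B : E →ₗ[ℝ] F →ₗ[ℝ] G) {y : ℝ → F} (h : PL N x) (h' : PL N' y) :
    PL (N + N') fun l => B (x l) (y l) := by
  obtain ⟨a, h⟩ := h
  obtain ⟨b, h'⟩ := h'
  simp only [h, h', map_sum, map_smul, LinearMap.sum_apply, LinearMap.smul_apply, Finset.smul_sum,
    smul_smul, ← pow_add]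
  exact sum _ fun j hj => sum _ fun i hi => mon (by simp at hi hj; omega) _

/-- induction on the degree -/
theorem kill {P : (ℝ → E) → Prop} (hd : ∀ x t, P x → P fun l => x (l + t) - x l)
    (h0 : ∀ a, P (fun _ => a) → a = 0) (h : PL N x) (hx : P x) (l : ℝ) : x l = 0 := by
  induction N generalizing x l with
  | zero => exact h0 _ (by rwa [show (fun _ => x l) = x from funext fun l' => h.of_zero _ _])
  | succ N ih =>
    refine h0 _ ?_
    rwa [show (fun _ => x l) = x from funext fun l' => ?_]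
    have := ih (h.diff (l - l')) (hd _ _ hx) l'
    rwa [add_sub_cancel, sub_eq_zero] at this

theorem lim {H : Type*} [AddCommGroup H] [Module ℝ H] [TopologicalSpace H] [T2Space H]
    [ContinuousAdd H] [ContinuousConstSMul ℝ H] {ι : Type*} {p : Filter ι} [p.NeBot]
    {x : ι → ℝ → H} {y : ℝ → H} (h : ∀ i, PL N (x i))
    (ht : ∀ l, Tendsto (fun i => x i l) p (𝓝 (y l))) : PL N y :=
  ⟨cf N y, fun l => by
    have h1 : ∀ j, Tendsto (fun i => cf N (x i) j) p (𝓝 (cf N y j)) := fun j =>
      tendsto_finset_sum _ fun i _ => (ht i).const_smul _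
    have h2 := tendsto_finset_sum (Finset.range (N + 1)) fun j _ => (h1 j).const_smul (l ^ j)
    exact tendsto_nhds_unique (ht l) (h2.congr fun i => ((h i).eq l).symm)⟩

section clm

variable {A B : Type*} [AddCommGroup A] [Module ℂ A] [TopologicalSpace A] [NormedAddCommGroup B]
  [NormedSpace ℂ B] {z : ℝ → A →L[ℂ] B}

theorem clm (h : ∀ f, PL N fun l => z l f) : PL N z :=
  ⟨cf N z, fun l => ContinuousLinearMap.ext fun f => by
    rw [(h f).eq l]
    simp [cf, ContinuousLinearMap.sum_apply]⟩

theorem app (h : PL N z) (f : A) : PL N fun l => z l f := by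
  obtain ⟨a, h⟩ := h
  exact ⟨fun j => a j f, fun l => by simp [h, ContinuousLinearMap.sum_apply]⟩

end clm

section cx

variable {H : Type*} [AddCommGroup H] [Module ℂ H] {z : ℝ → H}

theorem of_ex0 (a : ℕ → H) : PL N fun l => ex0 N l a :=
  ⟨fun j => (j.factorial : ℝ)⁻¹ • a j, fun l => Finset.sum_congr rfl fun j _ => by
    rw [smul_smul, ← div_eq_mul_inv, Complex.coe_smul]⟩

theorem to_ex0 (h : PL N z) : ∃ a : ℕ → H, (∀ j, N < j → a j = 0) ∧
    (∀ j, ∃ q : ℕ → ℝ, a j = ∑ i ∈ Finset.range (N + 1), q i • z i) ∧ ∀ l, z l = ex0 N l a := by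
  refine ⟨fun j => if j ≤ N then (j.factorial : ℝ) • cf N z j else 0, fun j hj => if_neg hj.not_ge,
    fun j => ?_, fun l => (h.eq l).trans (Finset.sum_congr rfl fun j hj => ?_)⟩
  · by_cases hj : j ≤ N
    · exact ⟨fun i => j.factorial * lq N i j, by simp [hj, cf, Finset.smul_sum, mul_smul]⟩
    · exact ⟨0, by simp [hj]⟩
  · beta_reduce
    rw [if_pos (Nat.lt_succ_iff.1 (Finset.mem_range.1 hj)), Complex.coe_smul, smul_smul,
      div_mul_cancel₀ _ (by exact_mod_cast j.factorial_ne_zero)]

end cx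

end PL

end

end Vale.Agent.P352X.ZZ
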