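import Vale.Agent.P352Z.TPD.Defs

/-!
# P352Z, block TPD with logarithms: the rows (helper18)
-/

set_option linter.all false

open MeasureTheory Filter Topology
open scoped SchwartzMap ComplexConjugate ENNReal ContDiff

namespace Vale.Agent.P352X.ZZ.TPD

open Vale.Agent.P352 Vale.Agent.P352.GF Vale.Agent.P352.BW Vale.Agent.P352.H246
open Vale.Agent.P352.H496 Vale.Agent.P352.H755 Vale.Agent.P352.H15
open UniformSpace (Completion)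
open Complex (I)

noncomputable section

/-! ## pure rows -/

/-- row EQ1: constant and linear sources are pure gauge -/
def EQ1 : Prop := ∀ k : ℕ, k < 2 → ∃ (σ1 : Tn (Fin 4 ⊕ Fin k) →ₗ[ℝ] Tn (Fin 3 ⊕ Fin (k + 1)))
  (σB : Tn (Fin 4 ⊕ Fin k) →ₗ[ℝ] Tn (Fin 5 ⊕ Fin (k + 1)))
  (τ : Tn (Fin 4 ⊕ Fin k) →ₗ[ℝ] Tn (Fin 2 ⊕ Fin k)),
  (∀ L h, IsLor L → σ1 (pb L h) = pb L (σ1 h) ∧ σB (pb L h) = pb L (σB h)) ∧
  ∀ h u, pol h u = dA a1 (pol (σ1 h)) u + dA aB (pol (σB h)) u + e1 (pol (τ h) u)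

/-- row EQ2: quadratic sources are pure gauge up to the odd class and the scalar class -/
def EQ2 : Prop := ∃ (σ1 : Tn (Fin 4 ⊕ Fin 2) →ₗ[ℝ] Tn (Fin 3 ⊕ Fin 3))
  (σB : Tn (Fin 4 ⊕ Fin 2) →ₗ[ℝ] Tn (Fin 5 ⊕ Fin 3))
  (τ : Tn (Fin 4 ⊕ Fin 2) →ₗ[ℝ] Tn (Fin 2 ⊕ Fin 2))
  (od : Tn (Fin 4 ⊕ Fin 2) →ₗ[ℝ] Tn (Fin 4 ⊕ Fin 2)) (lam : Tn (Fin 4 ⊕ Fin 2) →ₗ[ℝ] ℝ),
  (∀ L h, IsLor L → σ1 (pb L h) = pb L (σ1 h) ∧ σB (pb L h) = pb L (σB h) ∧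
    od (pb L h) = pb L (od h) ∧ lam (pb L h) = lam h) ∧
  ∀ h u, pol h u = dA a1 (pol (σ1 h)) u + dA aB (pol (σB h)) u + e1 (pol (τ h) u) +
    (pol (od h) u - swp (pol (od h) u)) + lam h • pol (HH et) u

/-- row COMB: the cokernel in degree two. `A m n r s g d` has upper indices. -/
def COMB : Prop := ∀ A : Ix → Ix → Ix → Ix → Ix → Ix → ℝ,
  (∀ m n r s g d, A m n r s g d = A m n r s d g) →
  (∀ m n r s g d, A m n r s g d = A r s m n g d) →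
  (∀ r s g d, ∑ m, eta m * A m m r s g d = 0) →
  (∀ n r s a b e, A a n r s b e + A b n r s a e + A e n r s a b = 0) →
  (∀ i j k r s a b e,
    et ![i, a] * (A j k r s b e - A k j r s b e) + et ![i, b] * (A j k r s a e - A k j r s a e) +
      et ![i, e] * (A j k r s a b - A k j r s a b) +
    (et ![j, a] * (A k i r s b e - A i k r s b e) + et ![j, b] * (A k i r s a e - A i k r s a e) +
      et ![j, e] * (A k i r s a b - A i k r s a b)) +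
    (et ![k, a] * (A i j r s b e - A j i r s b e) + et ![k, b] * (A i j r s a e - A j i r s a e) +
      et ![k, e] * (A i j r s a b - A j i r s a b)) = 0) →
  (∑ m, ∑ n, ∑ g, eta m * eta n * eta g * A m n m n g g = 0) → ∀ m n r s g d, A m n r s g d = 0

/-- row INV: invariant functionals on tensors of rank two -/
def INV : Prop := ∀ lam : Tn (Fin 2) →ₗ[ℝ] ℝ, (∀ L k, IsLor L → lam (pb L k) = lam k) →
  ∃ κ : ℝ, ∀ k, lam k = κ * trc k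

variable {D : Type*} [NormedAddCommGroup D] [InnerProductSpace ℂ D] (c : Ctx D)

/-! ## tools -/

/-- row BA: the calculus of `Th`, `act`, `TC`, `Loc` -/
structure BA : Prop where
  th_ug : ∀ s L a z, 0 < s → IsLor L → Th c (Ug c.Q s L a z) = Ug c.Q s L (-a) (Th c z)
  th_om : Th c c.Om = c.Om
  th_th : ∀ z, Th c (Th c z) = z
  j_th : ∀ z, c.J (Th c z) = Ug c.Q 1 r1 0 z
  th_inner : ∀ v w, inner ℂ (Th c v) (Th c w) = inner ℂ w v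
  th_phi : ∀ F z, SN.Bd F → Th c (c.bt.Phi F z) = c.bt.Phi (fun p => conj (F p)) (Th c z)
  th_two : ∀ (K M : I2) (f g : Sch),
    Th c (c.T K.1 K.2 (ev f) (c.T M.1 M.2 (ev g) c.Q.vac) : D) =
      (c.T K.1 K.2 (bar (ev (ng f))) (c.T M.1 M.2 (bar (ev (ng g))) c.Q.vac) : D)
  pp : ∀ z, inner ℂ c.Om (Pp c z) = 0 ∧ Th c (Pp c z) = Pp c (Th c z) ∧
    (∃ κ : ℂ, z = Pp c z + κ • c.Om) ∧ (inner ℂ c.Om z = 0 → Pp c z = z) ∧
    ∀ s L a, Ug c.Q s L a (Pp c z) = Pp c (Ug c.Q s L a z)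
  pp_pr : ∀ O ψ ψ', Pr (c.N O) c.Om ψ ψ' → Pr (c.N O) c.Om (Pp c ψ) (Pp c ψ')
  mul : ∀ s s' L L' x, 0 < s → 0 < s' → IsLor L → IsLor L' →
    act c s L (act c s' L' x) = act c (s * s') (T.cm L' L) x
  one : ∀ x, act c 1 GF.one x = x
  nrm : ∀ s L x f, ‖act c s L x f‖ = ‖x (pS s L f)‖
  der : ∀ (s : ℝ) L x v, 0 < s → IsLor L →
    act c s L (x ∘L KDa.dS v) = s • (act c s L x ∘L KDa.dS (sim 1 L 0 v))
  cont : ∀ (ι : Type) (l : Filter ι) (L : ι → Ix → V) L0 x f, (∀ i, IsLor (L i)) → IsLor L0 →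
    Tendsto L l (𝓝 L0) → Tendsto (fun i => act c 1 (L i) x f) l (𝓝 (act c 1 L0 x f))
  gro : ∀ x : TT D, ∃ N : ℕ, ∀ f, ∃ C : ℝ, ∀ t, ‖act c 1 (Lb t) x f‖ ≤ C * Real.exp (N * |t|)
  tc0 : TC c 0
  tc_add : ∀ x y, TC c x → TC c y → TC c (x + y)
  tc_smul : ∀ (a : ℝ) x, TC c x → TC c (a • x)
  tc_act : ∀ s L x, 0 < s → IsLor L → TC c x → TC c (act c s L x)
  tc_der : ∀ v x, TC c x → TC c (x ∘L KDa.dS v)
  tc_gn : ∀ v x f, TC c x → Gn (fun t => Ut c.Q (t • v)) (x f) (I • x (KDa.dS v f))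
  tc_psi : ∀ v x f, TC c x → c.bt.Dom (fun p => (mdot p v : ℝ)) (x f) ∧
    x (KDa.dS v f) = -I • c.bt.Psi (fun p => (mdot p v : ℝ)) (x f)
  tc_rel : ∀ x f g, TC c x → c.bt.Phi (ft (ev g)) (x f) = c.bt.Phi (ft (ev f)) (x g)
  loc0 : ∀ σ K, Loc c σ K 0
  loc_add : ∀ σ K x y, Loc c σ K x → Loc c σ K y → Loc c σ K (x + y)
  loc_smul : ∀ σ K (a : ℝ) x, Loc c σ K x → Loc c σ K (a • x)
  loc_mono : ∀ σ K K' x, K ⊆ K' → Loc c σ K x → Loc c σ K' x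
  loc_act : ∀ σ K s L x, 0 < s → IsLor L → Loc c σ K x →
    Loc c σ (sim s L 0 '' K) (act c s L x)
  loc_der : ∀ σ K v x, Loc c σ K x → Loc c (-σ) K (x ∘L KDa.dS v)
  loc_small : ∀ σ K x, (∀ ε : ℝ, 0 < ε → Loc c σ (K ∪ Metric.ball 0 ε) x) → Loc c σ K x
  loc_lim : ∀ σ K (x : ℕ → TT D) y, (∀ f, Tendsto (fun n => x n f) atTop (𝓝 (y f))) →
    (∀ ε : ℝ, 0 < ε → ∀ᶠ n in atTop, Loc c σ (K ∪ Metric.ball 0 ε) (x n)) → Loc c σ K y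
  hom0 : ∀ σ k, Hom c σ k 0
  hom_add : ∀ σ k x y, Hom c σ k x → Hom c σ k y → Hom c σ k (x + y)
  hom_smul : ∀ σ k (a : ℝ) x, Hom c σ k x → Hom c σ k (a • x)
  hom_act : ∀ σ k L x, IsLor L → Hom c σ k x → Hom c σ k (act c 1 L x)

/-- `Th`, `Pp`, `act` -/
structure BA1 : Prop where
  th_ug : ∀ s L a z, 0 < s → IsLor L → Th c (Ug c.Q s L a z) = Ug c.Q s L (-a) (Th c z)
  th_om : Th c c.Om = c.Om
  th_th : ∀ z, Th c (Th c z) = z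
  j_th : ∀ z, c.J (Th c z) = Ug c.Q 1 r1 0 z
  th_inner : ∀ v w, inner ℂ (Th c v) (Th c w) = inner ℂ w v
  th_phi : ∀ F z, SN.Bd F → Th c (c.bt.Phi F z) = c.bt.Phi (fun p => conj (F p)) (Th c z)
  th_two : ∀ (K M : I2) (f g : Sch),
    Th c (c.T K.1 K.2 (ev f) (c.T M.1 M.2 (ev g) c.Q.vac) : D) =
      (c.T K.1 K.2 (bar (ev (ng f))) (c.T M.1 M.2 (bar (ev (ng g))) c.Q.vac) : D)
  pp : ∀ z, inner ℂ c.Om (Pp c z) = 0 ∧ Th c (Pp c z) = Pp c (Th c z) ∧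
    (∃ κ : ℂ, z = Pp c z + κ • c.Om) ∧ (inner ℂ c.Om z = 0 → Pp c z = z) ∧
    ∀ s L a, Ug c.Q s L a (Pp c z) = Pp c (Ug c.Q s L a z)
  pp_pr : ∀ O ψ ψ', Pr (c.N O) c.Om ψ ψ' → Pr (c.N O) c.Om (Pp c ψ) (Pp c ψ')
  mul : ∀ s s' L L' x, 0 < s → 0 < s' → IsLor L → IsLor L' →
    act c s L (act c s' L' x) = act c (s * s') (T.cm L' L) x
  one : ∀ x, act c 1 GF.one x = x
  nrm : ∀ s L x f, ‖act c s L x f‖ = ‖x (pS s L f)‖
  der : ∀ (s : ℝ) L x v, 0 < s → IsLor L →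
    act c s L (x ∘L KDa.dS v) = s • (act c s L x ∘L KDa.dS (sim 1 L 0 v))
  cont : ∀ (ι : Type) (l : Filter ι) (L : ι → Ix → V) L0 x f, (∀ i, IsLor (L i)) → IsLor L0 →
    Tendsto L l (𝓝 L0) → Tendsto (fun i => act c 1 (L i) x f) l (𝓝 (act c 1 L0 x f))
  gro : ∀ x : TT D, ∃ N : ℕ, ∀ f, ∃ C : ℝ, ∀ t, ‖act c 1 (Lb t) x f‖ ≤ C * Real.exp (N * |t|)

/-- `TC`, `Loc`, `Hom` -/
structure BA2 : Prop where
  tc0 : TC c 0
  tc_add : ∀ x y, TC c x → TC c y → TC c (x + y)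
  tc_smul : ∀ (a : ℝ) x, TC c x → TC c (a • x)
  tc_act : ∀ s L x, 0 < s → IsLor L → TC c x → TC c (act c s L x)
  tc_der : ∀ v x, TC c x → TC c (x ∘L KDa.dS v)
  tc_gn : ∀ v x f, TC c x → Gn (fun t => Ut c.Q (t • v)) (x f) (I • x (KDa.dS v f))
  tc_psi : ∀ v x f, TC c x → c.bt.Dom (fun p => (mdot p v : ℝ)) (x f) ∧
    x (KDa.dS v f) = -I • c.bt.Psi (fun p => (mdot p v : ℝ)) (x f)
  tc_rel : ∀ x f g, TC c x → c.bt.Phi (ft (ev g)) (x f) = c.bt.Phi (ft (ev f)) (x g)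
  loc0 : ∀ σ K, Loc c σ K 0
  loc_add : ∀ σ K x y, Loc c σ K x → Loc c σ K y → Loc c σ K (x + y)
  loc_smul : ∀ σ K (a : ℝ) x, Loc c σ K x → Loc c σ K (a • x)
  loc_mono : ∀ σ K K' x, K ⊆ K' → Loc c σ K x → Loc c σ K' x
  loc_act : ∀ σ K s L x, 0 < s → IsLor L → Loc c σ K x →
    Loc c σ (sim s L 0 '' K) (act c s L x)
  loc_der : ∀ σ K v x, Loc c σ K x → Loc c (-σ) K (x ∘L KDa.dS v)
  loc_small : ∀ σ K x, (∀ ε : ℝ, 0 < ε → Loc c σ (K ∪ Metric.ball 0 ε) x) → Loc c σ K x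
  loc_lim : ∀ σ K (x : ℕ → TT D) y, (∀ f, Tendsto (fun n => x n f) atTop (𝓝 (y f))) →
    (∀ ε : ℝ, 0 < ε → ∀ᶠ n in atTop, Loc c σ (K ∪ Metric.ball 0 ε) (x n)) → Loc c σ K y
  hom0 : ∀ σ k, Hom c σ k 0
  hom_add : ∀ σ k x y, Hom c σ k x → Hom c σ k y → Hom c σ k (x + y)
  hom_smul : ∀ σ k (a : ℝ) x, Hom c σ k x → Hom c σ k (a • x)
  hom_act : ∀ σ k L x, IsLor L → Hom c σ k x → Hom c σ k (act c 1 L x)

theorem BA.of {c : Ctx D} (h1 : BA1 c) (h2 : BA2 c) : BA c :=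
  ⟨h1.th_ug, h1.th_om, h1.th_th, h1.j_th, h1.th_inner, h1.th_phi, h1.th_two, h1.pp, h1.pp_pr,
    h1.mul, h1.one, h1.nrm, h1.der, h1.cont, h1.gro, h2.tc0, h2.tc_add,
    h2.tc_smul, h2.tc_act, h2.tc_der, h2.tc_gn, h2.tc_psi, h2.tc_rel, h2.loc0, h2.loc_add,
    h2.loc_smul, h2.loc_mono, h2.loc_act, h2.loc_der, h2.loc_small, h2.loc_lim, h2.hom0, h2.hom_add,
    h2.hom_smul, h2.hom_act⟩

/-- row BP1: the calculus of `psi` -/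
structure BP1 (K : ℕ) (w : ℝ → WW D) : Prop where
  add : ∀ l φ φ', Ok φ → Ok φ' → psi (w l) (φ + φ') = psi (w l) φ + psi (w l) φ'
  smul : ∀ l (a : ℝ) φ, Ok φ → psi (w l) (a • φ) = a • psi (w l) φ
  tc : ∀ l φ, Ok φ → TC c (psi (w l) φ)
  loc : ∀ l σ φ, σ * σ = 1 → Ok φ → (∀ u, φ (-u) = σ • φ u) →
    Loc c σ (tsupport φ) (psi (w l) φ)
  cov : ∀ l s L φ, 0 < s → IsLor L → Ok φ →
    act c s L (psi (w (l + Real.log s)) (pf s L φ)) = psi (w l) φ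
  pl : ∀ φ, PL K fun l => psi (w l) φ
  tr : ∀ l χ (k : V → Tn (Fin 2)), Tst χ → (0 : V) ∉ tsupport χ → ContDiff ℝ ∞ k →
    psi (w l) (cs χ fun u => e1 (k u)) = 0
  c1 : Nul a1 w
  cB : Nul aB w
  c3 : ∀ l χ Y, Tst χ → (0 : V) ∉ tsupport χ → ContDiff ℝ ∞ Y →
    psi (w l) (b3 χ Y) + psi (w l) (cs χ (d3 Y)) =
      ∑ r, psi (w l) (cs χ (i3 r Y)) ∘L KDa.dS (bas r 1)

/-- row BP2: the calculus of `Dat` -/
structure BP2 (K : ℕ) (w : ℝ → WW D) : Prop where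
  dzero : ∀ σ, Dat c K w σ 0 0
  dadd : ∀ σ S S' x x', ContDiff ℝ ∞ S → ContDiff ℝ ∞ S' → Dat c K w σ S x → Dat c K w σ S' x' →
    Dat c K w σ (S + S') (x + x')
  dsmul : ∀ σ (a : ℝ) S x, ContDiff ℝ ∞ S → Dat c K w σ S x → Dat c K w σ (a • S) (a • x)
  dtr : ∀ σ (k : V → Tn (Fin 2)), ContDiff ℝ ∞ k → Dat c K w σ (fun u => e1 (k u)) 0
  dact : ∀ σ s L S x, 0 < s → IsLor L → ContDiff ℝ ∞ S → Dat c K w σ (pf s L S) x →
    Dat c K w σ S (ga c s L x)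
  dhom : ∀ σ (k : ℕ) x, Dat c K w σ 0 x → (∀ s : ℝ, 0 < s → s ^ k • ga c s GF.one x = x) →
    ∃ y, LH c σ k y ∧ PL K y ∧ ∀ l η, x l η = y l
  gA : ∀ (κ : Type) [Fintype κ] [DecidableEq κ] (a : Sb κ) (k : ℕ), Eqv a → Nul a w →
    Cv c K w k fun ξ : Tn (κ ⊕ Fin (k + 1)) => dA a (pol ξ)
  g3 : ∀ σ Y, σ * σ = 1 → ContDiff ℝ ∞ Y → (∀ u, Y (-u) = -σ • Y u) →
    (∀ l (η : EC), TC c (psi (w l) (b3 η.1 Y)) ∧
      Loc c σ (tsupport η.1) (psi (w l) (b3 η.1 Y))) ∧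
    (∀ l (η η' : EC), psi (w l) (b3 η.1 Y) - psi (w l) (b3 η'.1 Y) +
      psi (w l) (cs (η.1 - η'.1) (d3 Y)) =
      ∑ r, psi (w l) (cs (η.1 - η'.1) (i3 r Y)) ∘L KDa.dS (bas r 1)) ∧
    (∀ s L, 0 < s → IsLor L → ga c s L (fun l η => psi (w l) (b3 η.1 (pf s L Y))) =
      s • fun l (η : EC) => psi (w l) (b3 η.1 Y)) ∧
    ∀ Y' (a : ℝ) l (η : EC), ContDiff ℝ ∞ Y' →
      psi (w l) (b3 η.1 (Y + Y')) = psi (w l) (b3 η.1 Y) + psi (w l) (b3 η.1 Y') ∧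
      psi (w l) (b3 η.1 (a • Y)) = a • psi (w l) (b3 η.1 Y)

/-- row BP -/
structure BP (K : ℕ) (w : ℝ → WW D) : Prop extends BP1 c K w, BP2 c K w

/-- the tools -/
structure B0 : Prop extends T3 c where
  ten : TEN
  exp : EXP
  ba : BA c
  bp : ∀ K w, Src c K w → BP c K w

/-! ## infrared bounds -/

/-- row RHO: the two point measure -/
def RHO : Prop := ∀ x, TC c x → ∃ ρ : Measure V, IsLocallyFiniteMeasure ρ ∧
  (∀ f : Sch, c.nu (x f) = ρ.withDensity fun p => ENNReal.ofReal (‖ft (ev f) p‖ ^ 2)) ∧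
  (∀ᵐ p ∂ρ, 0 < p o ∧ 0 ≤ mu p) ∧
  ∃ M : ℕ, ∫⁻ p, ENNReal.ofReal (((1 + ‖p‖) ^ M)⁻¹) ∂ρ < ⊤

/-- row IRQ: small transverse momenta -/
def IRQ : Prop := ∀ ψ ψ' (R : ℝ), inner ℂ c.Om ψ = 0 → (∀ (t : ℝ) (x : R2), |t| ≤ 1 → R ≤ ‖x‖ →
    inner ℂ ψ (Ut c.Q (bas o t + tv x) ψ) = inner ℂ (Ut c.Q (bas o t + tv x) ψ') ψ') →
  ∃ C : ℝ, ∀ s, 0 < s → c.nu ψ {p | ‖tx p‖ ≤ s ∧ p o ≤ 1} ≤ ENNReal.ofReal (C * s)

/-- row IRG: the commutator function of a local distribution -/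
def IRG : Prop := ∀ σ K x (f : Sch), TC c x → Loc c σ K x → Bornology.IsBounded K →
  HasCompactSupport f → ∃ R : ℝ, ∀ (t : ℝ) (y : R2), |t| ≤ 1 → R ≤ ‖y‖ →
    inner ℂ (x f) (Ut c.Q (bas o t + tv y) (x f)) =
      inner ℂ (Ut c.Q (bas o t + tv y) (σ • Th c (x (ng f)))) (σ • Th c (x (ng f)))

/-- row ANI: the gain under anisotropic scalings -/
def ANI : Prop := ∀ σ K x (r s : ℝ), TC c x → Loc c σ K x → Bornology.IsBounded K → 0 < r →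
  r < 1 → 0 < s → s < 1 → ∃ (m : ℕ) (C : ℝ), ∀ (N : ℕ) (f g : Sch),
    (∀ z, g z = f (scp (r ^ N) (s ^ N) z)) →
    ‖x g‖ ≤ C * ((r * s) ^ (-(15 / 8 : ℝ))) ^ N * sn m f

/-- row KILL: no local eigenvectors of low twist -/
def KILL : Prop := ∀ σ y (r s a : ℝ), TC c y → Loc c σ ∅ y → 0 < r → r < 1 → 0 < s → s < 1 →
  act c (Real.sqrt (r * s)) (Lsc r s) y = a • y → (r * s) ^ (-(15 / 8 : ℝ)) < a → y = 0

/-- row LIM: data as anisotropic limits -/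
def LIM : Prop := ∀ K w, Src c K w → ∀ σ S (r s a : ℝ), σ * σ = 1 → ContDiff ℝ ∞ S →
  (∀ u, S (-u) = σ • S u) → 0 < r → r < 1 → 0 < s → s < 1 →
  pf (Real.sqrt (r * s)) (Lsc r s) S = a • S → 0 ≤ a → a * (r * s) ^ (-(15 / 8 : ℝ)) < 1 →
  ∃ x, Dat c K w σ S x ∧ ∀ (s' : ℝ) L (κ : ℝ), 0 < s' → IsLor L →
    (∀ z, sim 1 L 0 (scp r s z) = scp r s (sim 1 L 0 z)) → pf s' L S = κ • S →
    κ • ga c s' L x = x

/-! ## boost weights -/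

/-- row GK: the KMS condition with Gaussians -/
def GK : Prop := ∀ ψ ψ' (τ : ℂ), Pr (c.N (Wdg va vb 0)) c.Om ψ ψ' →
  ∫ t : ℝ, Complex.exp (-(t - τ) ^ 2) • Bo c.Q t ψ =
    ∫ t : ℝ, Complex.exp (-(t - τ + Real.pi * I) ^ 2) • Bo c.Q t (c.J ψ')

/-- row SHF: continuation of the boosted distribution -/
def SHF : Prop := ∀ σ y ξ f (τ : ℂ), TC c y → Loc c σ ∅ y →
  ∫ t : ℝ, Complex.exp (-(t - τ) ^ 2) * inner ℂ ξ (act c 1 (Lb t) y f) =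
    ∫ t : ℝ, Complex.exp (-(t - τ + Real.pi * I) ^ 2) *
      inner ℂ ξ (act c 1 (Lb t) (σ • act c 1 r1 y) f)

/-- row WL: the weight lemma -/
def WL : Prop := ∀ σ (k : ℕ) y, σ * σ = 1 → Hom c σ k y → ∃ z : ℤ → TT D,
  (∀ n, Hom c σ k (z n) ∧ ∀ t, act c 1 (Lb t) (z n) = Real.exp (n * t) • z n) ∧
  (∀ n, 4 - (k : ℤ) ≤ |n| → z n = 0) ∧ y = ∑ n ∈ Finset.Icc (-3 : ℤ) 3, z n ∧
  σ • act c 1 r1 y = ∑ n ∈ Finset.Icc (-3 : ℤ) 3, (-1 : ℝ) ^ n • z n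

/-- row EU: existence and uniqueness give covariance -/
def EU : Prop := ∀ K w, Src c K w → ∀ k : ℕ, (∀ y, Hom c ((-1) ^ k) k y → y = 0) →
  (∀ h : Tn (Fin 4 ⊕ Fin k), ∃ x, HD c K w h x) → Ext c K w k

/-- degrees three and higher -/
def A3 : Prop := ∀ K w, Src c K w → ∀ k, 3 ≤ k → Ext c K w k

/-- degrees zero and one -/
def A1 : Prop := ∀ K w, Src c K w → ∀ k, k < 2 → Ext c K w k

/-- row FU: extension to the diagonal -/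
def FU : Prop := ∀ K w n, Src c K w → (∀ k, n ≤ k → Ext c K w k) → ∃ v, Fu c n K w v

/-- row ODD: the odd class in degree two -/
def ODD : Prop := ∀ K w, Src c K w →
  Cv c K w 2 fun (h : Tn (Fin 4 ⊕ Fin 2)) u => pol h u - swp (pol h u)

/-- row AQ: degree two up to the scalar class -/
def AQ : Prop := ∀ K w, Src c K w → ∃ lam : Tn (Fin 4 ⊕ Fin 2) →ₗ[ℝ] ℝ,
  (∀ L h, IsLor L → lam (pb L h) = lam h) ∧
  Cv c K w 2 fun (h : Tn (Fin 4 ⊕ Fin 2)) u => pol h u - lam h • pol (HH et) u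

/-! ## degree two, the scalar class -/

/-- row HMU: functions of the mass preserve wedge locality -/
def HMU : Prop := ∀ a b y ψ ψ' (h : ℝ → ℝ), IsNull a → IsNull b → 0 < mdot a b →
  SN.Bd (fun t => (h t : ℂ)) → Pr (c.N (Wdg a b y)) c.Om ψ ψ' →
  Pr (c.N (Wdg a b y)) c.Om (c.bt.Phi (fun p => h (mu p)) ψ) (c.bt.Phi (fun p => h (mu p)) ψ')

/-- row DL0: a distribution with local gradient is local -/
def DL0 : Prop := ∀ σ K x, TC c x → (∀ v, Loc c (-σ) K (x ∘L KDa.dS v)) → Loc c σ K x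

/-- `F(P) x` is a tempered distribution -/
def Mu (F : V → ℂ) (x : TT D) : Prop := ∃ (m : ℕ) (C : ℝ), ∀ f : Sch,
  ∫⁻ p, ENNReal.ofReal (‖F p‖ ^ 2) ∂c.nu (x f) ≤ ENNReal.ofReal ((C * sn m f) ^ 2)

/-- row IRN0: division by the energy -/
structure IRN0 : Prop where
  fix : ∀ x z, TC c x → TC c z → Mu c (fun p => ((p o)⁻¹ : ℝ)) z →
    x = (2 : ℝ) • act c 2 GF.one x + z → Mu c (fun p => ((p o)⁻¹ : ℝ)) x
  der : ∀ y v, TC c y → Mu c (fun p => ((p o)⁻¹ : ℝ)) (y ∘L KDa.dS v)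
  add : ∀ F x y, Measurable F → Mu c F x → Mu c F y → Mu c F (x + y)
  dil : ∀ x (a : ℝ), Mu c (fun p => ((p o)⁻¹ : ℝ)) x →
    Mu c (fun p => ((p o)⁻¹ : ℝ)) (a • act c 2 GF.one x)

/-- row IRN: division by the energy, with logarithms -/
def IRN : Prop := ∀ K (x y : ℝ → TT D) v, PL K x → (∀ l, TC c (x l)) → (∀ l, TC c (y l)) →
  (∀ l, x l = (2 : ℝ) • act c 2 GF.one (x (l + Real.log 2)) + y l ∘L KDa.dS v) →
  ∀ l, Mu c (fun p => ((p o)⁻¹ : ℝ)) (x l)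

/-- row MUL -/
def MUL : Prop := ∀ F x, TC c x → Measurable F → Mu c F x →
  ∃ y, TC c y ∧ ∀ f, c.bt.Dom F (x f) ∧ y f = c.bt.Psi F (x f)

/-- `m` is the potential of `n` -/
structure Pot (n : V →ₗ[ℝ] TT D) (m : TT D) : Prop where
  tc : TC c m
  pos : ∀ f, c.bt.P {p | mu p ≠ 0} (m (bx f)) = c.bt.P {p | mu p ≠ 0} (dvg (fun v => n v) f)
  nul : ∀ v f, c.bt.P {p | mu p = 0} (m (KDa.dS v f)) = c.bt.P {p | mu p = 0} (n v f)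

/-- row POT: existence, uniqueness and locality of the potential -/
structure POT : Prop where
  ex : ∀ n : V →ₗ[ℝ] TT D, (∀ v, TC c (n v)) → (∀ v, Mu c (fun p => ((p o)⁻¹ : ℝ)) (n v)) →
    Mu c (fun p => ((mu p * be p)⁻¹ : ℝ)) (dcr n va) →
    Mu c (fun p => ((mu p * al p)⁻¹ : ℝ)) (dcr n vb) →
    (∀ v v' f, c.bt.P {p | mu p = 0} (crl n v v' f) = 0) → ∃ m, Pot c n m
  uq : ∀ n m m', Pot c n m → Pot c n m' → m = m'
  loc : ∀ n m K, (∀ v, TC c (n v)) → (∀ v, Loc c (-1) K (n v)) → Pot c n m → Loc c 1 K m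

/-- row CRL: bounds for a covariant curl -/
def CRL : Prop := ∀ K (n : ℝ → V →ₗ[ℝ] TT D), (∀ l v, TC c (n l v)) →
  (∀ v, PL K fun l => n l v) →
  (∀ l s L v v', 0 < s → IsLor L →
    act c s L (crl (n (l + Real.log s)) v v') = crl (n l) (sim 1 L 0 v) (sim 1 L 0 v')) →
  ∀ l, Mu c (fun p => ((mu p * be p)⁻¹ : ℝ)) (dcr (n l) va) ∧
    Mu c (fun p => ((mu p * al p)⁻¹ : ℝ)) (dcr (n l) vb) ∧
    ∀ v v' f, c.bt.P {p | mu p = 0} (crl (n l) v v' f) = 0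

/-- row DIV: division by the momentum -/
def DIV : Prop := ∀ K (n : V →ₗ[ℝ] Fam D) (cc : ℝ → EC → EC → TT D), (∀ v l η, TC c (n v l η)) →
  (∀ v l (η : EC), Loc c (-1) (tsupport η.1) (n v l η)) → (∀ v η, PL K fun l => n v l η) →
  (∀ l η η', TC c (cc l η η')) →
  (∀ v l η η', n v l η - n v l η' = cc l η η' ∘L KDa.dS v) →
  (∀ (s : ℝ) L v, 0 < s → IsLor L → s • ga c s L (n v) = n (sim 1 L 0 v)) →
  ∃ m : Fam D, (∀ l (η : EC), TC c (m l η) ∧ Loc c 1 (tsupport η.1) (m l η)) ∧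
    (∀ η, PL K fun l => m l η) ∧ (∀ l η η', m l η - m l η' = cc l η η') ∧
    ∀ (s : ℝ) L, 0 < s → IsLor L → s ^ 2 • ga c s L m = m

/-- degree two -/
def A2 : Prop := ∀ K w, Src c K w → Ext c K w 2

/-! ## assembly -/

/-- row PRE -/
def PRE : Prop := ∀ K R, LT c.Q K R → ∃ w, Pre c K R w

/-- row SRC -/
def SRC : Prop := ∀ K w, Pre0 c K w → Src c K fun l I J => Pp c ∘L w l I J

/-- row FIN -/
def FIN : Prop := ∀ K R w v, Pre c K R w → Fu c 0 K (fun l I J => Pp c ∘L w l I J) v →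
  ∃ wp, TP2L c.Q K R wp ∧ ∀ l, LocW c (wp l)

/-- row TPL: the result for logarithmic families -/
def TPL : Prop := ∀ K R, LT c.Q K R → ∃ wp, TP2L c.Q K R wp ∧ ∀ l, LocW c (wp l)

/-- row CMP -/
def CMP : Prop := ∀ wp, TP2 c.Q c.T true wp → LocW c wp →
  ∃ wm, TP2 c.Q c.T false wm ∧ Cmp c wp wm

/-- row T3P -/
def T3P : Prop := c.can → ∀ wp wm, TP2 c.Q c.T true wp → TP2 c.Q c.T false wm → Cmp c wp wm →
  ∃ t, TP c.Q c.T wp wm t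

/-- all rows -/
structure Rows : Prop where
  ten : TEN
  exp : EXP
  span : SPAN
  comb : COMB
  eq1 : EQ1
  eq2 : COMB → EQ2
  inv : INV
  ba : T3 c → TEN → BA c
  bp : T3 c → TEN → BA c → ∀ K w, Src c K w → BP c K w
  rho : B0 c → RHO c
  irq : B0 c → IRQ c
  irg : B0 c → IRG c
  ani : B0 c → RHO c → IRQ c → IRG c → ANI c
  kill : B0 c → ANI c → KILL c
  lim : B0 c → ANI c → LIM c
  wl : B0 c → KILL c → WL c
  eu : B0 c → EU c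
  a3 : B0 c → SPAN → LIM c → WL c → EU c → A3 c
  a1 : B0 c → EQ1 → A1 c
  fu : B0 c → FU c
  odd : B0 c → A3 c → FU c → ODD c
  aq : B0 c → EQ2 → ODD c → AQ c
  hmu : B0 c → HMU c
  dl0 : B0 c → DL0 c
  irn0 : B0 c → RHO c → IRN0 c
  irn : B0 c → IRN0 c → IRN c
  mul : B0 c → MUL c
  pot : B0 c → MUL c → HMU c → DL0 c → POT c
  crl : B0 c → CRL c
  div : B0 c → IRN c → POT c → CRL c → DIV c
  a2 : B0 c → INV → A1 c → AQ c → DIV c → A2 c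
  pre : B0 c → PRE c
  src : B0 c → SRC c
  fin : B0 c → FIN c
  cmp : B0 c → CMP c
  t3p : B0 c → T3P c

theorem Rows.b0 {c : Ctx D} (R : Rows c) (t : T3 c) : B0 c :=
  ⟨t, R.ten, R.exp, R.ba t R.ten, R.bp t R.ten (R.ba t R.ten)⟩

/-- **The time ordered products of a logarithmic family exist.** -/
theorem Rows.tpl {c : Ctx D} (R : Rows c) (t : T3 c) : TPL c := fun K S hS => by
  have b := R.b0 t
  have rho := R.rho b
  have ani := R.ani b rho (R.irq b) (R.irg b)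
  have a3 := R.a3 b R.span (R.lim b ani) (R.wl b (R.kill b ani)) (R.eu b)
  have a1 := R.a1 b R.eq1
  have div := R.div b (R.irn b (R.irn0 b rho)) (R.pot b (R.mul b) (R.hmu b) (R.dl0 b)) (R.crl b)
  have a2 := R.a2 b R.inv a1 (R.aq b (R.eq2 R.comb) (R.odd b a3 (R.fu b))) div
  obtain ⟨w, hw⟩ := R.pre b K S hS
  have hs := R.src b K w hw.toPre0
  obtain ⟨v, hv⟩ := R.fu b K _ 0 hs fun k _ => by
    rcases lt_trichotomy k 2 with h | rfl | h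
    exacts [a1 _ _ hs k h, a2 _ _ hs, a3 _ _ hs k h]
  exact R.fin b K S w v hw hv

/-- the constant family -/
theorem lt_can (c : Ctx D) [Fact c.can] (pl : ∀ x : Completion D, PL 0 fun _ : ℝ => x) :
    LT c.Q 0 fun _ => c.T :=
  ⟨fun _ => c.hT, fun _ => c.ct0.cov, fun _ => c.ct0.conserved, fun _ => c.ct0.trace,
    fun _ => c.ct0.bian, fun _ _ _ _ => pl _⟩

/-- **The time ordered products exist.** -/
theorem Rows.tpd {c : Ctx D} [hc : Fact c.can] (R : Rows c) (t : T3 c) :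
    ∃ wp wm t, TP c.Q c.T wp wm t := by
  obtain ⟨w, h, hl⟩ := R.tpl t 0 _ (lt_can c fun _ => PL.const _)
  have tp : TP2 c.Q c.T true (w 0) := ⟨h.fac 0, h.swap 0, h.trc 0, fun s L a I J F G hs hL e => by
    simpa only [fun K M => (h.pl K M).of_zero (0 + Real.log s) 0] using
      h.cov 0 s L a I J F G hs hL e⟩
  obtain ⟨wm, tm, hm⟩ := R.cmp (R.b0 t) _ tp (hl 0)
  exact ⟨_, wm, R.t3p (R.b0 t) hc.out _ wm tp tm hm⟩

end

end Vale.Agent.P352X.ZZ.TPD
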