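import Vale.Agent.P352Z.TPD.Bp2
import Vale.Agent.P352X.TPD.SC

/-!
# P352Z, block TPD: row A2, degree two (helper18)
-/

set_option linter.all false

open MeasureTheory Filter Topology
open scoped SchwartzMap ComplexConjugate ENNReal ContDiff

namespace Vale.Agent.P352X.ZZ.TPD

open Vale.Agent.P352 Vale.Agent.P352.GF Vale.Agent.P352.BW Vale.Agent.P352.H246
open Vale.Agent.P352.H496 Vale.Agent.P352.H755 Vale.Agent.P352.H15
open Vale.Agent.P352X.TPD (cs b3 pf)
open Vale.Agent.P352X.TPD.Tn1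
open Vale.Agent.P352X.TPD.Sc (pol_one pol_inj der_sum)
open UniformSpace (Completion)

noncomputable section

namespace At

open Tn4

variable {L : Ix → V}

lemma pb_tens {ι κ : Type} [Fintype ι] [DecidableEq ι] [Fintype κ] [DecidableEq κ] (L : Ix → V)
    (A : Tn ι) (B : Tn κ) (μ : ι ⊕ κ → Ix) :
    pb L (fun ρ : ι ⊕ κ → Ix => A (ρ ∘ .inl) * B (ρ ∘ .inr)) μ =
      pb L A (μ ∘ .inl) * pb L B (μ ∘ .inr) := by
  simp only [pb_apply]
  rw [Finset.sum_mul_sum, ← Fintype.sum_prod_type',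
    ← (Equiv.sumArrowEquivProdArrow ι κ Ix).sum_comp]
  refine Finset.sum_congr rfl fun ρ _ => ?_
  rw [Fintype.prod_sum_type]
  exact mul_mul_mul_comm _ _ _ _

lemma two (f : Fin 2 → Ix) : ![f 0, f 1] = f := funext fun i => by fin_cases i <;> rfl

lemma pb_HH (hL : IsLor L) (k : Tn (Fin 2)) : pb L (HH k) = HH (pb L k) := by
  let q : Tn (Fin 2) → Tn (Fin 4) := fun k ν => k ![ν 0, ν 2] * et ![ν 1, ν 3]
  have e : ∀ k : Tn (Fin 2), HH k = fun ρ : Fin 4 ⊕ Fin 2 → Ix =>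
      q k (ρ ∘ .inl) * et (ρ ∘ .inr) := fun k => funext fun ρ => by
    rw [← two (ρ ∘ .inr)]
    simp only [HH, q, Function.comp_apply, LinearMap.coe_mk, AddHom.coe_mk]
    ring
  funext μ
  rw [e, e, pb_tens, pb_et hL]
  congr 1
  simp only [q]
  conv_rhs => rw [← pb_et hL]
  simp only [pb4, pb2, Matrix.cons_val_zero, Matrix.cons_val_one, Matrix.cons_val, sum_mul2]
  refine Finset.sum_congr rfl fun _ _ => ?_
  rw [Finset.sum_comm]
  exact Finset.sum_congr rfl fun _ _ => Finset.sum_congr rfl fun _ _ =>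
    Finset.sum_congr rfl fun _ _ => by ring

lemma pol_HH (k : Tn (Fin 2)) (u : V) (ν : Fin 4 → Ix) :
    pol (HH k) u ν = mu u * et ![ν 1, ν 3] * k ![ν 0, ν 2] := by
  simp [P352X.TPD.pol, HH, sum_succ, Matrix.empty_eq, P352X.TPD.et, bas, mu, GF.mdot,
    Finset.sum_mul]
  split_ifs
  exacts [Finset.sum_congr rfl fun _ _ => by ring, rfl]

/-- `u^2 v ⊗ η` -/
def Y : V →ₗ[ℝ] V → Tn (Fin 3) := (Tn4.pm (finRotate 3)).compLeft V ∘ₗ P352X.TPD.Sc.Y

lemma Y_apply (v u : V) (ν : Fin 3 → Ix) :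
    Y v u ν = mu u * et ![ν 1, ν 2] * (eta (ν 0) * v (ν 0)) := rfl

/-- `v ⊗ e_r` -/
def kk (r : Ix) : V →ₗ[ℝ] Tn (Fin 2) := Tn4.pm (.swap 0 1) ∘ₗ P352X.TPD.Sc.kk r

lemma kk_apply (r : Ix) (v : V) (ν : Fin 2 → Ix) :
    kk r v ν = bas r 1 (ν 1) * (eta (ν 0) * v (ν 0)) := rfl

/-- the derivative of `Y` -/
def hh : V →ₗ[ℝ] Tn (Fin 4 ⊕ Fin 1) where
  toFun v μ := 2 * et ![μ (.inl 2), μ (.inr 0)] * et ![μ (.inl 1), μ (.inl 3)] *
    (eta (μ (.inl 0)) * v (μ (.inl 0)))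
  map_add' v v' := by funext ν; simp [mul_add]
  map_smul' a v := by funext ν; simp; ring

lemma Y_smooth (v : V) : ContDiff ℝ ∞ (Y v) :=
  sm_lin (Tn4.pm (finRotate 3)) (P352X.TPD.Sc.Y_smooth v)

lemma Y_neg (v u : V) : Y v (-u) = -(-1 : ℝ) • Y v u := by
  funext ν
  simp [Y_apply, mu, GF.mdot]

lemma i3_Y (r : Ix) (v : V) : i3 r (Y v) = pol (HH (kk r v)) := by
  funext u ν
  simp [P352X.TPD.i3, pol_HH, Y_apply, kk_apply]
  ring

lemma d3_Y (v : V) : d3 (Y v) = pol (hh v) := by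
  funext u ν
  have h := congrFun (congrFun (P352X.TPD.Sc.d3_Y v) u) ![ν 1, ν 3, ν 2, ν 0]
  rw [pol_one] at h ⊢
  exact h

lemma trc_kk (r : Ix) (v : V) : trc (kk r v) = v r := P352X.TPD.Sc.trc_kk r v

lemma pb_kk (hL : IsLor L) (t : Ix) (v : V) :
    pb L (kk t (sim 1 L 0 v)) = ∑ r, L r t • kk r v := by
  simp only [kk, LinearMap.comp_apply, ← pb_pm, P352X.TPD.Sc.pb_kk ten_thm hL, map_sum, map_smul]

lemma pf_Y (hL : IsLor L) (s : ℝ) (v : V) : pf s L (Y (sim 1 L 0 v)) = s ^ 2 • Y v := by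
  funext u
  have h := congrArg (Tn4.pm (finRotate 3)) (congrFun (P352X.TPD.Sc.pf_Y ten_thm hL s v) u)
  rw [P352X.TPD.pf, pb_pm] at h
  exact h

lemma pb_hh (hL : IsLor L) (v : V) : pb L (hh (sim 1 L 0 v)) = hh v := by
  have h := (ten_thm.d1 1 L _ (Y_smooth (sim 1 L 0 v))).2
  rw [pf_Y hL, d3_Y, ten_thm.pol] at h
  simp only [one_pow, one_smul, d3_Y] at h
  exact pol_inj h.symm

variable {D : Type*} [NormedAddCommGroup D] [InnerProductSpace ℂ D] {c : Ctx D} {K : ℕ}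
  {w : ℝ → WW D}

/-- the derivative of a family -/
def dd (r : Ix) : Fam D →ₗ[ℝ] Fam D where
  toFun x l η := x l η ∘L KDa.dS (bas r 1)
  map_add' x y := rfl
  map_smul' a x := rfl

lemma ga_dd (b : BA c) {s : ℝ} (hs : 0 < s) (hL : IsLor L) (r : Ix) (x : Fam D) :
    ga c s L (dd r x) = s • ∑ t, L r t • dd t (ga c s L x) := by
  funext l η
  rw [ga_apply, Pi.smul_apply, Pi.smul_apply]
  refine (b.der s L _ _ hs hL).trans ?_
  rw [show sim 1 L 0 (bas r 1) = L r from funext fun n => by simp [sim, bas], der_sum,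
    Finset.sum_apply, Finset.sum_apply]
  rfl

lemma pl_der {x : ℝ → TT D} (h : PL K x) (v : V) : PL K fun l => x l ∘L KDa.dS v :=
  PL.clm fun f => h.app _

/-- the scalar class -/
theorem sc (b : B0 c) (dv : DIV c) (S : Src c K w) (a1 : Ext c K w 1) {κ : ℝ} (hκ : κ ≠ 0)
    (a2 : Cv c K w 2 fun (k : Tn (Fin 2)) u => pol (HH k) u - (κ * trc k) • pol (HH et) u) :
    ∃ m, Dat c K w 1 (pol (HH et)) m ∧ ∀ (s : ℝ) L, 0 < s → IsLor L → s ^ 2 • ga c s L m = m := by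
  obtain ⟨B1, h1, c1⟩ := a1
  obtain ⟨B0, h0, c0⟩ := a2
  have T := b.ten
  have P := b.bp K w S
  have G := fun v => P.g3 (-1) (Y v) (by norm_num) (Y_smooth v) (Y_neg v)
  have ok := fun (η η' : EC) k => Bp.okc T η η' (T.smooth _ _ (HH k)).1
  let p : V →ₗ[ℝ] Fam D :=
    { toFun := fun v l η => psi (w l) (b3 η.1 (Y v))
      map_add' := fun v v' => funext₂ fun l η => by
        rw [map_add]; exact ((G v).2.2.2 _ 0 l η (Y_smooth v')).1
      map_smul' := fun a v => funext₂ fun l η => by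
        rw [map_smul]; exact ((G v).2.2.2 _ a l η (Y_smooth v)).2 }
  let n : V →ₗ[ℝ] Fam D :=
    { toFun := fun v => κ⁻¹ • (p v + B1 (hh v) + (-1 : ℝ) • ∑ r, dd r (B0 (kk r v)))
      map_add' := fun v v' => by
        simp only [map_add, Finset.sum_add_distrib]
        module
      map_smul' := fun a v => by
        simp only [map_smul, ← Finset.smul_sum, RingHom.id_apply]
        module }
  have hn : ∀ v, n v = κ⁻¹ • (p v + B1 (hh v) + (-1 : ℝ) • ∑ r, dd r (B0 (kk r v))) :=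
    fun v => rfl
  have hn' : ∀ v l η, n v l η = κ⁻¹ • (psi (w l) (b3 η.1 (Y v)) + B1 (hh v) l η +
      (-1 : ℝ) • ∑ r, B0 (kk r v) l η ∘L KDa.dS (bas r 1)) := fun v l η => by
    rw [hn]
    simp only [Pi.smul_apply, Pi.add_apply, Finset.sum_apply]
    rfl
  rw [pow_one] at h1
  rw [neg_one_sq] at h0
  refine (dv K n (fun l η η' => psi (w l) (cs (η.1 - η'.1) (pol (HH et))))
    (fun v l η => hn' v l η ▸ b.ba.tc_smul _ _ (b.ba.tc_add _ _ (b.ba.tc_add _ _ ((G v).1 l η).1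
      ((h1 _).tc l η)) (b.ba.tc_smul _ _ (tc_sum b.ba _ fun r => b.ba.tc_der _ _ ((h0 _).tc l η)))))
    (fun v l η => hn' v l η ▸ b.ba.loc_smul _ _ _ _ (b.ba.loc_add _ _ _ _ (b.ba.loc_add _ _ _ _
      ((G v).1 l η).2 ((h1 _).loc l η)) (b.ba.loc_smul _ _ _ _ (loc_sum b.ba _ fun r =>
        b.ba.loc_der _ _ _ _ ((h0 _).loc l η)))))
    (fun v η => ((((P.pl _).add ((h1 _).pl η)).add ((PL.sum _ fun r _ =>
      pl_der ((h0 _).pl η) _).smul _)).smul _).congr fun l => (hn' v l η).symm)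
    (fun l η η' => P.tc l _ (ok η η' et)) (fun v l η η' => ?_) fun s L v hs hL => ?_).imp
    fun m h => ⟨⟨fun l η => (h.1 l η).1, fun l η => (h.1 l η).2, h.2.2.1, h.2.1⟩, h.2.2.2⟩
  · have e1 := (G v).2.1 l η η'
    have e2 : ∀ r, psi (w l) (cs (η.1 - η'.1) (i3 r (Y v))) = B0 (kk r v) l η - B0 (kk r v) l η' +
        (κ * v r) • psi (w l) (cs (η.1 - η'.1) (pol (HH et))) := fun r => by
      have o1 := Bp.okc T η η' ((T.smooth _ _ (HH et)).1.const_smul (κ * v r))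
      have o2 : (κ * v r) • cs (η.1 - η'.1) (pol (HH et)) =
          cs (η.1 - η'.1) fun u => (κ * v r) • pol (HH et) u :=
        funext fun u => smul_comm (κ * v r) _ _
      rw [i3_Y, (h0 _).coc, ← P.smul l _ _ (ok η η' et), o2, ← P.add l _ _ (Bp.okc T η η'
        ((T.smooth _ _ _).1.sub ((T.smooth _ _ _).1.const_smul _))) o1]
      congr 1
      funext u
      simp [cs, smul_sub, trc_kk]
    rw [d3_Y, ← (h1 _).coc] at e1
    simp only [e2, ContinuousLinearMap.add_comp, ContinuousLinearMap.sub_comp,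
      ContinuousLinearMap.smul_comp, Finset.sum_add_distrib, Finset.sum_sub_distrib,
      ← smul_smul, ← Finset.smul_sum, ← der_sum] at e1
    rw [hn', hn', ← smul_sub, inv_smul_eq_iff₀ hκ]
    linear_combination (norm := module) e1
  · have e1 := (G (sim 1 L 0 v)).2.2.1 s L hs hL
    have e2 := c1 s L (hh (sim 1 L 0 v)) hs hL
    have e3 := fun t => c0 s L (kk t (sim 1 L 0 v)) hs hL
    rw [pf_Y hL, ← map_smul] at e1
    have e4 : s • ga c s L (p v) = p (sim 1 L 0 v) := smul_right_injective _ hs.ne' (by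
      beta_reduce
      rw [smul_smul s s (ga c s L (p v)), ← pow_two, ← map_smul, ← map_smul]
      exact e1)
    rw [pb_hh hL, pow_one] at e2
    simp only [pb_kk hL, map_sum, map_smul] at e3
    rw [hn, hn, ← e4, ← e2]
    simp only [← e3, map_smul, map_add, map_sum, ga_dd b.ba hs hL, ← Finset.smul_sum]
    rw [Finset.sum_comm]
    module

end At

open At in
theorem a2_row {D : Type*} [NormedAddCommGroup D] [InnerProductSpace ℂ D] (c : Ctx D) :
    B0 c → INV → A1 c → AQ c → DIV c → A2 c := fun b inv a1 aq dv K w S => by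
  obtain ⟨lam, hl, q⟩ := aq K w S
  have T := b.ten
  have P := b.bp K w S
  have q' := q.comp HH fun L t hL => (pb_HH hL t).symm
  obtain ⟨κ, hκ⟩ := inv (lam ∘ₗ HH) fun L k hL => by
    rw [LinearMap.comp_apply, ← pb_HH hL, hl L _ hL, LinearMap.comp_apply]
  simp only [show ∀ k, lam (HH k) = κ * trc k from hκ] at q'
  obtain ⟨m, h1, h2⟩ : ∃ m, Dat c K w 1 (pol (HH et)) m ∧
      ∀ (s : ℝ) L, 0 < s → IsLor L → s ^ 2 • ga c s L m = m := by
    rcases eq_or_ne κ 0 with rfl | h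
    · obtain ⟨B, h1, h2⟩ := q'
      exact ⟨B et, by simpa using h1 et, fun s L hs hL => by
        simpa only [T.et L hL] using h2 s L et hs hL⟩
    · exact sc b dv S (a1 K w S 1 one_lt_two) h q'
  have s1 := (T.smooth _ _ (HH et)).1
  have q2 : Cv c K w 2 fun (h : Tn (Fin 4 ⊕ Fin 2)) u => lam h • pol (HH et) u :=
    ⟨lam.smulRight m, fun h => P.dsmul _ (lam h) _ _ s1 (by rwa [neg_one_sq]),
      fun s L h hs hL => by
        rw [LinearMap.smulRight_apply, LinearMap.smulRight_apply, hl L h hL, map_smul, smul_comm,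
          h2 s L hs hL]⟩
  have q3 := Cv.add P q q2
    (fun h => (T.smooth _ _ h).1.sub (s1.const_smul _)) fun h => s1.const_smul _
  simp only [sub_add_cancel] at q3
  exact q3

end

end Vale.Agent.P352X.ZZ.TPD
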