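import Vale.Agent.P352X.TPD.Ba1
import Vale.Agent.P352Z.TPD.Spec

/-!
# P352Z, block TPD: row BA1 (port, helper18)
-/

set_option linter.all false

open MeasureTheory Filter Topology
open scoped SchwartzMap ComplexConjugate ENNReal ContDiff

namespace Vale.Agent.P352X.ZZ.TPD

open Vale.Agent.P352 Vale.Agent.P352.GF Vale.Agent.P352.BW Vale.Agent.P352.H246
open Vale.Agent.P352.H496 Vale.Agent.P352.H755 Vale.Agent.P352.H15
open UniformSpace (Completion)
open Complex (I)

noncomputable section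

namespace Ba1r

export Vale.Agent.P352X.TPD.Ba1r (jr_eq sj_sq jr_jr jr_jr' jr0 jL_r1 jL_cm r1_r1 sc sc_apply
  sc_cont se se_coe pS_one pS_mul dS_pS pS_cont sn_nn pS_bd pS_gro)

/-! ## matrices -/

/-! ## the Hilbert space -/

variable {D : Type*} [NormedAddCommGroup D] [InnerProductSpace ℂ D] {c : Ctx D}

lemma ug_ug (g : GRP c) {s s' : ℝ} {L L' : Ix → V} (a a' : V) (hs : 0 < s) (hs' : 0 < s')
    (hL : IsLor L) (hL' : IsLor L') (z : Completion D) : Ug c.Q s L a (Ug c.Q s' L' a' z) =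
      Ug c.Q (s * s') (T.cm L' L) (sim s L a a') z :=
  congrArg (fun A : Completion D →L[ℂ] Completion D => A z) (g.mul s L a s' L' a' hs hs' hL hL')

lemma th_eq (j : JC c) (e : TEN) (z : Completion D) : Th c z = Ug c.Q 1 r1 0 (c.J z) := by
  rw [Th_apply, j.ug 1 r1 0 z one_pos e.r1.1, jL_r1, jr0]

lemma th_ug (g : GRP c) (j : JC c) (e : TEN) {s : ℝ} {L : Ix → V} (a : V) (z : Completion D)
    (hs : 0 < s) (hL : IsLor L) : Th c (Ug c.Q s L a z) = Ug c.Q s L (-a) (Th c z) := by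
  rw [Th_apply, th_eq j e, ug_ug g _ _ one_pos hs e.r1.1 hL, ug_ug g _ _ hs one_pos hL e.r1.1,
    j.ug _ _ _ _ (mul_pos one_pos hs) (e.lcm _ _ e.r1.1 hL).1, jL_cm, e.r1.2, jr_jr, Grp.sim_zero,
    mul_comm]

lemma th_om (g : GRP c) : Th c c.Om = c.Om := by
  rw [Th_apply, g.vac]
  exact c.E.J_xi

lemma th_inner (g : GRP c) (v w : Completion D) :
    inner ℂ (Th c v) (Th c w) = inner ℂ w v := by
  rw [Th_apply, Th_apply, P132.g5_inner_J, inner_unitary (g.uni _ _ _)]

lemma om_om : inner ℂ c.Om c.Om = 1 := by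
  rw [inner_self_eq_norm_sq_to_K, c.E.norm_xi]
  simp

lemma pp_apply (z : Completion D) : Pp c z = z - inner ℂ c.Om z • c.Om := rfl

lemma T_smul (m n : Ix) {f : Fn} (hf : GF.IsTest f) (a : ℂ) (v : D) :
    c.T m n f (a • v) = a • c.T m n f v := by
  refine ext_inner_right ℂ fun w => ?_
  rw [c.hT.herm m n f _ w hf, inner_smul_left, inner_smul_left, c.hT.herm m n f _ w hf]

lemma cov_r1 (e : TEN) (m n : Ix) {f : Fn} (hf : GF.IsTest f) (v : D) :
    c.Q.U 1 r1 0 (c.T m n f v) =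
      ((sj m * sj n : ℝ) : ℂ) • c.T m n (fun z => f (-jr z)) (c.Q.U 1 r1 0 v) := by
  have ht := Grp.test_sim one_pos e.r1.1 0 hf
  have h := c.hT.cov m n r1 0 _ v e.r1.1 ht
  have e1 : ∀ z, -jr (-jr z) = z := fun z => by rw [jr_jr, neg_neg]
  simp only [e.r1.2, e1] at h
  rw [h]
  simp only [r1, bas, apply_ite Complex.ofReal, Complex.ofReal_zero, ite_mul, mul_ite, zero_mul,
    mul_zero, ite_smul, zero_smul, Finset.sum_ite_eq, Finset.mem_univ, if_true, smul_smul]
  rw [← Complex.ofReal_mul, ← Complex.ofReal_mul,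
    show sj m * sj n * (-sj m * -sj n) = 1 by linear_combination (sj n * sj n) * sj_sq m + sj_sq n,
    Complex.ofReal_one, one_smul]

end Ba1r

open Ba1r

variable {D : Type*} [NormedAddCommGroup D] [InnerProductSpace ℂ D] (c : Ctx D)

/-- **row BA1** -/
theorem ba1_of : T1 c → TEN → BA1 c := fun t e => by
  have g := t.grp
  have j := t.jc
  have mul : ∀ s s' L L' x, 0 < s → 0 < s' → IsLor L → IsLor L' →
      act c s L (act c s' L' x) = act c (s * s') (T.cm L' L) x := fun s s' L L' x hs hs' hL hL' => by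
    ext f
    rw [act_apply, act_apply, act_apply, ug_ug g _ _ hs hs' hL hL', Grp.sim_zero,
      pS_mul e hs hs' hL hL']
  have one : ∀ x, act c 1 GF.one x = x := fun x => by
    ext f
    rw [act_apply, Grp.ug_one, pS_one, ContinuousLinearMap.one_apply]
  have nrm : ∀ s L x f, ‖act c s L x f‖ = ‖x (pS s L f)‖ := fun s L x f =>
    ContinuousLinearMap.norm_map_of_mem_unitary (g.uni s L 0) _
  refine ⟨fun s L a z => th_ug g j e a z, th_om g, fun z => ?_, fun z => c.E.J_J _, th_inner g,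
    fun F z hF => ?_, fun K M f f' => ?_, fun z => ⟨?_, ?_, ⟨inner ℂ c.Om z, ?_⟩, fun h => ?_,
    fun s L a => ?_⟩, fun O ψ ψ' h Z hZ => ?_, mul, one,
    nrm, fun s L x v hs hL => ?_, fun ι l L L0 x f hL h0 hl => ?_, fun x => ?_⟩
  · rw [Th_apply, th_eq j e, ug_ug g _ _ one_pos one_pos e.r1.1 e.r1.1, r1_r1, Grp.sim_zero,
      one_mul, Grp.ug_one]
    exact c.E.J_J z
  · exact c.bt.cov_anti c.bt SN.isPair_mdot measurable_id (A := fun y => -y)
      (fun p y => by simp [GF.mdot]) (Th c)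
      (fun y => th_ug g j e y z one_pos H496.isLor_one) hF
  · have t1 : ∀ f : Sch, GF.IsTest fun z => ev f (-jr z) := fun f => by
      simpa only [e.r1.2] using Grp.test_sim one_pos e.r1.1 0 ⟨f, rfl⟩
    rw [Th_apply, g.coe _ _ _ _ one_pos e.r1.1, cov_r1 e _ _ ⟨f, rfl⟩, cov_r1 e _ _ ⟨f', rfl⟩,
      c.Q.U_vac _ _ _ one_pos e.r1.1, T_smul _ _ (t1 f), smul_smul, Completion.coe_smul,
      LinearIsometryEquiv.map_smulₛₗ, j.two _ _ _ _ _ _ (t1 f) (t1 f'), smul_smul,
      ← Complex.ofReal_mul, Complex.conj_ofReal, ← Complex.ofReal_mul,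
      show sj K.1 * sj K.2 * (sj M.1 * sj M.2) * (sj K.1 * sj K.2 * (sj M.1 * sj M.2)) =
        sj K.1 * sj K.1 * (sj K.2 * sj K.2) * (sj M.1 * sj M.1) * (sj M.2 * sj M.2) by ring]
    simp only [sj_sq, one_mul, Complex.ofReal_one, one_smul, jr_jr']
    rfl
  · rw [pp_apply, inner_sub_right, inner_smul_right, om_om, mul_one, sub_self]
  · rw [pp_apply, pp_apply, map_sub, ContinuousLinearMap.map_smulₛₗ, th_om g, inner_conj_symm,
      ← th_inner g c.Om z, th_om g]
  · rw [pp_apply, sub_add_cancel]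
  · rw [pp_apply, h, zero_smul, sub_zero]
  · rw [pp_apply, pp_apply, map_sub, map_smul, g.vac, ← inner_unitary (g.uni s L a) c.Om z, g.vac]
  · have h1 := h 1 (one_mem _)
    rw [star_one, ContinuousLinearMap.one_apply] at h1
    rw [pp_apply, pp_apply, inner_sub_right, inner_sub_left, inner_smul_right, inner_smul_left,
      h Z hZ, inner_conj_symm, h1, ContinuousLinearMap.star_eq_adjoint,
      ContinuousLinearMap.adjoint_inner_left]
  · ext f
    simp only [act_apply, ContinuousLinearMap.comp_apply, ContinuousLinearMap.smul_apply,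
      dS_pS hs hL, ContinuousLinearMap.map_smul_of_tower]
  · refine tendsto_apply (C := 1) (.of_forall fun i => ?_)
      ((x.continuous.tendsto _).comp (pS_cont t.lie hL h0 hl f))
      (g.cont ι l (fun _ => 1) L (fun _ => 0) 1 L0 0 _ (fun i => ⟨one_pos, hL i⟩) one_pos h0
        tendsto_const_nhds hl tendsto_const_nhds)
    exact ContinuousLinearMap.opNorm_le_bound _ zero_le_one fun z => by
      rw [ContinuousLinearMap.norm_map_of_mem_unitary (g.uni _ _ _), one_mul]
  · obtain ⟨m, C, hC, h⟩ := t.lie.clm V ((normSeminorm ℂ (Completion D)).comp x.toLinearMap)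
      (continuous_norm.comp x.continuous)
    obtain ⟨N, hN⟩ := pS_gro t.lie e m
    refine ⟨N, fun f => ⟨C * Real.exp N * sn m f, fun r => ?_⟩⟩
    rw [nrm]
    refine (h _).trans ((mul_le_mul_of_nonneg_left (hN r f) hC).trans_eq (by ring))

theorem ba1_row : T3 c → TEN → BA1 c := fun t => ba1_of c t.toT1

/-- the PCT operator on the products of any Poincare tensor -/
theorem th_two (t : T3 c) (e : TEN) {R : Ix → Ix → Fld D} (hR : P2 c.Q R) (K M : I2) (f g : Sch) :
    Th c (R K.1 K.2 (ev f) (R M.1 M.2 (ev g) c.Q.vac) : D) =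
      (R K.1 K.2 (bar (ev (ng f))) (R M.1 M.2 (bar (ev (ng g))) c.Q.vac) : D) :=
  (ba1_of (c.wT R hR) (t.sub R hR).toT1 e).th_two K M f g

end

end Vale.Agent.P352X.ZZ.TPD
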