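import Vale.Agent.P352Z.TPD.Ten
import Vale.Agent.P352X.TPD.Bp2

/-!
# P352Z, block TPD: row BP1, the calculus of `psi` (helper18)
-/

set_option linter.all false

open MeasureTheory Filter Topology
open scoped SchwartzMap ComplexConjugate ENNReal ContDiff LineDeriv

namespace Vale.Agent.P352X.ZZ.TPD

open Vale.Agent.P352 Vale.Agent.P352.GF Vale.Agent.P352.BW Vale.Agent.P352.H246
open Vale.Agent.P352.H496 Vale.Agent.P352.H755 Vale.Agent.P352.H15
open UniformSpace (Completion)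
open Complex (I)

noncomputable section

namespace Bp

export Vale.Agent.P352X.TPD.Bp (e q e_apply e_supp e_cpt comp_supp ok_tst ten_supp offD ok_offD ten_e
  sum_q ten_der tst_mul tst_dr e_der e_mul_der ten_add ten_neg psi_apply sim_sub off_mul e_zero
  dr_neg dr_sub ec_ev sub_ev pull_eq psi_zero okc cs_zero)

open Tn4

/-- test tensors -/
def Ts (φ : V → Tn (Fin 4)) : Prop := ∀ ν, Tst fun u => φ u ν

lemma ts_cs {χ : V → ℝ} {S : V → Tn (Fin 4)} (h : Tst χ) (hS : ContDiff ℝ ∞ S) : Ts (cs χ S) :=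
  fun ν => tst_mul h (contDiff_pi.1 hS ν)

variable {D : Type*} [NormedAddCommGroup D] [InnerProductSpace ℂ D] {c : Ctx D} {w w' : WW D}
  {φ φ' : V → Tn (Fin 4)}

lemma add (h : Ts φ) (h' : Ts φ') : psi w (φ + φ') = psi w φ + psi w φ' := by
  ext f
  simp only [ContinuousLinearMap.add_apply, psi_apply, ← Finset.sum_add_distrib, ← map_add]
  refine Finset.sum_congr rfl fun I _ => Finset.sum_congr rfl fun J _ => congrArg _ ?_
  have t : Tst fun u => (φ + φ') u (q I J) := ⟨(h _).1.add (h' _).1, (h _).2.add (h' _).2⟩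
  ext z
  rw [ten_e t]
  simp [ten_e (h _), ten_e (h' _), add_mul]

lemma smul (a : ℝ) (h : Ts φ) : psi w (a • φ) = a • psi w φ := by
  ext f
  simp only [ContinuousLinearMap.smul_apply, psi_apply, Finset.smul_sum,
    ← ContinuousLinearMap.map_smul_of_tower]
  refine Finset.sum_congr rfl fun I _ => Finset.sum_congr rfl fun J _ => congrArg _ ?_
  have t : Tst fun u => (a • φ) u (q I J) := ⟨contDiff_const.mul (h _).1, (h _).2.mul_left⟩
  ext z
  rw [ten_e t]
  simp [ten_e (h _), mul_assoc]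

lemma cov' {s : ℝ} {L : Ix → V} (a : V) (hs : 0 < s) (hL : IsLor L) (h : Ts φ)
    (h' : Ts (pf s L φ)) (f g : Sch) (hg : ∀ x, g x = f (sim s L a x))
    (H : ∀ I J (G : S2), (∀ x y, G (x, y) =
      Api4.ten2 (e fun u => φ u (q I J)) f (sim s L a x, sim s L a y)) →
      w I J (Api4.ten2 (e fun u => φ u (q I J)) f) =
        ∑ K, ∑ M, (L2 L K I * L2 L M J) • Ug c.Q s L a (w' K M G)) :
    Ug c.Q s L a (psi w' (pf s L φ) g) = psi w φ f := by
  have h1 : ∀ K M, Api4.ten2 (e fun u => pf s L φ u (q K M)) g = ∑ I, ∑ J,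
      (L2 L K I * L2 L M J) • Api4.ten2 (pS s L (e fun u => φ u (q I J))) g := fun K M => by
    ext z
    simp only [ten_e (h' _), SchwartzMap.sum_apply,
      SchwartzMap.smul_apply, Api4.ten2_apply, pS_apply hs hL, e_apply (h _), smul_eq_mul,
      ← mul_assoc, ← Finset.sum_mul]
    exact congrArg (· * _) (ten_thm.four L _ K M)
  have h2 := fun I J => H I J (Api4.ten2 (pS s L (e fun u => φ u (q I J))) g) fun x y => by
    simp only [Api4.ten2_apply, pS_apply hs hL, hg, sim_sub]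
  simp only [psi_apply, h1, h2, map_sum, map_smul]
  rw [Finset.sum_congr rfl fun K _ => Finset.sum_comm, Finset.sum_comm]
  refine Finset.sum_congr rfl fun I _ => ?_
  rw [Finset.sum_congr rfl fun K _ => Finset.sum_comm, Finset.sum_comm]

lemma pf_one (φ : V → Tn (Fin 4)) : pf 1 GF.one φ = φ :=
  funext fun u => by rw [P352X.TPD.pf, ten_thm.one, sim_ut, add_zero]

lemma loc' {σ : ℝ} (h : Ts φ) (hσ : ∀ u, φ (-u) = σ • φ u)
    (H : ∀ a b y I J (f : Sch) (G' : S2), IsNull a → IsNull b → 0 < mdot a b →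
      HasCompactSupport (Api4.ten2 (e fun u => φ u (q I J)) f) →
      tsupport (Api4.ten2 (e fun u => φ u (q I J)) f) ⊆ Wdg a b y ×ˢ Wdg a b y →
      (∀ x z, G' (x, z) = Api4.ten2 (e fun u => φ u (q I J)) f (-x, -z)) →
      Pr (c.N (Wdg a b y)) c.Om (w I J (Api4.ten2 (e fun u => φ u (q I J)) f)) (Th c (w I J G'))) :
    Loc c σ (tsupport φ) (psi w φ) := by
  intro a b y f ha hb hab hf h1 h2
  simp only [psi_apply, map_sum, Finset.smul_sum]
  refine Pr.sum _ fun I _ => Pr.sum _ fun J _ => ?_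
  have t := h (q I J)
  refine (H a b y I J f ((σ : ℂ) • Api4.ten2 (e fun u => φ u (q I J)) (ng f)) ha hb hab
    ?_ (fun z hz => ?_) fun x z => ?_).cast rfl ?_
  · have := (Api4.sch_ten2 (Api4.dc_of_sch _ (e_cpt t)) (Api4.dc_of_sch _ hf)).1.2
    rwa [← funext (Api4.ten2_apply _ f)] at this
  · obtain ⟨h3, h4⟩ := ten_supp t f hz
    exact ⟨by simpa using h2 _ h4 _ (comp_supp φ _ h3), h1 h4⟩
  · have : -x - -z = -(x - z) := by abel
    simp [ten_e t, ng_apply, this, hσ, mul_assoc, -neg_sub]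
  · rw [map_smul, map_smulₛₗ, Complex.conj_ofReal, Complex.coe_smul]

lemma pl {K : ℕ} {w : ℝ → WW D} (h : ∀ I J, PL K fun l => w l I J) (φ : V → Tn (Fin 4)) :
    PL K fun l => psi (w l) φ :=
  PL.clm fun f => by
    simp only [psi_apply]
    exact PL.sum _ fun I _ => PL.sum _ fun J _ => (h I J).app _

section

variable {κ : Type} [Fintype κ] [DecidableEq κ] {χ : V → ℝ} {X : V → Tn κ}

lemma sm_fun (lam : Tn κ →ₗ[ℝ] ℝ) (h : ContDiff ℝ ∞ X) : ContDiff ℝ ∞ fun u => lam (X u) :=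
  (LinearMap.toContinuousLinearMap lam).contDiff.comp h

/-- the test functions of the components of `X` -/
def Gm (h : Tst χ) (hX : ContDiff ℝ ∞ X) (f : Sch) : (Tn κ →ₗ[ℝ] ℝ) →ₗ[ℝ] S2 where
  toFun lam := Api4.ten2 (e fun u => χ u * lam (X u)) f
  map_add' a b := by
    ext z
    rw [ten_e (tst_mul h (sm_fun _ hX))]
    simp only [SchwartzMap.add_apply, ten_e (tst_mul h (sm_fun _ hX)), LinearMap.add_apply]
    push_cast
    ring
  map_smul' a b := by
    ext z
    rw [ten_e (tst_mul h (sm_fun _ hX))]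
    simp only [SchwartzMap.smul_apply, ten_e (tst_mul h (sm_fun _ hX)), LinearMap.smul_apply,
      RingHom.id_apply, smul_eq_mul, Complex.real_smul]
    push_cast
    ring

lemma Gm_off (h : Tst χ) (h0 : (0 : V) ∉ tsupport χ) (hX : ContDiff ℝ ∞ X) (f : Sch)
    (lam : Tn κ →ₗ[ℝ] ℝ) : OffD (Gm h hX f lam) := off_mul h h0 (sm_fun lam hX) f

lemma dr_lin (lam : Tn κ →ₗ[ℝ] ℝ) (hX : ContDiff ℝ ∞ X) (m : Ix) (u : V) :
    dr m (fun v => lam (X v)) u = lam (dX m X u) := by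
  have e : ∀ t, lam t = ∑ μ, lam (Pi.single μ 1) * t μ := fun t => by
    conv_lhs => rw [pi_eq_sum_univ' t]
    simp only [map_sum, map_smul, smul_eq_mul, mul_comm]
  simp only [e (X _), e (dX m X u)]
  exact P352X.TPD.Tn2.dr_sum (fun μ => contDiff_pi.1 hX μ) _ m u

lemma key (w : WW D) (a : Sb κ) (h : Tst χ) (hX : ContDiff ℝ ∞ X) (f : Sch) :
    (psi w (bA a χ X) + psi w (cs χ (dA a X))) f =
      ∑ J, ∑ I, ∑ m, w I J (p21 m (Gm h hX f (.proj (q I J) ∘ₗ a m))) := by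
  simp only [ContinuousLinearMap.add_apply, psi_apply, ← Finset.sum_add_distrib, ← map_add,
    ← map_sum]
  rw [Finset.sum_comm]
  refine Finset.sum_congr rfl fun J _ => Finset.sum_congr rfl fun I _ => congrArg _ ?_
  have s := fun m => sm_fun (.proj (q I J) ∘ₗ a m) hX
  have t1 : Tst fun u => bA a χ X u (q I J) := by
    simp only [bA, Finset.sum_apply]
    exact Finset.sum_induction (fun m u => dr m χ u * _) Tst
      (fun _ _ p p' => ⟨p.1.add p'.1, p.2.add p'.2⟩) ⟨contDiff_const, HasCompactSupport.zero⟩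
      (s := Finset.univ) (fun m _ => tst_mul (tst_dr h m) (s m)) |> fun k => by
        convert k using 2
        simp [Finset.sum_apply]
  have e1 : ∀ m, p21 m (Gm h hX f (.proj (q I J) ∘ₗ a m)) = Api4.ten2
      (e (fun u => dr m χ u * a m (X u) (q I J)) + e fun u => χ u * a m (dX m X u) (q I J)) f :=
    fun m => by
      refine (ten_der _ f _ _).trans ?_
      rw [sub_zero, e_mul_der h (s m), LineDeriv.lineDerivOp_left_zero, map_zero, add_zero]
      simp only [dr_lin _ hX]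
      rfl
  ext z
  have t2 := fun m => tst_mul h (sm_fun (.proj (q I J) ∘ₗ a m) (sm_dX hX m))
  have t3 := fun m => tst_mul (tst_dr h m) (s m)
  simp only [LinearMap.comp_apply, LinearMap.proj_apply] at t2 t3
  simp only [e1, ten_add, SchwartzMap.add_apply, SchwartzMap.sum_apply, ten_e t1,
    ten_e (ts_cs h (sm_dA a hX) _), ten_e (t2 _), ten_e (t3 _), ← add_mul, ← Finset.sum_mul]
  simp [bA, dA, P352X.TPD.cs, Finset.sum_apply, Finset.mul_sum, Finset.sum_add_distrib]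

end

variable {K : ℕ} {v : ℝ → WW D}

lemma c1 (S : Pre0 c K v) : Nul a1 v := fun l χ X h h0 hX => by
  ext f
  rw [key _ _ h hX]
  refine Finset.sum_eq_zero fun J _ => ?_
  rw [Fintype.sum_prod_type_right]
  refine Finset.sum_eq_zero fun n _ => ?_
  refine Eq.trans (Finset.sum_congr rfl fun k _ => ?_)
    (S.c1 l n J _ (Gm_off h h0 hX f (.proj ![n, J.1, J.2])))
  have e : ∀ m, (.proj (q (k, n) J) ∘ₗ a1 m : Tn (Fin 3) →ₗ[ℝ] ℝ) =
      bas m 1 k • .proj ![n, J.1, J.2] := fun m => rfl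
  simp only [e, map_smul, ContinuousLinearMap.map_smul_of_tower]
  rw [Finset.sum_eq_single k (fun m _ hm => by simp [bas, hm.symm]) (by simp)]
  simp [bas, p21]

lemma sum3 {M : Type*} [AddCommMonoid M] (F : Ix → Ix → Ix → M) :
    ∑ m, ∑ n, ∑ k, F k m n = ∑ k, ∑ m, ∑ n, F k m n :=
  (Finset.sum_congr rfl fun _ _ => Finset.sum_comm).trans Finset.sum_comm

lemma cB (S : Pre0 c K v) : Nul aB v := fun l χ X h h0 hX => by
  ext f
  rw [key _ _ h hX]
  refine Finset.sum_eq_zero fun J _ => ?_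
  set G : Ix → Ix → Ix → S2 := fun k m n => Gm h hX f (.proj ![k, m, n, J.1, J.2])
  have e : ∀ m n k, (.proj (q (m, n) J) ∘ₗ aB k : Tn (Fin 5) →ₗ[ℝ] ℝ) = eta k •
      (.proj ![k, m, n, J.1, J.2] - .proj ![k, n, m, J.1, J.2] + .proj ![n, k, m, J.1, J.2] -
        .proj ![m, k, n, J.1, J.2] + .proj ![m, n, k, J.1, J.2] - .proj ![n, m, k, J.1, J.2]) :=
    fun m n k => rfl
  set A : Ix → Ix → Ix → S2 → Completion D := fun k m n F =>
    (eta k : ℂ) • v l (m, n) J (p21 k F) with hA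
  have z : ∑ k, ∑ m, ∑ n, bi1 (v l) k m n J (G k m n) = 0 := Finset.sum_eq_zero fun k _ =>
    Finset.sum_eq_zero fun m _ => Finset.sum_eq_zero fun n _ => S.b1 l k m n J _ (Gm_off h h0 hX f _)
  simp only [bi1, cu1, smul_sub, Finset.sum_add_distrib, Finset.sum_sub_distrib] at z
  rw [Fintype.sum_prod_type, sum3 fun k m n => v l (m, n) J (p21 k (Gm h hX f _))]
  simp only [e, map_smul, map_add, map_sub, ContinuousLinearMap.map_smul_of_tower, smul_add,
    smul_sub, Finset.sum_add_distrib, Finset.sum_sub_distrib, ← Complex.coe_smul]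
  have p1 : ∑ k, ∑ m, ∑ n, A k m n (G k n m) = ∑ k, ∑ m, ∑ n, A k n m (G k m n) :=
    Finset.sum_congr rfl fun _ _ => Finset.sum_comm
  have p2 : ∑ k, ∑ m, ∑ n, A k m n (G n k m) = ∑ k, ∑ m, ∑ n, A m n k (G k m n) :=
    sum3 fun k m n => A m n k (G k m n)
  have p3 : ∑ k, ∑ m, ∑ n, A k m n (G m k n) = ∑ k, ∑ m, ∑ n, A m k n (G k m n) :=
    Finset.sum_comm
  have p4 : ∑ k, ∑ m, ∑ n, A k m n (G m n k) = ∑ k, ∑ m, ∑ n, A n k m (G k m n) :=
    (sum3 fun k m n => A k m n (G m n k)).symm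
  have p5 : ∑ k, ∑ m, ∑ n, A k m n (G n m k) = ∑ k, ∑ m, ∑ n, A n m k (G k m n) :=
    (sum3 fun k m n => A k m n (G n m k)).symm.trans Finset.sum_comm
  simp only [hA, G] at p1 p2 p3 p4 p5 z
  rw [p1, p2, p3, p4, p5]
  refine Eq.trans ?_ z
  abel

lemma tr (S : Pre0 c K v) (l : ℝ) {χ : V → ℝ} {k : V → Tn (Fin 2)} (h : Tst χ)
    (h0 : (0 : V) ∉ tsupport χ) (hk : ContDiff ℝ ∞ k) :
    psi (v l) (cs χ fun u => e1 (k u)) = 0 := by
  ext f
  rw [psi_apply, Finset.sum_comm]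
  refine Finset.sum_eq_zero fun J _ => ?_
  refine Eq.trans ?_ (S.t1 l J _ (Gm_off h h0 hk f (.proj ![J.1, J.2])))
  rw [Fintype.sum_prod_type]
  refine Finset.sum_congr rfl fun m _ => ?_
  have e : ∀ n, Api4.ten2 (e fun u => cs χ (fun u => e1 (k u)) u (q (m, n) J)) f =
      bas m (eta m) n • Gm h hk f (.proj ![J.1, J.2]) := fun n => by
    rw [← map_smul]
    rfl
  simp only [e, ContinuousLinearMap.map_smul_of_tower]
  rw [Finset.sum_eq_single m (fun n _ hn => by simp [bas, hn]) (by simp)]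
  simp [bas]

lemma c2 (S : Pre0 c K v) (l : ℝ) (I : I2) (n : Ix) {G : S2} (hG : OffD G) :
    ∑ m, v l I (m, n) (LineDeriv.lineDerivOp ((0, bas m 1) : V × V) G) = 0 := by
  refine (Finset.sum_congr rfl fun m _ => (S.swap l _ _ _ (Str.sw _) fun _ _ => rfl).trans
    (congrArg _ (SchwartzMap.ext fun z => ?_))).trans (S.c1 l n I (Str.sw G) (P352Y.OffD.sw hG))
  exact (DFunLike.congr_fun ((ContinuousLinearEquiv.prodComm ℝ V V).comp_right_fderiv
    (f := G) (x := z)) (bas m 1, 0)).symm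

lemma c3 (S : Pre0 c K v) (l : ℝ) {χ : V → ℝ} {Y : V → Tn (Fin 3)} (h : Tst χ)
    (h0 : (0 : V) ∉ tsupport χ) (hY : ContDiff ℝ ∞ Y) :
    psi (v l) (b3 χ Y) + psi (v l) (cs χ (d3 Y)) =
      ∑ r, psi (v l) (cs χ (i3 r Y)) ∘L KDa.dS (bas r 1) := by
  ext f
  simp only [ContinuousLinearMap.add_apply, psi_apply, ← Finset.sum_add_distrib, ← map_add,
    ← ten_add, ContinuousLinearMap.sum_apply, ContinuousLinearMap.comp_apply]
  refine Eq.trans (Finset.sum_congr rfl fun I _ => ?_) Finset.sum_comm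
  simp only [Fintype.sum_prod_type_right]
  refine Eq.trans (Finset.sum_congr rfl fun n _ => ?_) Finset.sum_comm
  have hg := contDiff_pi.1 hY ![I.1, I.2, n]
  have h1 : ∀ r t f, Api4.ten2 (e fun u => cs χ (i3 r Y) u (q I (t, n))) f =
      (bas r 1 t : ℂ) • Api4.ten2 (e fun u => χ u * Y u ![I.1, I.2, n]) f := fun r t f => by
    have t1 : Tst fun u => cs χ (i3 r Y) u (q I (t, n)) := tst_mul h (contDiff_const.mul hg)
    ext z
    rw [ten_e t1, SchwartzMap.smul_apply, ten_e (tst_mul h hg)]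
    simp [P352X.TPD.cs, P352X.TPD.i3, P352X.TPD.Bp.q]
    ring
  have h2 := c2 S l I n (off_mul h h0 hg f)
  have h3 : ∀ r : Ix, ∂_{(0 - bas r 1 : V)} (e fun u => χ u * Y u ![I.1, I.2, n]) =
      -((e fun u => b3 χ Y u (q I (r, n))) + e fun u => cs χ (d3 Y) u (q I (r, n))) := fun r => by
    rw [zero_sub, LineDeriv.lineDerivOp_left_neg, e_mul_der h hg]
    rfl
  simp only [ten_der, h3, ten_neg, map_add, map_neg, Finset.sum_add_distrib, Finset.sum_neg_distrib,
    neg_add_eq_zero] at h2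
  simp only [h1, map_smul, h2]
  refine Finset.sum_congr rfl fun r _ => ?_
  rw [Finset.sum_eq_single r (fun t _ ht => by simp [bas, ht]) (by simp)]
  simp [bas, KDa.dS]

lemma cov (S : Pre0 c K v) (l : ℝ) {s : ℝ} {L : Ix → V} (a : V) (hs : 0 < s) (hL : IsLor L)
    (h : Ok φ) (f g : Sch) (hg : ∀ x, g x = f (sim s L a x)) :
    Ug c.Q s L a (psi (v (l + Real.log s)) (pf s L φ) g) = psi (v l) φ f :=
  cov' a hs hL (ok_tst h) (ok_tst (ten_thm.okp s L φ hs hL h)) f g hg fun I J G =>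
    S.cov l s L a I J _ G hs hL (ok_offD h _ f)

end Bp

variable {D : Type*} [NormedAddCommGroup D] [InnerProductSpace ℂ D]

open Bp in
theorem bp1_row (c : Ctx D) {K : ℕ} {w : ℝ → WW D} (S : Src c K w) : BP1 c K w where
  add _ _ _ h h' := Bp.add (ok_tst h) (ok_tst h')
  smul _ a _ h := Bp.smul a (ok_tst h)
  tc l φ h := ⟨fun a f => by
    have := Bp.cov S.toPre0 l a one_pos H496.isLor_one h (ST.tsl a f) f fun x => by
      simp [ST.tsl_apply, sim_ut]
    rwa [pf_one, show l + Real.log 1 = l by simp] at this, fun f => by simp [psi_apply, inner_sum, S.perp]⟩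
  loc l σ φ _ h hσ := loc' (φ := φ) (ok_tst h) hσ fun a b y I J f G' ha hb hab =>
    S.loc l a b y I J _ G' ha hb hab (ok_offD h _ f)
  cov l s L _ hs hL h := ContinuousLinearMap.ext fun f =>
    Bp.cov S.toPre0 l 0 hs hL h f _ (pS_apply hs hL f)
  pl := Bp.pl S.pl
  tr l _ _ := Bp.tr S.toPre0 l
  c1 := Bp.c1 S.toPre0
  cB := Bp.cB S.toPre0
  c3 l _ _ := Bp.c3 S.toPre0 l

end

end Vale.Agent.P352X.ZZ.TPD
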