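import Vale.Agent.P352Z.TPD.Bp1

/-!
# P352Z, block TPD: row BP2, the calculus of `Dat` (helper18)
-/

set_option linter.all false

open MeasureTheory Filter Topology
open scoped SchwartzMap ComplexConjugate ENNReal ContDiff LineDeriv

namespace Vale.Agent.P352X.ZZ.TPD

open Vale.Agent.P352 Vale.Agent.P352.GF Vale.Agent.P352.BW Vale.Agent.P352.H246
open Vale.Agent.P352.H496 Vale.Agent.P352.H755 Vale.Agent.P352.H15
open Vale.Agent.P352X.TPD (cs b3 pf)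
open UniformSpace (Completion)
open Complex (I)

noncomputable section

namespace Bp

open Tn4

variable {D : Type*} [NormedAddCommGroup D] [InnerProductSpace ℂ D] {c : Ctx D} {K : ℕ}
  {w : ℝ → WW D}

variable (B : BA c) (P : BP1 c K w)
include B P

lemma dact {σ s : ℝ} {L : Ix → V} {S : V → Tn (Fin 4)} {x : Fam D} (hs : 0 < s) (hL : IsLor L)
    (hS : ContDiff ℝ ∞ S) (h : Dat c K w σ (pf s L S) x) : Dat c K w σ S (ga c s L x) := by
  refine ⟨fun l η => B.tc_act _ _ _ hs hL (h.tc _ _), fun l η => ?_, fun l η η' => ?_,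
    fun η => ((h.pl _).shift _).map (act c s L)⟩
  · rw [← (ten_thm.pull η s s L L hs hs hL hL).2.2]
    exact B.loc_act _ _ _ _ _ hs hL (h.loc _ _)
  · rw [ga_apply, ga_apply, ← map_sub, h.coc, ← P.cov l s L _ hs hL (okc ten_thm η η' hS)]
    congr 2
    funext u
    simp [P352X.TPD.cs, P352X.TPD.pf, P352X.TPD.EC.pull_apply _ hs hL]

omit P in
lemma dhom {σ : ℝ} {k : ℕ} {x : Fam D} (h : Dat c K w σ 0 x)
    (hh : ∀ s : ℝ, 0 < s → s ^ k • ga c s GF.one x = x) :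
    ∃ y, LH c σ k y ∧ PL K y ∧ ∀ l η, x l η = y l := by
  obtain ⟨η0, -⟩ := ten_thm.small 1 one_pos
  have h1 : ∀ l η, x l η = x l η0 := fun l η => sub_eq_zero.1 (by rw [h.coc, cs_zero, psi_zero])
  refine ⟨fun l => x l η0, ⟨fun l => h.tc _ _, fun l => B.loc_small _ _ _ fun ε hε => ?_,
    fun l s hs => ?_⟩, h.pl _, h1⟩
  · obtain ⟨η, hη⟩ := ten_thm.small ε hε
    exact B.loc_mono _ _ _ _ (hη.trans Set.subset_union_right) (h1 l η ▸ h.loc l η)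
  · have := congrFun (congrFun (hh s hs) l) η0
    rwa [Pi.smul_apply, Pi.smul_apply, ga_apply, h1] at this

lemma tc_loc (l : ℝ) {σ : ℝ} {φ : V → Tn (Fin 4)} {A : Set V} (hσ : σ * σ = 1) (h : Ok φ)
    (hK : tsupport φ ⊆ A) (hp : ∀ u, φ (-u) = σ • φ u) :
    TC c (psi (w l) φ) ∧ Loc c σ A (psi (w l) φ) :=
  ⟨P.tc l _ h, B.loc_mono _ _ _ _ hK (P.loc l σ φ hσ h hp)⟩

lemma gA' {κ : Type} [Fintype κ] [DecidableEq κ] {a : Sb κ} (k : ℕ) (e : Eqv a) (n : Nul a w) :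
    Cv c K w k fun ξ : Tn (κ ⊕ Fin (k + 1)) => dA a (pol ξ) := by
  have T := ten_thm
  have sm := fun ξ : Tn (κ ⊕ Fin (k + 1)) => T.smooth κ (k + 1) ξ
  have ok := fun (η : EC) ξ => ok_bA a η.2.1.1 (ec_ev η) (sm ξ).1
  have h1 := fun l (η : EC) ξ => tc_loc B P l (σ := (-1) ^ k) (by rw [← mul_pow]; simp)
    (ok η ξ).1 (ok η ξ).2 fun u => by
      simp only [bA, dr_neg η.2.2, (sm ξ).2, map_smul, Finset.smul_sum, smul_smul]
      exact Finset.sum_congr rfl fun m _ => by congr 1; ring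
  refine ⟨⟨⟨fun ξ => gA a w (pol ξ), fun ξ ξ' => funext₂ fun l η => ?_⟩,
    fun t ξ => funext₂ fun l η => ?_⟩, fun ξ => ⟨fun l η => ?_, fun l η => ?_, fun l η η' => ?_,
      fun η => (P.pl _).neg⟩, fun s L ξ hs hL => funext₂ fun l η => ?_⟩
  · simp only [gA, Pi.add_apply]
    rw [(T.add _ _ 0 ξ ξ').1, bA_add, P.add l _ _ (ok η ξ).1 (ok η ξ').1, neg_add]
  · simp only [gA, Pi.smul_apply, RingHom.id_apply]
    rw [(T.add _ _ t ξ ξ).2, bA_smul, P.smul l _ _ (ok η ξ).1, smul_neg]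
  · simpa [gA] using B.tc_smul (-1) _ (h1 l η ξ).1
  · simpa [gA] using B.loc_smul _ _ (-1) _ (h1 l η ξ).2
  · have h2 : bA a η.1 (pol ξ) = bA a (η.1 - η'.1) (pol ξ) + bA a η'.1 (pol ξ) := funext fun u => by
      simp [bA, dr_sub η.2.1.1 η'.2.1.1, sub_smul]
    have h3 := n l _ _ (T.ec η η').1 (T.ec η η').2 (sm ξ).1
    change -psi _ _ - -psi _ _ = _
    rw [h2, P.add l _ _ (ok_bA a (T.ec η η').1 (sub_ev η η') (sm ξ).1).1 (ok η' ξ).1,
      eq_neg_of_add_eq_zero_right h3]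
    abel
  · have h2 := bA_pf e η.2.1.1.1 (pol ξ) s hL
    rw [T.pol, bA_smul, pow_succ', mul_smul, ← pull_eq η hs hL] at h2
    change s ^ k • act c s L (-psi _ _) = -psi _ _
    rw [← map_smul, smul_neg, ← P.smul _ _ _ (ok _ _).1, smul_right_injective _ hs.ne' h2, map_neg,
      P.cov l s L _ hs hL (ok η ξ).1]

lemma g3 {σ : ℝ} {Y : V → Tn (Fin 3)} (hσ : σ * σ = 1) (hY : ContDiff ℝ ∞ Y)
    (hp : ∀ u, Y (-u) = -σ • Y u) :
    (∀ l (η : EC), TC c (psi (w l) (b3 η.1 Y)) ∧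
      Loc c σ (tsupport η.1) (psi (w l) (b3 η.1 Y))) ∧
    (∀ l (η η' : EC), psi (w l) (b3 η.1 Y) - psi (w l) (b3 η'.1 Y) +
      psi (w l) (cs (η.1 - η'.1) (d3 Y)) =
      ∑ r, psi (w l) (cs (η.1 - η'.1) (i3 r Y)) ∘L KDa.dS (bas r 1)) ∧
    (∀ s L, 0 < s → IsLor L → ga c s L (fun l η => psi (w l) (b3 η.1 (pf s L Y))) =
      s • fun l (η : EC) => psi (w l) (b3 η.1 Y)) ∧
    ∀ Y' (a : ℝ) l (η : EC), ContDiff ℝ ∞ Y' →
      psi (w l) (b3 η.1 (Y + Y')) = psi (w l) (b3 η.1 Y) + psi (w l) (b3 η.1 Y') ∧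
      psi (w l) (b3 η.1 (a • Y)) = a • psi (w l) (b3 η.1 Y) := by
  have T := ten_thm
  have ok := fun (η : EC) X hX => (T.okb η.1 X η.2.1.1 (ec_ev η) hX).2.2
  refine ⟨fun l η => tc_loc B P l hσ (ok η Y hY).1 (ok η Y hY).2 fun u => funext fun ν => ?_,
    fun l η η' => ?_, fun s L hs hL => funext₂ fun l η => ?_, fun Y' a l η hY' => ⟨?_, ?_⟩⟩
  · simp [b3, dr_neg η.2.2, hp]
    ring
  · have h2 : b3 η.1 Y = b3 (η.1 - η'.1) Y + b3 η'.1 Y := funext₂ fun u ν => by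
      simp [b3, dr_sub η.2.1.1 η'.2.1.1, sub_mul]
    rw [h2, P.add l _ _ (T.okb _ Y (T.ec η η').1 (sub_ev η η') hY).2.2.1 (ok η' Y hY).1,
      add_sub_cancel_right, P.c3 l _ Y (T.ec η η').1 (T.ec η η').2 hY]
  · rw [ga_apply, pull_eq η hs hL, (T.b1 s L η.1 Y η.2.1.1.1).2,
      P.smul _ _ _ (T.okp s L _ hs hL (ok η Y hY).1), map_smul, P.cov l s L _ hs hL (ok η Y hY).1]
    rfl
  · have h2 : b3 η.1 (Y + Y') = b3 η.1 Y + b3 η.1 Y' := funext₂ fun u ν => by simp [b3, mul_add]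
    rw [h2, P.add l _ _ (ok η Y hY).1 (ok η Y' hY').1]
  · have h2 : b3 η.1 (a • Y) = a • b3 η.1 Y := funext₂ fun u ν => by simp [b3, mul_left_comm]
    rw [h2, P.smul l _ _ (ok η Y hY).1]

end Bp

variable {D : Type*} [NormedAddCommGroup D] [InnerProductSpace ℂ D]

theorem bp2_row (c : Ctx D) (B : BA c) {K : ℕ} {w : ℝ → WW D} (P : BP1 c K w) : BP2 c K w := by
  have T := ten_thm
  refine ⟨fun σ => ⟨fun _ _ => B.tc0, fun _ _ => B.loc0 _ _, fun l η η' => ?_, fun _ => PL.zero⟩,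
    fun σ S S' x x' hS hS' h h' => ⟨fun l η => B.tc_add _ _ (h.tc l η) (h'.tc l η),
      fun l η => B.loc_add _ _ _ _ (h.loc l η) (h'.loc l η), fun l η η' => ?_,
      fun η => (h.pl η).add (h'.pl η)⟩,
    fun σ a S x hS h => ⟨fun l η => B.tc_smul a _ (h.tc l η),
      fun l η => B.loc_smul _ _ a _ (h.loc l η), fun l η η' => ?_, fun η => (h.pl η).smul a⟩,
    fun σ k hk => ⟨fun _ _ => B.tc0, fun _ _ => B.loc0 _ _, fun l η η' => ?_, fun _ => PL.zero⟩,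
    fun _ _ _ _ _ => Bp.dact B P, fun _ _ _ => Bp.dhom B,
    fun _ _ _ _ => Bp.gA' B P, fun _ _ => Bp.g3 B P⟩
  · simp [Bp.cs_zero, Bp.psi_zero]
  · have : cs (η.1 - η'.1) (S + S') = cs (η.1 - η'.1) S + cs (η.1 - η'.1) S' :=
      funext fun u => by simp [cs]
    rw [this, P.add l _ _ (Bp.okc T η η' hS) (Bp.okc T η η' hS'), ← h.coc, ← h'.coc]
    exact add_sub_add_comm _ _ _ _
  · have : cs (η.1 - η'.1) (a • S) = a • cs (η.1 - η'.1) S :=
      funext fun u => by simp [cs, smul_comm a]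
    rw [this, P.smul l _ _ (Bp.okc T η η' hS), ← h.coc]
    exact (smul_sub a (x l η) (x l η')).symm
  · rw [P.tr l _ k (T.ec η η').1 (T.ec η η').2 hk]
    exact sub_self _

theorem bp_row (c : Ctx D) : T3 c → TEN → BA c → ∀ K w, Src c K w → BP c K w :=
  fun _ _ B _ _ S => ⟨bp1_row c S, bp2_row c B (bp1_row c S)⟩

/-! ## covariant data -/

variable {c : Ctx D} {K k : ℕ} {w : ℝ → WW D} {ι κ : Type} [Fintype ι] [DecidableEq ι] [Fintype κ]
  [DecidableEq κ] {S S' : Tn ι → V → Tn (Fin 4)}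

/-- differences of data -/
lemma BP.dsub (P : BP c K w) {σ : ℝ} {S : V → Tn (Fin 4)} {x x' : Fam D} (hS : ContDiff ℝ ∞ S)
    (h : Dat c K w σ S x) (h' : Dat c K w σ S x') : Dat c K w σ 0 (x - x') := by
  have := P.dadd σ _ _ _ _ hS (hS.const_smul (-1 : ℝ)) h (P.dsmul σ (-1) S x' hS h')
  rwa [show (S + fun u => (-1 : ℝ) • S u) = 0 from funext fun u => by simp, neg_one_smul,
    ← sub_eq_add_neg] at this

lemma Cv.add (P : BP c K w) (h : Cv c K w k S) (h' : Cv c K w k S') (s : ∀ t, ContDiff ℝ ∞ (S t))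
    (s' : ∀ t, ContDiff ℝ ∞ (S' t)) : Cv c K w k fun t u => S t u + S' t u := by
  obtain ⟨B, a1, a2⟩ := h
  obtain ⟨B', b1, b2⟩ := h'
  exact ⟨B + B', fun t => P.dadd _ _ _ _ _ (s t) (s' t) (a1 t) (b1 t), fun s L t hs hL => by
    simp only [LinearMap.add_apply, map_add, smul_add, a2 s L t hs hL, b2 s L t hs hL]⟩

lemma Cv.comp (h : Cv c K w k S) (A : Tn κ →ₗ[ℝ] Tn ι)
    (e : ∀ L t, IsLor L → A (pb L t) = pb L (A t)) : Cv c K w k fun t => S (A t) := by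
  obtain ⟨B, a1, a2⟩ := h
  exact ⟨B ∘ₗ A, fun t => a1 _, fun s L t hs hL => by
    simp only [LinearMap.comp_apply, e L t hL, a2 s L _ hs hL]⟩

lemma Cv.tr (P : BP c K w) (τ : Tn ι → V → Tn (Fin 2)) (s : ∀ t, ContDiff ℝ ∞ (τ t)) :
    Cv c K w k fun t u => e1 (τ t u) :=
  ⟨0, fun t => P.dtr _ _ (s t), fun _ _ _ _ _ => by simp⟩

end

end Vale.Agent.P352X.ZZ.TPD
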