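import Mathlib.Data.Real.Basic
import Mathlib.Algebra.BigOperators.Fin
import Mathlib.Tactic.Linarith
import Mathlib.Tactic.Ring
import Mathlib.Tactic.LinearCombination

/-!
# P352Z, block TPD: the linear system of row COMB, checked by elimination certificates
-/

namespace Vale.Agent.P352X.ZZ.TPD.Comb

/-- linear forms with integer coefficients -/
abbrev Lin := List (ℤ × ℕ)

/-- the value of a form -/
def ev (x : ℕ → ℝ) (l : Lin) : ℝ := (l.map fun p => (p.1 : ℝ) * x p.2).sum

theorem ev_nil (x : ℕ → ℝ) : ev x [] = 0 := rfl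

theorem ev_cons (x : ℕ → ℝ) (c : ℤ) (v : ℕ) (l : Lin) : ev x ((c, v) :: l) = c * x v + ev x l := by
  simp [ev]

theorem ev_append (x : ℕ → ℝ) (l l' : Lin) : ev x (l ++ l') = ev x l + ev x l' := by
  simp [ev]

/-- adds a term to a sorted form -/
def ins (c : ℤ) (v : ℕ) : Lin → Lin
  | [] => [(c, v)]
  | p :: l => if v = p.2 then (c + p.1, v) :: l else if v < p.2 then (c, v) :: p :: l
      else p :: ins c v l

theorem ev_ins (x : ℕ → ℝ) (c : ℤ) (v : ℕ) (l : Lin) : ev x (ins c v l) = c * x v + ev x l := by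
  induction l with
  | nil => simp [ins, ev]
  | cons p l ih =>
    obtain ⟨c', v'⟩ := p
    unfold ins
    split_ifs with h1 h2
    · simp only at h1
      subst h1
      rw [ev_cons, ev_cons]
      push_cast
      ring
    · rw [ev_cons]
    · rw [ev_cons, ih, ev_cons]
      ring

/-- adds `k` times the form `l`, without the variables in `Z` -/
def addTo (Z : ℕ) (k : ℤ) (l acc : Lin) : Lin :=
  l.foldr (fun p a => if Z.testBit p.2 then a else ins (k * p.1) p.2 a) acc

theorem ev_addTo {x : ℕ → ℝ} {Z : ℕ} (hZ : ∀ v, Z.testBit v → x v = 0) (k : ℤ) (l acc : Lin) :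
    ev x (addTo Z k l acc) = k * ev x l + ev x acc := by
  induction l with
  | nil => simp [addTo, ev]
  | cons p l ih =>
    obtain ⟨c, v⟩ := p
    rw [addTo, List.foldr_cons, ← addTo, ev_cons]
    split_ifs with h
    · rw [ih, hZ v h]; ring
    · rw [ev_ins, ih]; push_cast; ring

/-- the number of a component -/
def cd (m n r s g d : ℕ) : ℕ :=
  m % 4 + 4 * (n % 4) + 16 * (r % 4) + 64 * (s % 4) + 256 * (g % 4) + 1024 * (d % 4)

/-- the number of a component up to the symmetries -/
def cv (m n r s g d : ℕ) : ℕ :=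
  min (min (cd m n r s g d) (cd m n r s d g)) (min (cd r s m n g d) (cd r s m n d g))

/-- the signature -/
def ei (m : ℕ) : ℤ := if m % 4 = 0 then 1 else -1

/-- the metric -/
def di (i a : ℕ) : ℤ := if i % 4 = a % 4 then ei i else 0

/-- one third of the Bianchi identity -/
def bi (i j k r s a b e : ℕ) : Lin :=
  [(di i a, cv j k r s b e), (-di i a, cv k j r s b e), (di i b, cv j k r s a e),
    (-di i b, cv k j r s a e), (di i e, cv j k r s a b), (-di i e, cv k j r s a b)]

/-- the trace -/
def eT (r s g d : ℕ) : Lin :=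
  [(1, cv 0 0 r s g d), (-1, cv 1 1 r s g d), (-1, cv 2 2 r s g d), (-1, cv 3 3 r s g d)]

/-- conservation -/
def eC (n r s a b e : ℕ) : Lin := [(1, cv a n r s b e), (1, cv b n r s a e), (1, cv e n r s a b)]

/-- the Bianchi identity -/
def eB (i j k r s a b e : ℕ) : Lin :=
  bi i j k r s a b e ++ bi j k i r s a b e ++ bi k i j r s a b e

/-- the scalar -/
def eN : Lin := [0, 1, 2, 3].flatMap fun m => [0, 1, 2, 3].flatMap fun n =>
  [0, 1, 2, 3].map fun g => (ei m * ei n * ei g, cv m n m n g g)

/-- the equation with the number `c` -/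
def eqn (c : ℕ) : Lin :=
  if c % 4 = 0 then eT (c / 4) (c / 16) (c / 64) (c / 256)
  else if c % 4 = 1 then eC (c / 4) (c / 16) (c / 64) (c / 256) (c / 1024) (c / 4096)
  else if c % 4 = 2 then
    eB (c / 4) (c / 16) (c / 64) (c / 256) (c / 1024) (c / 4096) (c / 16384) (c / 65536)
  else eN

/-- one elimination step -/
def step (Z : ℕ) (l : List (ℤ × ℕ)) : ℕ :=
  match (l.foldr (fun p a => addTo Z p.1 (eqn p.2) a) []).filter fun p => p.1 != 0 with
  | [p] => Z ||| 2 ^ p.2
  | _ => Z

theorem ev_filter (x : ℕ → ℝ) (l : Lin) : ev x (l.filter fun p => p.1 != 0) = ev x l := by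
  induction l with
  | nil => rfl
  | cons p l ih =>
    obtain ⟨c, v⟩ := p
    by_cases h : c = 0
    · rw [List.filter_cons_of_neg (by simp [h]), ih, ev_cons, h]; simp
    · rw [List.filter_cons_of_pos (by simp [h]), ev_cons, ev_cons, ih]

theorem step_ok {x : ℕ → ℝ} (hx : ∀ c, ev x (eqn c) = 0) {Z : ℕ}
    (hZ : ∀ v, Z.testBit v → x v = 0) (l : List (ℤ × ℕ)) (v : ℕ) (h : (step Z l).testBit v) :
    x v = 0 := by
  have h1 : ev x (l.foldr (fun p a => addTo Z p.1 (eqn p.2) a) []) = 0 := by
    induction l with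
    | nil => rfl
    | cons p l ih' =>
      clear h ih'
      induction p :: l with
      | nil => rfl
      | cons q t ih => rw [List.foldr_cons, ev_addTo hZ, hx, ih]; simp
  rw [← ev_filter] at h1
  unfold step at h
  split at h
  · rename_i p hp
    have h2 : p ∈ [p] := List.mem_singleton_self p
    rw [← hp, List.mem_filter] at h2
    rw [hp, ev_cons, ev_nil, add_zero] at h1
    rw [Nat.testBit_or, Bool.or_eq_true] at h
    rcases h with h | h
    · exact hZ v h
    · rw [Nat.testBit_two_pow, decide_eq_true_eq] at h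
      have h3 : (p.1 : ℝ) ≠ 0 := by simpa using h2.2
      rw [← h]
      exact (mul_eq_zero.1 h1).resolve_left h3
  · exact hZ v h

/-- evaluates `n` before it is passed to `f` -/
def force (n : ℕ) (f : ℕ → Bool) : Bool := Nat.casesOn n (f 0) fun k => f (k + 1)

theorem force_eq (n : ℕ) (f : ℕ → Bool) : force n f = f n := by cases n <;> rfl

/-- runs the steps, then the test `f` -/
def run (f : ℕ → Bool) : List (List (ℤ × ℕ)) → ℕ → Bool
  | [], Z => f Z
  | l :: L, Z => force (step Z l) (run f L)

theorem steps_ok {x : ℕ → ℝ} (hx : ∀ c, ev x (eqn c) = 0) (f : ℕ → Bool)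
    (L : List (List (ℤ × ℕ))) {Z : ℕ} (hZ : ∀ v, Z.testBit v → x v = 0) (h : run f L Z = true) :
    ∃ Z, f Z = true ∧ ∀ v, Z.testBit v → x v = 0 := by
  induction L generalizing Z with
  | nil => exact ⟨Z, h, hZ⟩
  | cons l L ih => exact ih (step_ok hx hZ l) (by rwa [run, force_eq] at h)

/-- steps with one equation -/
def un (l : List ℕ) : List (List (ℤ × ℕ)) := l.map fun c => [(1, c)]

/-- certificate -/
def c0 : List (List (ℤ × ℕ)) :=
  un [1, 5377, 10753, 16129, 65, 5441, 10817, 16193, 129, 5505, 10881, 16257, 193, 5569, 10945,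
  16321, 17, 5137, 5393, 10769, 16145, 81, 5457, 10833, 16209, 145, 5521, 10897, 16273, 209, 5585,
  10961, 16337, 33, 10273, 5409, 10529, 10785, 16161, 97, 5473, 10849, 16225, 161, 5537, 10913,
  16289, 225, 5601, 10977, 16353, 49, 15409, 5425, 15665, 10801, 15921, 16177, 113, 5489, 10865,
  16241, 177, 5553, 10929, 16305, 241, 5617, 10993, 16369, 4101, 8197, 12293, 5381, 10757, 16133,
  69, 5445, 10821, 16197, 133, 5509, 10885, 16261, 197, 5573, 10949, 16325, 21, 5141, 9493, 13589,
  10773, 16149, 85, 5205, 5461, 10837, 16213, 149, 5525, 10901, 16277, 213, 5589, 10965, 16341,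
  37, 10277, 5413, 10533, 14885, 16165, 101, 10341, 5477, 10597, 10853, 16229, 165]

/-- certificate -/
def c1 : List (List (ℤ × ℕ)) :=
  un [5541, 10917, 16293, 229, 5605, 10981, 16357, 53, 15413, 5429, 15669, 10805, 15925, 117,
  15477, 5493, 15733, 10869, 15989, 16245, 181, 5557, 10933, 16309, 245, 5621, 10997, 16373, 4105,
  8201, 12297, 5385, 10761, 16137, 4169, 8265, 12361, 5449, 10825, 16201, 137, 5513, 10889, 16265,
  201, 5577, 10953, 16329, 25, 5145, 9497, 13593, 10777, 16153, 89, 5209, 9561, 13657, 10841,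
  16217, 153, 5273, 5529, 10905, 16281, 217, 5593, 10969, 16345, 41, 10281, 5417, 10537, 14889,
  16169, 105, 10345, 5481, 10601, 14953, 16233, 169, 10409, 5545, 10665, 10921, 16297, 233, 5609,
  10985, 16361, 57, 15417, 5433, 15673, 10809, 15929, 121, 15481, 5497, 15737, 10873, 15993, 185,
  15545, 5561, 15801, 10937, 16057, 16313, 249, 5625, 11001, 16377, 4109, 8205, 12301, 5389,
  10765, 16141]

/-- certificate -/
def c2 : List (List (ℤ × ℕ)) :=
  un [4173, 8269, 12365, 5453, 10829, 16205, 4237, 8333, 12429, 5517, 10893, 16269, 205, 5581,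
  10957, 16333, 29, 5149, 9501, 13597, 10781, 16157, 93, 5213, 9565, 13661, 10845, 16221, 157,
  5277, 9629, 13725, 10909, 16285, 221, 5341, 5597, 10973, 16349, 45, 10285, 5421, 10541, 14893,
  16173, 109, 10349, 5485, 10605, 14957, 16237, 173, 10413, 5549, 10669, 15021, 16301, 237, 10477,
  5613, 10733, 10989, 16365, 61, 15421, 5437, 15677, 10813, 15933, 125, 15485, 5501, 15741, 10877,
  15997, 189, 15549, 5565, 15805, 10941, 16061, 253, 15613, 5629, 15869, 11005, 16125, 16381,
  4097, 8193, 12289, 9489, 13585, 14881, 4165, 8261, 12357, 9557, 13653, 14949, 4233, 8329, 12425,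
  9625, 13721, 15017, 4301, 8397, 12493, 9693, 13789, 15085]

/-- certificate -/
def c3 : List (List (ℤ × ℕ)) :=
  [[(3,257682), (3,15589), (-3,15841), (-3,198626), (-3,218086), (-1,87762), (3,5229), (3,69010),
  (1,722)], [(1,174994), (3,10421), (-3,10673), (3,132834), (3,152294), (-1,87954), (3,5241),
  (3,68050), (1,914)], [(6,169618), (-6,9569), (-3,10325), (3,10565), (6,9317), (3,67218),
  (9,67986), (3,658), (-2,87698), (6,5225)], [(6,251858), (-6,13681), (-3,15445), (3,15685),
  (6,13429), (3,67538), (9,69074), (3,978), (-2,88018), (6,5245)]]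

/-- certificate -/
def c4 : List (List (ℤ × ℕ)) :=
  un [8289, 12385, 8305, 12401, 10245, 14341, 15365, 8229, 12325, 8245, 12341, 131218, 196754,
  172178, 237714, 254098, 658, 164498, 914, 131282, 196818, 68050, 722, 978, 246738, 165090,
  247010, 132834, 198626, 215014, 10497, 15617, 9249, 13361, 14921, 4137, 4153, 5241, 15949, 4141,
  4157, 84114, 85138, 67986, 69010, 82578, 67218, 240274, 257682, 87954, 174994, 241554, 85202,
  69074, 82642, 87762, 82898, 67538, 148194, 213986, 168422, 250342, 912, 900, 9569, 13681, 9605,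
  13701, 9669, 13765, 10517, 15637, 9509, 13605, 9525, 13621, 173458, 255378, 169618, 251858, 656,
  976, 644, 964, 584, 844, 10325, 15445, 15525, 10485, 15945, 15897, 14925, 14877]

/-- certificate -/
def c5 : List (List (ℤ × ℕ)) :=
  [[(6,147922), (-3,8221), (1,482), (6,213394), (6,14353), (-3,12313)], [(1,132562), (-2,9309),
  (1,67042), (1,198034), (-2,13401), (2,14421)], [(1,164818), (-1,10557), (2,148450), (2,230290),
  (-2,14649), (1,14901)], [(1,4), (-2,147858), (1,8217), (-2,4117), (-2,213458), (1,12317)]]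

/-- certificate -/
def c6 : List (List (ℤ × ℕ)) :=
  un [4177, 4273, 14769, 5125, 4117, 5301, 13321, 13641, 12313, 13401, 15657, 14649, 151698,
  217234, 148626, 214162, 147858, 213394, 132498, 198034, 170386, 252306, 230034, 246418, 235154,
  251538, 230290, 134034, 154514, 220050, 217298, 214226, 248018, 213458, 198098, 235986, 252370,
  253394, 246482, 235218, 251602, 199634, 154578, 220114, 65762, 83170, 149730, 215266, 150754,
  216290, 482, 67042, 133602, 256482, 200162, 213730, 171746, 14593, 14353, 14993, 16081, 14661,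
  14981, 16005, 15045, 16069, 14421, 15909, 14901, 9225, 9545, 10633, 14729, 14793, 8217, 9305,
  10393, 14489, 15513, 14633, 14441, 15465, 9385, 13481, 9449, 10553, 10361, 14457, 13497, 9229,
  13325, 9549, 13645, 10637, 15757, 10701, 15821, 8221, 12317, 9309, 13405, 10397, 15517, 10461,
  15581, 14637, 15661, 14445, 15469, 9453, 13549, 10557, 14653, 10365, 14461, 13501, 13565,
  236946, 200338, 135058]

/-- certificate -/
def c7 : List (List (ℤ × ℕ)) :=
  un [155538, 232658, 133842, 199378, 154322, 134098, 135122, 155602, 69346, 296]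

/-- certificate -/
def c8 : List (List (ℤ × ℕ)) :=
  [[(2,256994), (-2,15025), (-1,15529), (1,16009), (2,14521), (1,134114), (3,134882), (1,994),
  (-2,170962), (2,10429)], [(6,253906), (-6,13809), (-2,90066), (3,5373), (6,15693), (-6,15573),
  (9,198610), (3,200146), (-1,466), (-6,13533), (3,13773)], [(6,258018), (-6,15089), (-6,171986),
  (3,10493), (6,16013), (-6,15593), (9,199650), (3,200418), (-1,738), (-6,14573), (3,15053)],
  [(6,812), (-3,12465), (3,15529), (-3,16009), (-3,134882), (-1,994), (-3,256994), (3,15025),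
  (3,170962), (-3,10429)]]

/-- certificate -/
def c9 : List (List (ℤ × ℕ)) :=
  un [4209, 8369, 12465, 12309, 15369, 15449, 12329, 12345, 250002, 251282, 65746, 246994, 466,
  261586, 198610, 131298, 196834, 248034, 738, 261858, 994, 246754, 199650, 992, 968, 812, 15873,
  15953, 15825, 16033, 16097, 14385, 15749, 15653, 16009, 15913, 14905, 14521, 5133, 10253, 15693,
  16013, 4125, 15645, 8237, 15917, 8253, 13629, 14909, 86226, 168146, 82386, 246226, 200146,
  220626, 170962, 90066, 171986, 164578, 246498, 240354, 134882, 200418, 241378, 368, 688, 332,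
  652, 13569, 14849, 14929, 13729, 10693, 10549, 9673, 9529, 10333, 13533, 5293, 14573]

/-- certificate -/
def c10 : List (List (ℤ × ℕ)) :=
  [[(1,89042), (-3,5309), (3,68562), (-6,236434), (-6,13493), (3,13745)], [(1,12), (-2,148370),
  (1,8249), (-2,4149), (-2,213970), (1,12349)], [(3,171666), (6,9445), (-3,9697), (-3,67298),
  (3,82658), (-1,88978), (3,5305), (-3,68498)], [(6,236178), (-3,14985), (3,10425), (3,133858),
  (-4,148370), (2,8249), (-1,4149), (-1,12), (2,213970), (-1,12349)]]

/-- certificate -/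
def c11 : List (List (ℤ × ℕ)) :=
  un [12369, 13317, 4149, 13493, 15689, 13433, 233618, 246930, 256402, 255634, 236178, 148370,
  198546, 68498, 236434, 250066, 83154, 67026, 252626, 213970, 219090, 68562, 166114, 232674,
  132578, 68066, 69090, 67298, 67554, 217574, 848, 928, 1008, 15761, 15713, 13793, 13745, 15941,
  15893, 13397, 9445, 14645, 14453, 9397, 14345, 14665, 14425, 5353, 8249, 5305, 10425, 15373,
  10573, 9613, 15453, 9373, 9325, 15533, 5357, 12349, 9533, 13437, 5309, 14525, 230546, 240018,
  155026, 175506, 239250, 89746, 171666, 88978, 170898, 165074, 149714, 164306, 133586, 219602,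
  155090, 148178, 132818, 68306, 133074, 153554, 167398, 808, 14737, 14689, 14725, 14485, 14437,
  13705, 13465]

/-- certificate -/
def c12 : List (List (ℤ × ℕ)) :=
  [[(4,237202), (-4,14569), (4,13541), (-2,198114), (2,199394), (1,8), (-2,230114), (1,12333),
  (-1,8233)], [(3,241042), (6,14549), (-6,14801), (-6,198354), (3,13613), (1,90002), (-3,5369),
  (-3,200082), (6,13469)], [(3,218066), (3,5173), (3,15389), (-3,15809), (-3,249810), (-3,12533),
  (3,83410), (-3,4189), (1,1490), (-3,28)], [(3,238562), (3,10297), (3,15405), (-3,16065),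
  (-3,249826), (-3,12537), (3,166626), (-3,8365), (1,2786), (-3,44)]]

/-- certificate -/
def c13 : List (List (ℤ × ℕ)) :=
  un [8273, 4193, 9221, 8213, 4133, 12453, 4277, 12377, 8313, 65682, 83090, 165010, 402, 66962,
  174482, 132754, 153234, 230610, 133330, 199122, 257490, 198354, 218834, 2770, 66786, 214242,
  1506, 198114, 253158, 231910, 10641, 14801, 9541, 10629, 14789, 9301, 5129, 10569, 4121, 10521,
  10329, 13529, 9513, 9321, 14669, 13709, 16077, 14621, 8285, 14429, 13469, 13613, 13421, 4269,
  15597, 14589, 86162, 216210, 82322, 164242, 154002, 148114, 88722, 237202, 69522, 171922, 672,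
  944, 580, 292, 8, 824, 8353, 8433, 10489]

/-- certificate -/
def c14 : List (List (ℤ × ℕ)) :=
  [[(1,239590), (1,10617), (1,15725), (-1,16085), (-1,253926), (-1,13817), (1,170726), (-1,9645),
  (1,84706), (-1,364), (1,5297)], [(3,251090), (-3,15557), (-3,13633), (3,5173), (3,12413),
  (3,28), (6,13381), (-3,12373), (-3,4213), (3,83410), (-3,4189), (1,1490)], [(3,256226),
  (-3,15561), (-3,14977), (3,10297), (3,12477), (3,44), (6,14473), (-3,12457), (-3,8377),
  (3,166626), (-3,8365), (1,2786)], [(3,153746), (3,5253), (-12,4185), (4,1426), (6,10265),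
  (-6,10625), (-6,166546), (-6,8357), (-6,9353), (3,8345), (3,4265), (-2,2706), (9,152210),
  (9,5157), (9,83346)]]

/-- certificate -/
def c15 : List (List (ℤ × ℕ)) :=
  un [28, 44, 5297, 8277, 12373, 4197, 4213, 12533, 13577, 12457, 8377, 12537, 15437, 15501,
  12413, 12477, 66706, 253074, 257170, 1426, 66770, 199890, 250322, 1490, 216018, 4050, 249810,
  82146, 133346, 199906, 66018, 254690, 2786, 4066, 249826, 220646, 13633, 14977, 15809, 16065,
  9285, 13381, 5173, 5193, 14473, 4185, 15833, 10297, 9485, 5197, 10381, 4189, 15773, 8365, 13805,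
  13757, 4349, 8445, 9725, 87186, 83346, 249234, 152210, 151186, 216978, 220370, 240866, 154086,
  255718, 868, 628, 376, 364, 9537, 10625, 14997, 16085, 10265, 14745, 10713, 10617, 14813,
  169106, 153746, 166546, 528, 10373, 8357, 8437, 12397, 133266, 199826, 2706, 3986, 9353, 4345]

/-- certificate -/
def c16 : List (List (ℤ × ℕ)) :=
  [[(2,524), (-1,8241), (-1,197602), (2,14397), (-1,165346), (-1,10677), (-2,150418), (1,131810)],
  [(6,234642), (3,14913), (-6,14469), (-3,10293), (3,12393), (-3,165602), (3,8301), (-1,1762)],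
  [(2,231138), (1,15029), (1,166866), (-1,10685), (1,155366), (1,83938), (2,215506), (1,13689),
  (1,197522)], [(6,14677), (-3,13669), (3,9589), (12,148946), (-4,165346), (-4,10677),
  (-8,150418), (4,131810), (-4,524), (2,8241), (2,197602), (-4,14397)]]

/-- certificate -/
def c17 : List (List (ℤ × ℕ)) :=
  un [12321, 15457, 8241, 15877, 8373, 14409, 12393, 213138, 245906, 234642, 198802, 239762,
  233874, 197522, 2962, 147666, 215506, 164066, 245986, 132322, 2530, 131810, 1762, 231138,
  197602, 232418, 237286, 219110, 251878, 236518, 256998, 14337, 14913, 14865, 10545, 14597,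
  15765, 13669, 15717, 15845, 10293, 9589, 10677, 15029, 15625, 14857, 15705, 14937, 16025, 14377,
  14697, 15977, 15785, 4329, 16105, 13689, 14969, 4281, 14777, 15885, 10317, 9357, 15965, 8349,
  8301, 16045, 14397, 14717, 15037, 154770, 175250, 214418, 167570, 152466, 148946, 232146,
  166866, 214498, 83938, 171494, 155366, 169958, 924, 14721, 14625, 13449]

/-- certificate -/
def c18 : List (List (ℤ × ℕ)) :=
  [[(3,165778), (3,8309), (-6,9329), (-3,83858), (3,4217), (-1,1938)], [(1,131794), (-2,9261),
  (1,66274), (1,197266), (-2,13353), (2,14373)], [(6,149458), (-3,8317), (1,2018), (6,214930),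
  (6,14449), (-3,12409)], [(2,268), (-1,4145), (-1,131986), (2,9273), (-1,197586), (2,13373)]]

/-- certificate -/
def c19 : List (List (ℤ × ℕ)) :=
  un [12305, 4145, 12389, 8309, 12469, 15433, 13353, 12409, 197778, 251026, 256146, 250258,
  215442, 231826, 197266, 214674, 231058, 131986, 1938, 214930, 165778, 84882, 232338, 82130,
  245970, 132306, 198866, 66002, 131538, 2514, 149970, 1746, 197586, 214994, 3026, 197858, 131554,
  166370, 248290, 3554, 66274, 83682, 247522, 2018, 216034, 220902, 240614, 13313, 15937, 15745,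
  15889, 13457, 14481, 9425, 15649, 13409, 14433, 9441, 14641, 9329, 14449, 9393, 13489, 13573,
  14853, 14405, 13333, 14357, 14741, 15829, 13349, 14373, 9701, 16101, 9269, 9653, 14601, 13385,
  13337, 14361, 14681, 15001, 4313, 16089, 5177, 9273, 4217, 9593, 10681, 10509, 15629, 9293,
  14413, 5261, 13453, 9245, 10589, 15709, 4253, 16029, 8413, 5165, 9261, 4205, 9581, 15981, 15789,
  4333, 13373, 8317, 13693, 14973, 4285, 14781, 220306, 240786, 217490, 237970, 230802, 86930]

/-- certificate -/
def c20 : List (List (ℤ × ℕ)) :=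
  un [168850, 149394, 165330, 150994, 85714, 233170, 152530, 167890, 171234, 151522, 872]

/-- certificate -/
def c21 : List (List (ℤ × ℕ)) :=
  [[(2,264), (-1,4129), (-1,131730), (2,9257), (-1,197330), (2,13357)], [(6,9217), (-3,8209),
  (-1,4129), (-4,264), (2,131730), (-4,9257), (2,197330), (-4,13357)], [(6,9457), (3,197090),
  (-6,14365), (1,197330), (-2,13357), (4,264), (-2,4129), (-2,131730), (4,9257)], [(6,14845),
  (-6,233426), (-6,217058), (-3,197090), (6,14365), (-1,197330), (2,13357), (-4,264), (2,4129),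
  (2,131730), (-4,9257)]]

/-- certificate -/
def c22 : List (List (ℤ × ℕ)) :=
  un [8209, 4129, 82066, 163986, 65938, 131730, 149138, 229586, 197330, 214738, 213218, 197090,
  231906, 249314, 9477, 9237, 10645, 14805, 10505, 10585, 9257, 9577, 14825, 14365, 14685, 15005,
  16093, 13357, 13677, 14765, 15853]

/-- certificate -/
def c23 : List (List (ℤ × ℕ)) :=
  [[(3,3), (3,5121), (3,10241), (3,15361), (-24,5189), (-3,10309), (-3,15429), (-3,5257),
  (-27,10377), (-3,15497), (-3,5325), (-3,10445), (18,15565), (-3,10513), (-3,15633), (3,10581),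
  (3,15701), (-10,2450), (-48,10649), (3,15769), (3,10717), (-3,15837), (-3,15905), (3,15973),
  (3,16041), (-15,3810), (6,85730), (-3,16109), (-30,4113), (-3,8225), (9,12337), (24,4181),
  (-84,8293), (-12,12405), (27,4249), (-9,8361), (-33,12473), (-24,4317), (42,8429), (-18,12541),
  (3,9505), (3,13617), (-3,9573), (-3,13685), (-27,1682), (12,9641), (6,13753), (-3,2002),
  (-3,9709), (3,13821), (3,14897), (-3,14965), (-3,15033), (-10,3042), (3,84962), (3,15101),
  (2,86674), (-24,5161), (2,86994), (-6,5181), (6,168914), (-27,10301), (-6,165842), (6,10621),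
  (6,66514), (6,153574), (-6,83602), (-9,4201), (-12,83922), (24,4221), (-6,166882), (51,166290),
  (60,8341), (-60,131474), (-87,165522), (6,249298), (6,12501), (-33,197074), (-15,247762),
  (6,249570), (6,12521), (6,197346), (-36,248802), (27,85458), (-15,60), (27,20), (-6,40),
  (12,150482), (3,9661), (-39,167650), (-33,152722), (33,10261), (-33,10561), (30,9349),
  (-15,8281), (-24,13509), (12,12381), (12,218322), (-12,15381), (12,15681), (42,14537),
  (-21,12461), (-21,8381), (-42,239842), (42,15401), (-42,16001), (-18,170130), (18,9601),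
  (-24,84370), (-21,257250), (21,15041), (54,13521), (-27,13581), (27,5361), (54,260), (7,3538),
  (72,150162), (36,4261), (12,229602), (6,14861), (-6,10481), (6,15881), (-6,15521), (-12,520),
  (-12,780), (-12,9313), (6,10501), (-6,10321), (-12,13425), (6,15621), (-6,15441), (-24,14561),
  (-18,14809), (9,13741), (9,360), (-9,5281), (18,231890), (-9,15721), (9,16021), (9,252902)]]

/-- certificate -/
def c24 : List (List (ℤ × ℕ)) :=
  un [4113, 5121]

/-- certificate -/
def c25 : List (List (ℤ × ℕ)) :=
  [[(3,166290), (-3,10649), (3,8341), (-3,131474), (3,9641), (-1,1682), (-3,165522), (-3,8293)],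
  [(6,13521), (-3,197074), (-3,13581), (-3,320), (3,85458), (-3,4317), (1,3538), (6,9313),
  (3,84370), (-3,4249), (1,2450), (3,66194), (6,147602), (3,8225), (-3,9481), (3,152722),
  (6,5189), (-6,4181), (-3,10261), (3,10561), (-6,9349), (3,8281), (3,4201), (-6,13509),
  (3,12381), (3,4221), (3,20), (3,218322), (-3,15381), (3,15681)], [(6,14561), (-3,14861),
  (3,10481), (6,520), (-6,8225), (-3,197346), (3,167650), (-3,8429), (1,3810), (-3,10501),
  (3,10321), (6,84370), (-6,4249), (2,2450), (6,152722), (3,5189), (-3,4181), (-6,10261),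
  (6,10561), (-6,14537), (3,12461), (3,8381), (3,40), (3,239842), (-3,10377), (3,8361),
  (-3,15401), (3,16001), (6,170130), (-6,9601), (6,5161), (2,1682), (6,165522), (6,8293),
  (-6,13521), (3,197074), (3,13581), (3,320), (-3,85458), (3,4317), (-1,3538), (-6,147602),
  (3,9481), (6,13509), (-3,12381), (-3,4221), (-3,20), (-3,218322), (3,15381), (-3,15681)],
  [(6,14393), (6,780), (-6,12337), (6,167650), (-6,8429), (2,3810), (3,132066), (-6,213202),
  (-3,15621), (3,15441), (3,13581), (3,320), (-6,9313), (3,84370), (-3,4249), (1,2450),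
  (-3,66194), (-6,147602), (-3,8225), (3,9481), (3,152722), (3,5189), (-3,4181), (-3,10261),
  (3,10561), (6,9349), (-3,8281), (-3,4201), (-6,14537), (3,12461), (3,8381), (6,239842),
  (6,170130), (-6,9601), (6,5161), (2,1682), (6,165522), (6,8293), (3,257250), (-3,15565),
  (-3,15041), (3,12541), (3,10301), (1,3042), (3,60), (-3,20), (-3,15401), (3,16001), (3,248802),
  (3,12473)]]

/-- certificate -/
def c26 : List (List (ℤ × ℕ)) :=
  un [8225, 12337, 4181, 9641, 10241, 15361, 5189, 10649]

/-- certificate -/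
def c27 : List (List (ℤ × ℕ)) :=
  [[(3,83602), (-3,4201), (-3,84370), (3,4249), (-3,66194), (-1,2450)], [(3,83922), (-3,4221),
  (-3,85458), (3,4317), (-3,66514), (-1,3538)], [(3,166882), (-3,8381), (-3,167650), (3,8429),
  (-3,132066), (-1,3810)], [(3,249570), (-3,16109), (3,12521), (-3,197346), (3,15101), (-1,3042),
  (-3,248802), (-3,12473)]]

/-- certificate -/
def c28 : List (List (ℤ × ℕ)) :=
  un [9573, 13685, 15033, 15101, 10581, 15701, 16041, 16109]

/-- certificate -/
def c29 : List (List (ℤ × ℕ)) :=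
  [[(1,1000), (1,960), (-1,980), (2,15441)], [(1,700), (1,640), (-1,660), (2,10321)], [(2,10501),
  (1,700), (1,640), (-1,660)], [(2,15621), (1,1000), (1,960), (-1,980)]]

/-- certificate -/
def c30 : List (List (ℤ × ℕ)) :=
  un [520, 600, 780, 860, 10321, 15441, 15521, 10481, 15781, 10741, 15881, 15961, 14861, 14941,
  147602, 148882, 213202, 214482, 236262, 612, 884, 9481, 8281, 9721, 13581, 12381, 15837, 13821,
  5281, 5361, 4261, 4341, 150162, 151442, 215762, 217042, 10377, 8361, 8441, 15565, 12541]

/-- certificate -/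
def c31 : List (List (ℤ × ℕ)) :=
  [[(3,165522), (3,8293), (-6,9313), (-3,83602), (3,4201), (-1,1682)], [(3,247762), (3,12405),
  (-6,13425), (-3,83922), (3,4221), (-1,2002)], [(3,248802), (3,12473), (-6,14513), (-3,166882),
  (3,8381), (-1,3042)], [(1,252902), (1,13753), (-2,14773), (-1,170982), (1,9661), (-1,84962)]]

/-- certificate -/
def c32 : List (List (ℤ × ℕ)) :=
  un [8293, 12405, 12473, 13753, 132242, 166290, 1682, 165522, 197842, 249298, 2002, 247762,
  198882, 249570, 3042, 84962, 248802, 199142, 219622, 134630, 69350, 89830, 253670, 252902, 9361,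
  13521, 9313, 14561, 13425, 14513, 10309, 15429, 10261, 15381, 9253, 14821, 13365, 14773, 9289,
  15497, 9241, 4249, 15769, 5161, 15401, 4201, 15721, 14393, 14713, 13389, 14477, 13341, 14749,
  4317, 14381, 14701, 8429, 9709, 5181, 10301, 4221, 10621, 8381, 9661, 88210, 151954, 172434,
  254354, 86674, 250514, 247442, 231314, 89298, 171218, 217554, 167378, 234194, 86994, 168914,
  165842]

/-- the whole certificate -/
def cert : List (List (ℤ × ℕ)) :=
  List.flatten [c0, c1, c2, c3, c4, c5, c6, c7, c8, c9, c10, c11, c12, c13, c14, c15, c16, c17,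
  c18, c19, c20, c21, c22, c23, c24, c25, c26, c27, c28, c29, c30, c31, c32]
/-- all components are in the set `Z` -/
def full (Z : ℕ) : Bool := [0, 1, 2, 3].all fun m => [0, 1, 2, 3].all fun n =>
  [0, 1, 2, 3].all fun r => [0, 1, 2, 3].all fun s => [0, 1, 2, 3].all fun g =>
  [0, 1, 2, 3].all fun d => Z.testBit (cv m n r s g d)

theorem cert_ok : run full cert 0 = true := by decide +kernel

/-- the index of a number -/
def ix (n : ℕ) : Fin 4 := ⟨n % 4, Nat.mod_lt _ (by norm_num)⟩

theorem ix_val (m : Fin 4) : ix m = m := Fin.ext (Nat.mod_eq_of_lt m.2)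

theorem core (A : Fin 4 → Fin 4 → Fin 4 → Fin 4 → Fin 4 → Fin 4 → ℝ) (η : Fin 4 → ℝ)
    (δ : Fin 4 → Fin 4 → ℝ) (hη : ∀ m, η m = if m = 0 then 1 else -1)
    (hδ : ∀ i a, δ i a = if a = i then η i else 0)
    (S : ∀ m n r s g d, A m n r s g d = A m n r s d g)
    (P : ∀ m n r s g d, A m n r s g d = A r s m n g d)
    (T : ∀ r s g d, ∑ m, η m * A m m r s g d = 0)
    (C : ∀ n r s a b e, A a n r s b e + A b n r s a e + A e n r s a b = 0)
    (B : ∀ i j k r s a b e,
      δ i a * (A j k r s b e - A k j r s b e) + δ i b * (A j k r s a e - A k j r s a e) +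
        δ i e * (A j k r s a b - A k j r s a b) +
      (δ j a * (A k i r s b e - A i k r s b e) + δ j b * (A k i r s a e - A i k r s a e) +
        δ j e * (A k i r s a b - A i k r s a b)) +
      (δ k a * (A i j r s b e - A j i r s b e) + δ k b * (A i j r s a e - A j i r s a e) +
        δ k e * (A i j r s a b - A j i r s a b)) = 0)
    (N : ∑ m, ∑ n, ∑ g, η m * η n * η g * A m n m n g g = 0) (m n r s g d : Fin 4) :
    A m n r s g d = 0 := by
  let x : ℕ → ℝ := fun c =>
    A (ix c) (ix (c / 4)) (ix (c / 16)) (ix (c / 64)) (ix (c / 256)) (ix (c / 1024))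
  have hcd : ∀ m n r s g d, x (cd m n r s g d) =
      A (ix m) (ix n) (ix r) (ix s) (ix g) (ix d) := fun m n r s g d => by
    have h0 : ix (cd m n r s g d) = ix m := Fin.ext (by simp only [ix, cd]; omega)
    have h1 : ix (cd m n r s g d / 4) = ix n := Fin.ext (by simp only [ix, cd]; omega)
    have h2 : ix (cd m n r s g d / 16) = ix r := Fin.ext (by simp only [ix, cd]; omega)
    have h3 : ix (cd m n r s g d / 64) = ix s := Fin.ext (by simp only [ix, cd]; omega)
    have h4 : ix (cd m n r s g d / 256) = ix g := Fin.ext (by simp only [ix, cd]; omega)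
    have h5 : ix (cd m n r s g d / 1024) = ix d := Fin.ext (by simp only [ix, cd]; omega)
    simp only [x]
    rw [h0, h1, h2, h3, h4, h5]
  have hmin : ∀ a b y, x a = y → x b = y → x (min a b) = y := fun a b y ha hb => by
    rcases min_choice a b with h | h <;> rwa [h]
  have hcv : ∀ m n r s g d, x (cv m n r s g d) =
      A (ix m) (ix n) (ix r) (ix s) (ix g) (ix d) := fun m n r s g d =>
    hmin _ _ _ (hmin _ _ _ (hcd ..) (by rw [hcd, S])) (hmin _ _ _ (by rw [hcd, P])
      (by rw [hcd, P, S]))
  have hei : ∀ m, ((ei m : ℤ) : ℝ) = η (ix m) := fun m => by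
    rw [hη, ei]
    by_cases h : m % 4 = 0
    · rw [if_pos h, if_pos (Fin.ext h)]; simp
    · rw [if_neg h, if_neg fun e => h (congrArg Fin.val e)]; simp
  have hdi : ∀ i a, ((di i a : ℤ) : ℝ) = δ (ix i) (ix a) := fun i a => by
    rw [hδ, di]
    by_cases h : i % 4 = a % 4
    · rw [if_pos h, if_pos (Fin.ext h.symm), hei]
    · rw [if_neg h, if_neg fun e => h (congrArg Fin.val e).symm]; simp
  have e0 : η 0 = 1 := by simp [hη]
  have e1 : η 1 = -1 := by rw [hη, if_neg (by decide)]
  have e2 : η 2 = -1 := by rw [hη, if_neg (by decide)]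
  have e3 : η 3 = -1 := by rw [hη, if_neg (by decide)]
  have i0 : ix 0 = 0 := rfl
  have i1 : ix 1 = 1 := rfl
  have i2 : ix 2 = 2 := rfl
  have i3 : ix 3 = 3 := rfl
  have hx : ∀ c, ev x (eqn c) = 0 := fun c => by
    unfold eqn
    split_ifs
    · have h := T (ix (c / 4)) (ix (c / 16)) (ix (c / 64)) (ix (c / 256))
      simp only [Fin.sum_univ_four, e0, e1, e2, e3] at h
      simp only [eT, ev_cons, ev_nil, hcv, i0, i1, i2, i3]
      push_cast
      linear_combination h
    · simp only [eC, ev_cons, ev_nil, hcv]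
      push_cast
      linear_combination C (ix (c / 4)) (ix (c / 16)) (ix (c / 64)) (ix (c / 256)) (ix (c / 1024))
        (ix (c / 4096))
    · simp only [eB, bi, ev_append, ev_cons, ev_nil, hcv, Int.cast_neg, hdi]
      linear_combination B (ix (c / 4)) (ix (c / 16)) (ix (c / 64)) (ix (c / 256)) (ix (c / 1024))
        (ix (c / 4096)) (ix (c / 16384)) (ix (c / 65536))
    · simp only [Fin.sum_univ_four] at N
      simp only [eN, List.flatMap_cons, List.flatMap_nil, List.map_cons, List.map_nil, ev_append,
        ev_cons, ev_nil, hcv, Int.cast_mul, hei, i0, i1, i2, i3]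
      linear_combination N
  obtain ⟨Z, h, hZ⟩ := steps_ok hx full cert (Z := 0) (fun v hv => by simp at hv) cert_ok
  simp only [full, List.all_eq_true] at h
  have hm : ∀ a : Fin 4, (a : ℕ) ∈ [0, 1, 2, 3] := by decide
  have h1 := hZ _ (h m (hm m) n (hm n) r (hm r) s (hm s) g (hm g) d (hm d))
  rw [hcv] at h1
  simpa only [ix_val] using h1

end Vale.Agent.P352X.ZZ.TPD.Comb
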