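import Vale.Agent.P352Z.TPD.Spec
import Vale.Agent.P352Z.TPD.CombCore

/-!
# P352Z, block TPD: row COMB
-/

set_option linter.all false

namespace Vale.Agent.P352X.ZZ.TPD

open Vale.Agent.P352 Vale.Agent.P352.GF Vale.Agent.P352.H755

/-- row COMB -/
theorem comb_row : COMB := fun A S P T C B N m n r s g d =>
  Comb.core A eta (fun i a => et ![i, a]) (fun _ => rfl) (fun _ _ => rfl) S P T C B N m n r s g d

end Vale.Agent.P352X.ZZ.TPD
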