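import Vale.Agent.P352Z.TPD.Spec
import Vale.Agent.P352Z.SG.Lm2
import Vale.Agent.P352X.TPD.CRL
import Vale.Agent.P352X.TPD.Ut

/-!
# P352Z, block TPD: row CRL (helper22)
-/

set_option linter.all false

open MeasureTheory Filter Topology
open scoped SchwartzMap ComplexConjugate ENNReal ContDiff

namespace Vale.Agent.P352X.ZZ.TPD

open Vale.Agent.P352 Vale.Agent.P352.GF Vale.Agent.P352.BW Vale.Agent.P352.H246
open Vale.Agent.P352.H496 Vale.Agent.P352.H755 Vale.Agent.P352.H15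
open UniformSpace (Completion)
open Complex (I)

noncomputable section

namespace Crl

export Vale.Agent.P352X.TPD.Crl (dL bas_sum eta_inv cD cB cB_apply dcr_eq dcr_smul meas0)

variable {D : Type*} [NormedAddCommGroup D] [InnerProductSpace ℂ D] {c : Ctx D}

theorem ug_split (g : GRP c) {s : ℝ} {L : Ix → V} (hs : 0 < s) (hL : IsLor L) (a : V)
    (z : Completion D) : Ug c.Q s L a z = Ut c.Q a (Ug c.Q s L 0 z) := by
  have := g.mul 1 GF.one a s L 0 one_pos hs H496.isLor_one hL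
  simp only [HM.sim_tr, one_mul, zero_add, add_zero] at this
  exact (DFunLike.congr_fun this z).symm

lemma sy_eb {k : ℕ} (μ J : Fin k → Ix) :
    P352X.Two.sy (Two.eb μ) J = if J = μ then 1 else 0 := by
  split_ifs with h
  · simp [h, P352X.Two.sy, Two.eb, bas, Two.eta_sq]
  · obtain ⟨i, hi⟩ := Function.ne_iff.1 h
    rw [P352X.Two.sy, Finset.prod_eq_zero (Finset.mem_univ i) (by simp [Two.eb, bas, hi])]

/-- **the two point function of a multilinear logarithmic family** -/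
theorem two_log (b : B0 c) {k K : ℕ} {d : ℝ} (hd : k + 2 ≤ d) (X : ℝ → (Fin k → V) → TT D)
    (tc : ∀ l u, TC c (X l u)) (pl : ∀ u, PL K fun l => X l u)
    (ml : ∀ l u, X l u = ∑ J, P352X.Two.sy u J • X l (Two.eb J))
    (cov : ∀ l (s : ℝ) L u, 0 < s → IsLor L →
      s ^ (4 - d) • act c s L (X (l + Real.log s) u) = X l fun j => sim 1 L 0 (u j)) :
    ∃ C : ℝ, 0 ≤ C ∧ ∀ l u (f : Sch), c.nu (X l u f) ≤ Two.wd fun p =>
      C * ((∏ j, nn p (u j)) * mu p ^ (d - 2 - k) *
        (1 + |Real.log (mu p) - 2 * l|) ^ (2 * K) * ‖ft (ev f) p‖ ^ 2) := by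
  choose a top cb eq using fun J => (pl (Two.eb J)).to_ex0
  have ev : ∀ l J (f : Sch), (ex0 K l fun j => a J j f) = X l (Two.eb J) f := fun l J f => by
    simp [eq, ex0, ContinuousLinearMap.sum_apply]
  have top' : ∀ j, K < j → (fun J => a J j) = 0 := fun j hj => funext fun J => top J j hj
  have h : Two.LMu c K d fun j J => a J j := by
    refine .of_fam (fun j J f => ?_) top' fun l μ s L y f g hs hL e => ?_
    · obtain ⟨q, hq⟩ := cb J j
      simp only [hq, ContinuousLinearMap.sum_apply, ContinuousLinearMap.smul_apply,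
        inner_sum, ← Complex.coe_smul, inner_smul_right, (tc _ _).perp, mul_zero,
        Finset.sum_const_zero]
    obtain ⟨M, hM, -, e0⟩ := b.ten.inv L hL
    have e1 : ∀ p, sim 1 L 0 (sim 1 M 0 p) = p := fun p => by
      rw [← T.sim_cm, e0, P352X.TPD.sim_id]
    have e2 : ∀ ν, P352X.Two.sy (fun j => sim 1 M 0 (Two.eb μ j)) ν = ∏ i, L (ν i) (μ i) :=
      fun ν => by
        have := P352X.Two.sy_cov hL (fun _ => 1) (fun j => sim 1 M 0 (Two.eb μ j)) ν
        simpa [e1, sy_eb] using this.symm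
    have e3 := cov l s L (fun j => sim 1 M 0 (Two.eb μ j)) hs hL
    have e4 := (tc l (Two.eb μ)).tra y (ST.tsl (-y) f)
    have e5 : pS s L (ST.tsl (-y) f) = g := SchwartzMap.ext fun z => by
      rw [pS_apply hs hL, ST.tsl_apply, sub_neg_eq_add, ← HM.sim_at, e]
    simp only [e1] at e3
    rw [show ST.tsl y (ST.tsl (-y) f) = f from SchwartzMap.ext fun z => by simp [ST.tsl_apply]]
      at e4
    conv_lhs at e4 => rw [show X l (Two.eb μ) = _ from e3.symm, ml]
    simp only [ev, ← e4, ContinuousLinearMap.smul_apply, act_apply, e5, e2,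
      ContinuousLinearMap.sum_apply, map_sum, ContinuousLinearMap.map_smul_of_tower,
      Finset.smul_sum, smul_smul, ← ug_split b.grp hs hL, Complex.coe_smul]
  obtain ⟨C, hC, e⟩ := h.two top' hd
  refine ⟨C, hC, fun l u f => ?_⟩
  have := e l 0 u f
  simp only [zero_add] at this
  simp only [Two.ex0_sum, ev] at this
  simp only [Complex.coe_smul] at this
  rwa [ml, ContinuousLinearMap.sum_apply]

lemma tc_crl (b : B0 c) {n : V →ₗ[ℝ] TT D} (h : ∀ v, TC c (n v)) (v w : V) :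
    TC c (crl n v w) := by
  rw [P352X.TPD.crl, sub_eq_add_neg, ← neg_one_smul ℝ]
  exact b.ba.tc_add _ _ (b.ba.tc_der _ _ (h v)) (b.ba.tc_smul _ _ (b.ba.tc_der _ _ (h w)))

lemma tc_dcr (b : B0 c) {n : V →ₗ[ℝ] TT D} (h : ∀ v, TC c (n v)) (v : V) : TC c (dcr n v) := by
  rw [dcr_eq]
  exact Finset.sum_induction _ _ (b.ba.tc_add) b.ba.tc0 fun m _ =>
    b.ba.tc_smul _ _ (b.ba.tc_der _ _ (tc_crl b h _ _))

lemma act_dcr (b : B0 c) {n n' : V →ₗ[ℝ] TT D} {s : ℝ} {L : Ix → V} (hs : 0 < s) (hL : IsLor L)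
    (h : ∀ v v', act c s L (crl n' v v') = crl n (sim 1 L 0 v) (sim 1 L 0 v')) (v : V) :
    act c s L (dcr n' v) = s • dcr n (sim 1 L 0 v) := by
  rw [dcr_eq n' v, dcr_eq n (sim 1 L 0 v), ← eta_inv b.ten (cD (cB n (sim 1 L 0 v))) hL, map_sum,
    Finset.smul_sum]
  refine Finset.sum_congr rfl fun m _ => ?_
  rw [map_smul, smul_comm]
  congr 1
  change act c s L (crl n' v (bas m 1) ∘L KDa.dS (bas m 1)) = _
  rw [b.ba.der s L _ _ hs hL, h]
  rfl

lemma pl_comp {K : ℕ} {x : ℝ → TT D} (h : PL K x) (A : Sch →L[ℂ] Sch) : PL K fun l => x l ∘L A :=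
  PL.clm fun f => h.app _

lemma eb_sum (v : V) : v = ∑ m, (eta m * v m) • bas m (eta m) := by
  funext n
  simp [bas, Finset.sum_apply, mul_right_comm _ (v n), Two.eta_sq]

lemma dcr_sum (n : V →ₗ[ℝ] TT D) (a : Ix → ℝ) (v : Ix → V) :
    dcr n (∑ m, a m • v m) = ∑ m, a m • dcr n (v m) := by
  simp only [P352X.TPD.dcr, map_sum, map_smul, smul_sub, Finset.sum_sub_distrib,
    ContinuousLinearMap.finsetSum_comp, ContinuousLinearMap.smul_comp,
    show KDa.dS = dL from rfl, ContinuousLinearMap.comp_finsetSum, ContinuousLinearMap.comp_smul]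

lemma mu_null {x : TT D} {C l : ℝ} {K : ℕ} {a : V} (ha : mdot a a = 0)
    (h0 : ∀ p ∈ Fc, 0 < mdot a p) (h : ∀ f : Sch, c.nu (x f) ≤ Two.wd fun p =>
      C * ((∏ j : Fin 1, nn p a) * mu p ^ ((5 : ℝ) - 2 - (1 : ℕ)) *
        (1 + |Real.log (mu p) - 2 * l|) ^ (2 * K) * ‖ft (ev f) p‖ ^ 2)) :
    Mu c (fun p => ((mu p * mdot a p)⁻¹ : ℝ)) x := by
  obtain ⟨m, C', -, hb⟩ := ((Lgm.Lg.const (2 * C)).mul (((Lgm.Lg.const 1).add
    (Lgm.lg_log.sub (Lgm.Lg.const (2 * l))).abs).pow (2 * K))).bd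
  refine ⟨m, C', fun f => (lintegral_mono' (h f) le_rfl).trans (le_trans (le_of_eq ?_) (hb f))⟩
  have hm := (cont_ft (f := ev f) ⟨f, rfl⟩).measurable
  have m1 : Measurable fun p => mdot a p := by unfold GF.mdot; fun_prop
  rw [Two.wd, lintegral_withDensity_eq_lintegral_mul _ (by unfold nn; fun_prop) (by fun_prop)]
  refine lintegral_congr_ae ((ae_restrict_mem meas_Fc).mono fun p hp => ?_)
  have h1 := h0 p hp
  have h2 := ((mem_Fc p).1 hp).2
  simp only [Pi.mul_apply]
  rw [mul_comm, ← ENNReal.ofReal_mul (sq_nonneg _), Complex.norm_real, Real.norm_eq_abs, sq_abs,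
    nn, ha]
  congr 1
  norm_num
  field_simp

end Crl

variable {D : Type*} [NormedAddCommGroup D] [InnerProductSpace ℂ D]

open Crl in
/-- **row CRL** -/
theorem crl_row (c : Ctx D) (b : B0 c) : CRL c := fun K n tc pl cov l => by
  have p2 : ∀ v v', PL K fun l => crl (n l) v v' := fun v v' =>
    (pl_comp (pl v) _).sub (pl_comp (pl v') _)
  obtain ⟨C, -, h1⟩ := two_log b (k := 1) (K := K) (d := 5) (by norm_num)
    (fun l u => dcr (n l) (u 0)) (fun l u => tc_dcr b (tc l) _) (fun u => by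
      simp only [dcr_eq]
      exact PL.sum _ fun m _ => (pl_comp (p2 _ _) _).smul _) (fun l u => by
      rw [← (Equiv.funUnique (Fin 1) Ix).symm.sum_comp]
      conv_lhs => rw [eb_sum (u 0), dcr_sum]
      simp [P352X.Two.sy, Two.eb]) fun l s L u hs hL => by
      rw [act_dcr b hs hL fun v v' => cov l s L v v' hs hL, smul_smul, show (4 - 5 : ℝ) = -1 by
        norm_num, Real.rpow_neg_one, inv_mul_cancel₀ hs.ne', one_smul]
  obtain ⟨C', -, h2⟩ := two_log b (k := 2) (K := K) (d := 4) (by norm_num)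
    (fun l u => crl (n l) (u 0) (u 1)) (fun l u => tc_crl b (tc l) _ _) (fun u => p2 _ _)
    (fun l u => by
      rw [← (finTwoArrowEquiv Ix).symm.sum_comp, Fintype.sum_prod_type]
      conv_lhs => rw [eb_sum (u 0), eb_sum (u 1), ← cB_apply]
      simp [P352X.Two.sy, Two.eb, ← cB_apply, LinearMap.sum_apply, Finset.smul_sum, smul_smul]
      exact Finset.sum_comm.trans (by simp only [mul_comm]))
    fun l s L u hs hL => by rw [sub_self, Real.rpow_zero, one_smul, cov l s L _ _ hs hL]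
  refine ⟨mu_null null_va.1 (fun p hp => ((mem_Fc p).1 hp).1) (h1 l fun _ => va),
    mu_null null_vb.1 (fun p hp => ((mem_Fc' p).1 hp).1) (h1 l fun _ => vb), fun v v' f => ?_⟩
  refine (c.bt.nu_eq_zero meas0 _).1 (measure_eq_zero_iff_ae_notMem.2 ?_)
  exact (Two.ae_of_le (h2 l ![v, v'] f)).mono fun p hp => ((mem_Fc p).1 hp).2.ne'

end

end Vale.Agent.P352X.ZZ.TPD
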