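import Vale.Agent.P352Z.TPD.Spec
import Vale.Agent.P352X.TPD.DIV

/-!
# P352Z, block TPD: row DIV (helper22)
-/

set_option linter.all false

open MeasureTheory Filter Topology
open scoped SchwartzMap ComplexConjugate ENNReal ContDiff

namespace Vale.Agent.P352X.ZZ.TPD

open Vale.Agent.P352 Vale.Agent.P352.GF Vale.Agent.P352.BW Vale.Agent.P352.H246
open Vale.Agent.P352.H496 Vale.Agent.P352.H755 Vale.Agent.P352.H15
open UniformSpace (Completion)
open Complex (I)
open Vale.Agent.P352X.TPD (sim_id cm_one one_cm)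

noncomputable section

namespace Dvr

export Vale.Agent.P352X.TPD.Dvr (dS_comm gd dvg_gd)

variable {D : Type*} [NormedAddCommGroup D] [InnerProductSpace ℂ D] {c : Ctx D}

lemma dvg_act (b : B0 c) {s : ℝ} {L : Ix → V} (hs : 0 < s) (hL : IsLor L) {n n' : V →ₗ[ℝ] TT D}
    (h : ∀ v, s • act c s L (n' v) = n (sim 1 L 0 v)) :
    act c s L (dvg fun v => n' v) = dvg fun v => n v := by
  have e : ∀ m, sim 1 L 0 (bas m 1) = ∑ a, L m a • bas a 1 := fun m => funext fun a => by
    simp [sim, bas, Finset.sum_apply]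
  have e1 : ∀ m, act c s L (n' (bas m 1) ∘L KDa.dS (bas m 1)) =
      ∑ a, ∑ a', (L m a * L m a') • gd (n (bas a 1)) (bas a' 1) := fun m => by
    rw [b.ba.der s L _ _ hs hL, ← ContinuousLinearMap.smul_comp, h, e, map_sum,
      ContinuousLinearMap.finsetSum_comp]
    refine Finset.sum_congr rfl fun a _ => ?_
    rw [map_smul, ContinuousLinearMap.smul_comp]
    change L m a • gd _ _ = _
    simp only [map_sum, map_smul, Finset.smul_sum, smul_smul]
  simp only [dvg, map_sum, map_smul, e1, Finset.smul_sum, smul_smul]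
  rw [Finset.sum_comm]
  refine Finset.sum_congr rfl fun a _ => ?_
  rw [Finset.sum_comm]
  simp only [← Finset.sum_smul, ← mul_assoc]
  have e2 := fun a' => (b.ten.tra L hL).1 a a'
  simp only [GF.mdot] at e2
  simp [e2, bas, gd]

lemma P_ug (b : B0 c) {s : ℝ} {L : Ix → V} (hs : 0 < s) (hL : IsLor L) {S : Set ℝ}
    (hS : MeasurableSet S) (h : ∀ t, s ^ 2 * t ∈ S ↔ t ∈ S) (z : Completion D) :
    c.bt.P (mu ⁻¹' S) (Ug c.Q s L 0 z) = Ug c.Q s L 0 (c.bt.P (mu ⁻¹' S) z) := by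
  obtain ⟨M, hM, -, e⟩ := b.ten.inv L hL
  have e1 : ∀ p, sim 1 L 0 (sim 1 M 0 p) = p := fun p => by rw [← T.sim_cm, e, sim_id]
  have m0 : Measurable (mu : V → ℝ) := by unfold mu GF.mdot; fun_prop
  refine Eq.symm ((c.bt.cov c.bt SN.isPair_mdot (k := fun p => s • sim 1 M 0 p)
    (A := sim s L 0) (by unfold sim; fun_prop) (fun p y => ?_) _ (w := Ug c.Q s L 0 z)
    (fun y => ?_) (SN.Bd.ind (m0 hS))).trans ?_)
  · rw [sim_s s, mdot_smul, H755.mdot_comm, mdot_smul, ← mdot_sim hL, e1, H755.mdot_comm]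
  · rw [← ContinuousLinearMap.mul_apply, ← ContinuousLinearMap.mul_apply, Ut, Ut,
      b.grp.mul _ _ _ _ _ _ hs one_pos hL H496.isLor_one,
      b.grp.mul _ _ _ _ _ _ one_pos hs H496.isLor_one hL, mul_one, one_mul, sim_one', zero_add]
    congr 2
    exact (one_cm L).trans (cm_one L).symm
  · refine congrArg (c.bt.Phi · _) (funext fun p => ?_)
    have e2 : mu (s • sim 1 M 0 p) = s ^ 2 * mu p := by
      rw [mu, mdot_smul, H755.mdot_comm, mdot_smul, mdot_sim hM, mu, pow_two, mul_assoc]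
    classical
    simp only [Set.indicator_apply, Set.mem_preimage, e2, h]

lemma pot_act (b : B0 c) {s : ℝ} {L : Ix → V} (hs : 0 < s) (hL : IsLor L) {n n' : V →ₗ[ℝ] TT D}
    (h : ∀ v, s • act c s L (n' v) = n (sim 1 L 0 v)) {m : TT D} (hm : Pot c n' m) :
    Pot c n (s ^ 2 • act c s L m) := by
  have P0 := P_ug b hs hL (measurableSet_singleton 0) (by simp [hs.ne'])
  have P1 := P_ug b hs hL (measurableSet_singleton 0).compl (by simp [hs.ne'])
  have g : ∀ v, s • act c s L (gd m v) = gd (s ^ 2 • act c s L m) (sim 1 L 0 v) := fun v => by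
    change s • act c s L (m ∘L _) = _ ∘L _
    rw [b.ba.der s L _ _ hs hL, smul_smul, ContinuousLinearMap.smul_comp, pow_two]
  refine ⟨b.ba.tc_smul _ _ (b.ba.tc_act _ _ _ hs hL hm.tc), fun f => ?_, fun v f => ?_⟩
  · rw [← ContinuousLinearMap.comp_apply _ bx, ← dvg_gd, ← dvg_act b hs hL g, ← dvg_act b hs hL h,
      dvg_gd]
    exact (P1 _).trans ((congrArg _ (hm.pos _)).trans (P1 _).symm)
  · obtain ⟨M, hM, -, e⟩ := b.ten.inv L hL
    rw [← sim_id v, ← e, T.sim_cm, ← h]
    refine (congrArg (fun x : TT D => c.bt.P _ (x f)) (g _).symm).trans ?_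
    simp only [ContinuousLinearMap.smul_apply, ContinuousLinearMap.map_smul_of_tower]
    exact congrArg _ ((P0 _).trans ((congrArg _ (hm.nul _ _)).trans (P0 _).symm))

lemma pot_add (b : B0 c) {n n' : V →ₗ[ℝ] TT D} {m x : TT D} (hx : TC c x)
    (h : ∀ v, n v - n' v = x ∘L KDa.dS v) (hm : Pot c n' m) : Pot c n (m + x) := by
  have e : ∀ v, n v = n' v + gd x v := fun v => (sub_eq_iff_eq_add'.1 (h v))
  refine ⟨b.ba.tc_add _ _ hm.tc hx, fun f => ?_, fun v f => ?_⟩
  · rw [ContinuousLinearMap.add_apply, map_add, hm.pos, ← map_add,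
      ← ContinuousLinearMap.comp_apply x, ← dvg_gd]
    simp [dvg, e, Finset.sum_add_distrib]
  · rw [e, ContinuousLinearMap.add_apply, ContinuousLinearMap.add_apply, map_add, map_add, hm.nul]
    rfl

lemma pot_sum (b : B0 c) {ι : Type*} (t : Finset ι) (a : ι → ℝ) {n : ι → V →ₗ[ℝ] TT D}
    {m : ι → TT D} (h : ∀ i, Pot c (n i) (m i)) {n' : V →ₗ[ℝ] TT D}
    (e : ∀ v, n' v = ∑ i ∈ t, a i • n i v) : Pot c n' (∑ i ∈ t, a i • m i) := by
  refine ⟨Finset.sum_induction _ _ b.ba.tc_add b.ba.tc0 fun i _ => b.ba.tc_smul _ _ (h i).tc,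
    fun f => ?_, fun v f => ?_⟩
  · have : (dvg fun v => n' v) = ∑ i ∈ t, a i • dvg fun v => n i v := by
      simp only [dvg, e, ContinuousLinearMap.finsetSum_comp, ContinuousLinearMap.smul_comp,
        Finset.smul_sum, smul_comm (eta _)]
      exact Finset.sum_comm
    simp only [this, ContinuousLinearMap.sum_apply, ContinuousLinearMap.smul_apply, map_sum,
      ContinuousLinearMap.map_smul_of_tower, (h _).pos]
  · simp only [e, ContinuousLinearMap.sum_apply, ContinuousLinearMap.smul_apply, map_sum,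
      ContinuousLinearMap.map_smul_of_tower, (h _).nul]

end Dvr

open Dvr

variable {D : Type*} [NormedAddCommGroup D] [InnerProductSpace ℂ D]

theorem div_row (c : Ctx D) (b : B0 c) (irn : IRN c) (pot : POT c) (cr : CRL c) : DIV c := by
  intro K n cc h1 h2 hp h3 h4 h5
  obtain ⟨N, hN⟩ : ∃ N : EC → ℝ → V →ₗ[ℝ] TT D, ∀ η l v, N η l v = n v l η :=
    ⟨fun η l => (LinearMap.proj η).comp ((LinearMap.proj l).comp n), fun _ _ _ => rfl⟩
  simp only [← hN] at h1 h2 h4 hp
  replace h5 : ∀ l (s : ℝ) L (η : EC), 0 < s → IsLor L → ∀ v,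
      s • act c s L (N (η.pull s L) (l + Real.log s) v) = N η l (sim 1 L 0 v) :=
    fun l s L η hs hL v => by
      rw [hN, hN, ← h5 s L v hs hL]
      rfl
  have e1 : ∀ l η η' v v', crl (N η l) v v' = crl (N η' l) v v' := fun l η η' v v' => by
    ext1 f
    simp [crl, sub_eq_iff_eq_add.1 (h4 _ l η η'), dS_comm v v']
  have ex : ∀ l η, ∃ m, Pot c (N η l) m := fun l η => by
    obtain ⟨a1, a2, a3⟩ := cr K (N η) (fun l v => h1 v l η) (hp · η) (fun l s L v v' hs hL => by
      rw [e1 _ η (η.pull s L), crl, map_sub, b.ba.der s L _ _ hs hL, b.ba.der s L _ _ hs hL,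
        ← ContinuousLinearMap.smul_comp, ← ContinuousLinearMap.smul_comp, h5 l s L η hs hL,
        h5 l s L η hs hL, crl]) l
    refine pot.ex _ (h1 · l η) (fun v => irn K (fun l => N η l v) (fun l => (2 : ℝ) ^ 2 •
      act c 2 GF.one (cc (l + Real.log 2) (η.pull 2 GF.one) η)) v (hp v η) (h1 v · η)
      (fun l => b.ba.tc_smul _ _ (b.ba.tc_act _ _ _ two_pos H496.isLor_one (h3 _ _ _))) (fun l => ?_) l)
      a1 a2 a3
    have a4 := h5 l 2 _ η two_pos H496.isLor_one v
    rw [sim_id, sub_eq_iff_eq_add'.1 (h4 v _ _ η), map_add, b.ba.der _ _ _ _ two_pos H496.isLor_one,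
      sim_id, smul_add, smul_smul, ← pow_two, ← ContinuousLinearMap.smul_comp] at a4
    exact a4.symm
  choose m hm using ex
  refine ⟨m, fun l η => ⟨(hm l η).tc, pot.loc _ _ _ (h1 · l η) (h2 · l η) (hm l η)⟩,
    fun η => ⟨PL.cf K fun l => m l η, fun l => pot.uq _ _ _ (hm l η) ?_⟩,
    fun l η η' => sub_eq_iff_eq_add'.2 (pot.uq _ _ _ (hm l η)
      (pot_add b (h3 l η η') (h4 · l η η') (hm l η'))),
    fun s L hs hL => funext₂ fun l η =>
      pot.uq _ _ _ (pot_act b hs hL (h5 l s L η hs hL) (hm _ _)) (hm l η)⟩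
  exact pot_sum b _ _ (n := fun j => PL.cf K (N η) j) (fun j => pot_sum b _ _ (fun i : ℕ => hm i η)
    fun v => by simp [PL.cf, LinearMap.sum_apply]) fun v => by
      rw [(hp v η).eq l]
      simp [PL.cf, LinearMap.sum_apply]

end

end Vale.Agent.P352X.ZZ.TPD
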