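import Vale.Agent.P352Z.Spec
import Vale.Agent.P352Z.TPD.PL
import Vale.Agent.P352X.TPD.Spec2
import Vale.Agent.P352Y.Ext

/-!
# P352Z, block TPD with logarithms: vocabulary (helper18)
-/

set_option linter.all false

open MeasureTheory Filter Topology
open scoped SchwartzMap ComplexConjugate ENNReal ContDiff

namespace Vale.Agent.P352X.ZZ

open Vale.Agent.P352 Vale.Agent.P352.GF Vale.Agent.P352.BW Vale.Agent.P352.H246
open Vale.Agent.P352.H496 Vale.Agent.P352.H755 Vale.Agent.P352.H15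
open UniformSpace (Completion)
open Complex (I)

noncomputable section

section top

variable {D : Type*} [NormedAddCommGroup D] [InnerProductSpace ℂ D]

/-- logarithmic families of dimension four: conserved in the first index, traceless, with closed
antisymmetric part; the products are polynomials of degree `K` -/
structure LT (Q : Theory D) (K : ℕ) (R : ℝ → Ix → Ix → Fld D) : Prop where
  p2 : ∀ l, P2 Q (R l)
  cov : ∀ l m n s L a f v, 0 < s → IsLor L → IsTest f → R l m n f (Q.U s L a v) =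
    ∑ i, ∑ j, (L i m * L j n : ℂ) •
      Q.U s L a (R (l + Real.log s) i j (fun x => f (sim s L a x)) v)
  conserved : ∀ l n f v, IsTest f → ∑ m, R l m n (pd m f) v = 0
  trace : ∀ l f v, IsTest f → GF.tr (R l) f v = 0
  bian : ∀ l k m n f v, IsTest f →
    cu (R l) k m n f v + cu (R l) m n k f v + cu (R l) n k m f v = 0
  pl : ∀ (I J : I2) (f g : Sch),
    PL K fun l => ((R l I.1 I.2 (ev f) (R l J.1 J.2 (ev g) Q.vac) : D) : Completion D)

/-- time ordered products of a logarithmic family -/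
structure TP2L (Q : Theory D) (K : ℕ) (R : ℝ → Ix → Ix → Fld D)
    (w : ℝ → I2 → I2 → S2 →L[ℂ] Completion D) : Prop where
  fac : ∀ l I J (f g : Sch) (F : S2), (∀ x y, F (x, y) = f x * g y) →
    Late (tsupport f) (tsupport g) →
      w l I J F = ((R l I.1 I.2 (ev f) (R l J.1 J.2 (ev g) Q.vac) : D) : Completion D)
  swap : ∀ l I J (F G : S2), (∀ x y, G (x, y) = F (y, x)) → w l I J F = w l J I G
  trc : ∀ l J, ∑ m, (eta m : ℂ) • w l (m, m) J = 0
  cov : ∀ l s L a I J (F G : S2), 0 < s → IsLor L →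
    (∀ x y, G (x, y) = F (sim s L a x, sim s L a y)) → ∃ κ : ℂ, w l I J F =
      ∑ K, ∑ M, (L2 L K I * L2 L M J) • Ue Q s L a (w (l + Real.log s) K M G) + κ • om Q
  pl : ∀ I J, PL K fun l => w l I J

end top

namespace TPD

export Vale.Agent.P352X.TPD (Tn pb pol pf cs et sq ee trc tl h0 sy d1 b1 d3 b3 i3 Ok r1 cyc sw Lsc
  Lb Lg na nb pS ng pS_apply ng_apply bx OffD EC cut_sim TT WW psi dvg TEN PER EXP SPAN TEN1 TEN2
  TEN3 crl dcr)

/-! ## tensors -/

/-- symbols of first order operators -/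
abbrev Sb (κ : Type) := Ix → Tn κ →ₗ[ℝ] Tn (Fin 4)

/-- the derivative of a tensor field -/
def dX {κ : Type} (m : Ix) (X : V → Tn κ) (u : V) : Tn κ := fun ν => dr m (fun v => X v ν) u

/-- the operator with the symbol `a` -/
def dA {κ : Type} (a : Sb κ) (X : V → Tn κ) (u : V) : Tn (Fin 4) := ∑ m, a m (dX m X u)

/-- the boundary term of the operator with the symbol `a` -/
def bA {κ : Type} (a : Sb κ) (χ : V → ℝ) (X : V → Tn κ) (u : V) : Tn (Fin 4) :=
  ∑ m, dr m χ u • a m (X u)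

/-- equivariant symbols -/
def Eqv {κ : Type} [Fintype κ] [DecidableEq κ] (a : Sb κ) : Prop :=
  ∀ L t X, IsLor L → pb L (a t X) = ∑ r, L r t • a r (pb L X)

/-- the symbol of the conservation law -/
def a1 : Sb (Fin 3) := fun m =>
  { toFun := fun X ν => bas m 1 (ν 0) * X ![ν 1, ν 2, ν 3]
    map_add' := fun _ _ => funext fun _ => mul_add _ _ _
    map_smul' := fun _ _ => funext fun _ => mul_left_comm _ _ _ }

/-- the symbol of the Bianchi identity -/
def aB : Sb (Fin 5) := fun m =>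
  { toFun := fun X ν => eta m * (X ![m, ν 0, ν 1, ν 2, ν 3] - X ![m, ν 1, ν 0, ν 2, ν 3] +
      X ![ν 1, m, ν 0, ν 2, ν 3] - X ![ν 0, m, ν 1, ν 2, ν 3] + X ![ν 0, ν 1, m, ν 2, ν 3] -
      X ![ν 1, ν 0, m, ν 2, ν 3])
    map_add' := fun _ _ => funext fun _ => by simp only [Pi.add_apply]; ring
    map_smul' := fun _ _ => funext fun _ => by
      simp only [Pi.smul_apply, smul_eq_mul, RingHom.id_apply]; ring }

/-- the exchange of the two pairs -/
def swp : Tn (Fin 4) →ₗ[ℝ] Tn (Fin 4) := LinearMap.funLeft ℝ ℝ fun ν => ![ν 2, ν 3, ν 0, ν 1]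

/-- `η ⊗ k` -/
def e1 : Tn (Fin 2) →ₗ[ℝ] Tn (Fin 4) where
  toFun k ν := et ![ν 0, ν 1] * k ![ν 2, ν 3]
  map_add' _ _ := funext fun _ => mul_add _ _ _
  map_smul' _ _ := funext fun _ => mul_left_comm _ _ _

/-- `u^2 k_(m r) η_(n s)` -/
def HH : Tn (Fin 2) →ₗ[ℝ] Tn (Fin 4 ⊕ Fin 2) where
  toFun k μ := et ![μ (.inr 0), μ (.inr 1)] * et ![μ (.inl 1), μ (.inl 3)] *
    k ![μ (.inl 0), μ (.inl 2)]
  map_add' _ _ := funext fun _ => mul_add _ _ _
  map_smul' _ _ := funext fun _ => mul_left_comm _ _ _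

/-- functions that vanish of order `n` on the diagonal -/
def Vj (n : ℕ) (F : S2) : Prop := ∀ k < n, ∀ γ : Fin k → Ix, P352Y.jet γ F = 0

/-! ## vector valued distributions -/

variable {D : Type*} [NormedAddCommGroup D] [InnerProductSpace ℂ D]

/-- families of distributions that depend on a logarithm and a cutoff -/
abbrev Fam (D : Type*) [NormedAddCommGroup D] [InnerProductSpace ℂ D] := ℝ → EC → TT D

/-- the gauge datum of a symbol -/
def gA {κ : Type} (a : Sb κ) (w : ℝ → WW D) (X : V → Tn κ) : Fam D := fun l η =>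
  -psi (w l) (bA a η.1 X)

/-- the symbol annihilates `w` away from the diagonal -/
def Nul {κ : Type} [Fintype κ] [DecidableEq κ] (a : Sb κ) (w : ℝ → WW D) : Prop := ∀ l χ X,
  Tst χ →
  (0 : V) ∉ tsupport χ → ContDiff ℝ ∞ X → psi (w l) (bA a χ X) + psi (w l) (cs χ (dA a X)) = 0

variable (c : Ctx D)

/-- the action of the linear similitudes on distributions -/
def act (s : ℝ) (L : Ix → V) : TT D →ₗ[ℝ] TT D where
  toFun x := Ug c.Q s L 0 ∘L x ∘L pS s L
  map_add' x y := by ext f; simp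
  map_smul' a x := by ext f; simp

lemma act_apply (s : ℝ) (L : Ix → V) (x : TT D) (f : Sch) :
    act c s L x f = Ug c.Q s L 0 (x (pS s L f)) := rfl

/-- the action on families -/
def ga (s : ℝ) (L : Ix → V) : Fam D →ₗ[ℝ] Fam D where
  toFun x l η := act c s L (x (l + Real.log s) (η.pull s L))
  map_add' x y := funext₂ fun _ _ => map_add _ _ _
  map_smul' a x := funext₂ fun _ _ => map_smul (act c s L) a _

lemma ga_apply (s : ℝ) (L : Ix → V) (x : Fam D) (l : ℝ) (η : EC) :
    ga c s L x l η = act c s L (x (l + Real.log s) (η.pull s L)) := rfl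

/-- the PCT operator -/
def Th : Completion D →L⋆[ℂ] Completion D :=
  c.J.toLinearIsometry.toContinuousLinearMap.comp (Ug c.Q 1 r1 0)

lemma Th_apply (z : Completion D) : Th c z = c.J (Ug c.Q 1 r1 0 z) := rfl

/-- the projection orthogonal to the vacuum -/
def Pp : Completion D →L[ℂ] Completion D := 1 - (innerSL ℂ c.Om).smulRight c.Om

/-- translation covariant and orthogonal to the vacuum -/
structure TC (x : TT D) : Prop where
  tra : ∀ a f, Ut c.Q a (x f) = x (ST.tsl a f)
  perp : ∀ f, inner ℂ c.Om (x f) = 0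

/-- wedge local up to the set `K`, with the partner `σ Θ x (f (-z))` -/
def Loc (σ : ℝ) (K : Set V) (x : TT D) : Prop := ∀ a b y (f : Sch), IsNull a → IsNull b →
  0 < mdot a b → HasCompactSupport f → tsupport f ⊆ Wdg a b y →
  (∀ z ∈ tsupport f, ∀ u ∈ K, z + u ∈ Wdg a b y) →
  Pr (c.N (Wdg a b y)) c.Om (x f) (σ • Th c (x (ng f)))

/-- local, of scaling dimension `4 - k` -/
structure Hom (σ : ℝ) (k : ℕ) (y : TT D) : Prop where
  tc : TC c y
  loc : Loc c σ ∅ y
  hom : ∀ s : ℝ, 0 < s → s ^ k • act c s GF.one y = y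

/-- local, of scaling dimension `4 - k` up to logarithms -/
structure LH (σ : ℝ) (k : ℕ) (y : ℝ → TT D) : Prop where
  tc : ∀ l, TC c (y l)
  loc : ∀ l, Loc c σ ∅ (y l)
  hom : ∀ (l s : ℝ), 0 < s → s ^ k • act c s GF.one (y (l + Real.log s)) = y l

/-- a tempered extension of the time ordered product, with no condition on the diagonal -/
structure Pre0 (K : ℕ) (w : ℝ → WW D) : Prop where
  swap : ∀ l I J (F G : S2), (∀ x y, G (x, y) = F (y, x)) → w l I J F = w l J I G
  cov : ∀ l s L a I J (F G : S2), 0 < s → IsLor L → OffD F →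
    (∀ x y, G (x, y) = F (sim s L a x, sim s L a y)) →
    w l I J F = ∑ K, ∑ M, (L2 L K I * L2 L M J) • Ug c.Q s L a (w (l + Real.log s) K M G)
  pl : ∀ I J, PL K fun l => w l I J
  c1 : ∀ l n J G, OffD G → dv1 (w l) n J G = 0
  b1 : ∀ l k m n J G, OffD G → bi1 (w l) k m n J G = 0
  t1 : ∀ l J G, OffD G → ∑ m, (eta m : ℂ) • w l (m, m) J G = 0
  loc : ∀ l a b y I J (G G' : S2), IsNull a → IsNull b → 0 < mdot a b → OffD G →
    HasCompactSupport G → tsupport G ⊆ Wdg a b y ×ˢ Wdg a b y → (∀ x z, G' (x, z) = G (-x, -z)) →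
    Pr (c.N (Wdg a b y)) c.Om (w l I J G) (Th c (w l I J G'))

/-- the same with the causal factorisation -/
structure Pre (K : ℕ) (R : ℝ → Ix → Ix → Fld D) (w : ℝ → WW D) : Prop extends Pre0 c K w where
  fac : ∀ l I J (f g : Sch) (F : S2), (∀ x y, F (x, y) = f x * g y) →
    Late (tsupport f) (tsupport g) →
    w l I J F = ((R l I.1 I.2 (ev f) (R l J.1 J.2 (ev g) c.Q.vac) : D) : Completion D)

/-- the time ordered product away from the diagonal, orthogonal to the vacuum -/
structure Src (K : ℕ) (w : ℝ → WW D) : Prop extends Pre0 c K w where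
  perp : ∀ l I J F, inner ℂ c.Om (w l I J F) = 0

/-- `x l η` is a value for `w l (η (x - y) S (x - y) f y)` -/
structure Dat (K : ℕ) (w : ℝ → WW D) (σ : ℝ) (S : V → Tn (Fin 4)) (x : Fam D) : Prop where
  tc : ∀ l η, TC c (x l η)
  loc : ∀ l (η : EC), Loc c σ (tsupport η.1) (x l η)
  coc : ∀ l (η η' : EC), x l η - x l η' = psi (w l) (cs (η.1 - η'.1) S)
  pl : ∀ η, PL K fun l => x l η

/-- dilation covariant data for polynomials of degree `k` -/
def HD (K : ℕ) (w : ℝ → WW D) {k : ℕ} (h : Tn (Fin 4 ⊕ Fin k)) (x : Fam D) : Prop :=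
  Dat c K w ((-1) ^ k) (pol h) x ∧ ∀ s : ℝ, 0 < s → s ^ k • ga c s GF.one x = x

/-- covariant data for the sources `S h` -/
def Cv (K : ℕ) (w : ℝ → WW D) (k : ℕ) {ι : Type} [Fintype ι] [DecidableEq ι]
    (S : Tn ι → V → Tn (Fin 4)) : Prop := ∃ B : Tn ι →ₗ[ℝ] Fam D,
  (∀ h, Dat c K w ((-1) ^ k) (S h) (B h)) ∧
  ∀ (s : ℝ) L h, 0 < s → IsLor L → s ^ k • ga c s L (B (pb L h)) = B h

/-- covariant data for all polynomials of degree `k` -/
def Ext (K : ℕ) (w : ℝ → WW D) (k : ℕ) : Prop := Cv c K w k (ι := Fin 4 ⊕ Fin k) pol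

/-- extensions of `w` that are covariant and local on the functions of vanishing order `n` -/
structure Fu (n K : ℕ) (w v : ℝ → WW D) : Prop where
  off : ∀ l I J F, OffD F → v l I J F = w l I J F
  perp : ∀ l I J F, inner ℂ c.Om (v l I J F) = 0
  pl : ∀ I J, PL K fun l => v l I J
  cov : ∀ l s L a I J (F G : S2), 0 < s → IsLor L → Vj n F →
    (∀ x y, G (x, y) = F (sim s L a x, sim s L a y)) →
    v l I J F = ∑ K, ∑ M, (L2 L K I * L2 L M J) • Ug c.Q s L a (v (l + Real.log s) K M G)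
  loc : ∀ l a b y I J (G G' : S2), IsNull a → IsNull b → 0 < mdot a b → Vj n G →
    HasCompactSupport G → tsupport G ⊆ Wdg a b y ×ˢ Wdg a b y → (∀ x z, G' (x, z) = G (-x, -z)) →
    Pr (c.N (Wdg a b y)) c.Om (v l I J G) (Th c (v l I J G'))

/-- wedge locality of a two point distribution, including the diagonal -/
def LocW (w : WW D) : Prop := ∀ a b y I J (G G' : S2), IsNull a → IsNull b → 0 < mdot a b →
  HasCompactSupport G → tsupport G ⊆ Wdg a b y ×ˢ Wdg a b y → (∀ x z, G' (x, z) = G (-x, -z)) →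
  Pr (c.N (Wdg a b y)) c.Om (Pp c (w I J G)) (Th c (Pp c (w I J G')))

/-- locality of the pair `wp`, `wm` relative to `T` -/
def Cmp (wp wm : WW D) : Prop := ∀ x y : V, mdot (x - y) (x - y) < 0 → ∃ d > 0,
  ∀ (I J K : I2) (f : Sch) (G G' : S2), tsupport f ⊆ Metric.ball x d →
    tsupport G ⊆ Metric.ball (y, y) d → (∀ z, G' z = star (G z)) →
    inner ℂ ((c.T I.1 I.2 (bar (ev f)) c.Q.vac : D) : Completion D) (wp J K G) =
      inner ℂ (wm J K G') ((c.T I.1 I.2 (ev f) c.Q.vac : D) : Completion D)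

end TPD

end

end Vale.Agent.P352X.ZZ
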