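import Vale.Agent.P352Z.TPD.Ten
import Vale.Agent.P352X.TPD.EQ1

/-!
# P352Z, block TPD: rows EQ1, EQ2 (helper14)
-/

set_option linter.all false

open scoped Matrix

namespace Vale.Agent.P352X.ZZ.TPD

open Vale.Agent.P352 Vale.Agent.P352.GF Vale.Agent.P352.H755
open Vale.Agent.P352X.TPD.Eq2 hiding a0 a1 a2 b1 HH
open Vale.Agent.P352X.TPD.Eq1 Sum

noncomputable section

namespace Eq3

section gen

variable {ι κ : Type} [Fintype ι] [DecidableEq ι] [Fintype κ] [DecidableEq κ]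

lemma rx_adj (e : ι ≃ κ) (x : Tn ι) (y : Tn κ) : rx e x ⬝ᵥ y = x ⬝ᵥ rx e.symm y :=
  Fintype.sum_equiv (Equiv.arrowCongr e.symm (Equiv.refl Ix)) _ _ fun ν =>
    congrArg (x _ * y ·) (funext fun i => by simp)

/-- `η ⊗ y` -/
def te : Tn ι →ₗ[ℝ] Tn (Fin 2 ⊕ ι) where
  toFun y := tp et y
  map_add' _ _ := funext fun _ => mul_add _ _ _
  map_smul' _ _ := funext fun _ => mul_left_comm _ _ _

/-- the contraction -/
def ct : Tn (Fin 2 ⊕ ι) →ₗ[ℝ] Tn ι where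
  toFun h ν := ∑ t, eta t * h (Sum.elim ![t, t] ν)
  map_add' _ _ := funext fun _ => by simp [mul_add, Finset.sum_add_distrib]
  map_smul' _ _ := funext fun _ => by simp [Finset.mul_sum, mul_left_comm]

lemma ct_apply (h : Tn (Fin 2 ⊕ ι)) (ν) : ct h ν = ∑ t, eta t * h (Sum.elim ![t, t] ν) := rfl

lemma ct_adj (x : Tn (Fin 2 ⊕ ι)) (y : Tn ι) : ct x ⬝ᵥ y = x ⬝ᵥ te y := by
  rw [dotProduct, dotProduct, ← (Equiv.sumArrowEquivProdArrow _ _ Ix).symm.sum_comp,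
    Fintype.sum_prod_type, sum2]
  simp only [ct_apply, Finset.sum_mul]
  rw [Finset.sum_comm]
  refine Finset.sum_congr rfl fun t _ => ?_
  have : ∀ b ν, te y ((Equiv.sumArrowEquivProdArrow _ _ Ix).symm (![t, b], ν)) =
      bas t (eta t) b * y ν := fun _ _ => rfl
  rw [Finset.sum_eq_single t (fun b _ hb => by simp [this, bas, hb]) (by simp)]
  exact Finset.sum_congr rfl fun ν _ => by
    rw [this, bas, if_pos rfl, mul_left_comm, mul_assoc]
    rfl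

lemma te_adj (x : Tn ι) (y : Tn (Fin 2 ⊕ ι)) : te x ⬝ᵥ y = x ⬝ᵥ ct y := by
  rw [dotProduct_comm, ← ct_adj, dotProduct_comm]

lemma ev_te : Ev (te (ι := ι)) := fun L h hL => by
  change tp et _ = pb L (tp et h)
  rw [pb_tp, ten_thm.et L hL]

lemma ev_ct : Ev (ct (ι := ι)) := by
  have : ct (ι := ι) = adj te := LinearMap.ext fun y => dotProduct_eq _ _ fun x => by
    rw [ct_adj, dotProduct_comm (adj te y), adj_dot, dotProduct_comm]
  exact this ▸ ev_te.adj ten_thm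

lemma ev_sub {ψ ψ' : Tn ι →ₗ[ℝ] Tn κ} (e : Ev ψ) (e' : Ev ψ') : Ev (ψ - ψ') := fun L h hL => by
  simp only [LinearMap.sub_apply, e L h hL, e' L h hL, map_sub]

lemma ev_id : Ev (LinearMap.id : Tn ι →ₗ[ℝ] Tn ι) := fun _ _ _ => rfl

lemma ev_zero : Ev (0 : Tn ι →ₗ[ℝ] Tn κ) := fun L _ _ => (map_zero (pb L)).symm

/-- equivariant maps with trivial cokernel have an equivariant right inverse -/
theorem solve {ι1 ι2 ι3 ι4 ι5 ι6 : Type} [Fintype ι1] [DecidableEq ι1] [Fintype ι2]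
    [DecidableEq ι2] [Fintype ι3] [DecidableEq ι3] [Fintype ι4] [DecidableEq ι4] [Fintype ι5]
    [DecidableEq ι5] [Fintype ι6] [DecidableEq ι6] {ψ1 : Tn ι1 →ₗ[ℝ] Tn κ} {ψ2 : Tn ι2 →ₗ[ℝ] Tn κ}
    {ψ3 : Tn ι3 →ₗ[ℝ] Tn κ} {ψ4 : Tn ι4 →ₗ[ℝ] Tn κ} {ψ5 : Tn ι5 →ₗ[ℝ] Tn κ}
    {ψ6 : Tn ι6 →ₗ[ℝ] Tn κ} (e1 : Ev ψ1) (e2 : Ev ψ2) (e3 : Ev ψ3) (e4 : Ev ψ4) (e5 : Ev ψ5)
    (e6 : Ev ψ6) (inj : ∀ y, (∀ x, ψ1 x ⬝ᵥ y = 0) → (∀ x, ψ2 x ⬝ᵥ y = 0) → (∀ x, ψ3 x ⬝ᵥ y = 0) →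
      (∀ x, ψ4 x ⬝ᵥ y = 0) → (∀ x, ψ5 x ⬝ᵥ y = 0) → (∀ x, ψ6 x ⬝ᵥ y = 0) → y = 0) :
    ∃ σ1 σ2 σ3 σ4 σ5 σ6, Ev σ1 ∧ Ev σ2 ∧ Ev σ4 ∧ Ev σ6 ∧ ∀ h, h = ψ1 (σ1 h) + ψ2 (σ2 h) +
      ψ3 ((σ3 : Tn κ →ₗ[ℝ] Tn ι3) h) + ψ4 (σ4 h) + ψ5 ((σ5 : Tn κ →ₗ[ℝ] Tn ι5) h) + ψ6 (σ6 h) := by
  have T := ten_thm
  set BB := ψ1 ∘ₗ adj ψ1 + ψ2 ∘ₗ adj ψ2 + ψ3 ∘ₗ adj ψ3 + ψ4 ∘ₗ adj ψ4 + ψ5 ∘ₗ adj ψ5 +
    ψ6 ∘ₗ adj ψ6 with hBB
  have hi : Function.Injective BB := (injective_iff_map_eq_zero _).2 fun y hy => by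
    have h : BB y ⬝ᵥ y = 0 := by rw [hy, zero_dotProduct]
    simp only [hBB, LinearMap.add_apply, LinearMap.comp_apply, add_dotProduct] at h
    have g1 := gram ψ1 y
    have g2 := gram ψ2 y
    have g3 := gram ψ3 y
    have g4 := gram ψ4 y
    have g5 := gram ψ5 y
    have g6 := gram ψ6 y
    exact inj y (gram0 _ (by linarith)) (gram0 _ (by linarith)) (gram0 _ (by linarith))
      (gram0 _ (by linarith)) (gram0 _ (by linarith)) (gram0 _ (by linarith))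
  have eB : Ev BB := (((((e1.comp (e1.adj T)).add (e2.comp (e2.adj T))).add
    (e3.comp (e3.adj T))).add (e4.comp (e4.adj T))).add (e5.comp (e5.adj T))).add
    (e6.comp (e6.adj T))
  let B := LinearEquiv.ofInjectiveEndo BB hi
  have hB : ∀ h, BB (B.symm h) = h := fun h => B.apply_symm_apply h
  have eC : Ev B.symm.toLinearMap := fun L h hL => hi <| by
    change BB (B.symm _) = BB (pb L (B.symm h))
    rw [eB L _ hL, hB, hB]
  exact ⟨_, _, adj ψ3 ∘ₗ B.symm.toLinearMap, _, adj ψ5 ∘ₗ B.symm.toLinearMap, _,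
    (e1.adj T).comp eC, (e2.adj T).comp eC, (e4.adj T).comp eC, (e6.adj T).comp eC,
    fun h => (hB h).symm⟩

lemma dp3 (ξ : Tn (κ ⊕ Fin 3)) (u : V) (m : Ix) (ν : κ → Ix) : dX m (pol ξ) u ν =
    ∑ g, ∑ d, (ξ (Sum.elim ν ![m, g, d]) + ξ (Sum.elim ν ![g, m, d]) +
      ξ (Sum.elim ν ![g, d, m])) * (u g * u d) :=
  dpol (fun μ => ξ (Sum.elim ν (μ ∘ inr))) u m 0 0 0

lemma dp2 (ξ : Tn (κ ⊕ Fin 2)) (u : V) (m : Ix) (ν : κ → Ix) : dX m (pol ξ) u ν =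
    ∑ g, (ξ (Sum.elim ν ![m, g]) + ξ (Sum.elim ν ![g, m])) * u g :=
  dpol2 (fun μ => ξ (Sum.elim ν (μ ∘ inr))) u m 0

/-- permutations of the polynomial indices -/
def pr {k : ℕ} (τ : Equiv.Perm (Fin k)) : Tn (κ ⊕ Fin k) →ₗ[ℝ] Tn (κ ⊕ Fin k) :=
  rx (Equiv.sumCongr (.refl _) τ)

lemma pr3 (τ : Equiv.Perm (Fin 3)) (Z : Tn (κ ⊕ Fin 3)) (ν : κ → Ix) (γ : Fin 3 → Ix) :
    pr τ Z (Sum.elim ν γ) = Z (Sum.elim ν ![γ (τ 0), γ (τ 1), γ (τ 2)]) :=
  congrArg Z (funext fun i => by rcases i with i | i; exacts [rfl, by fin_cases i <;> rfl])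

lemma pr2 (τ : Equiv.Perm (Fin 2)) (Z : Tn (κ ⊕ Fin 2)) (ν : κ → Ix) (γ : Fin 2 → Ix) :
    pr τ Z (Sum.elim ν γ) = Z (Sum.elim ν ![γ (τ 0), γ (τ 1)]) :=
  congrArg Z (funext fun i => by rcases i with i | i; exacts [rfl, by fin_cases i <;> rfl])

lemma pr_adj {k : ℕ} (τ : Equiv.Perm (Fin k)) (x y : Tn (κ ⊕ Fin k)) :
    pr τ x ⬝ᵥ y = x ⬝ᵥ pr τ.symm y := rx_adj _ _ _

/-- permutations of the tensor indices -/
def pl (σ : Equiv.Perm (Fin 5)) : Tn (Fin 5 ⊕ κ) →ₗ[ℝ] Tn (Fin 5 ⊕ κ) :=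
  rx (Equiv.sumCongr σ (.refl _))

lemma pl_adj (σ : Equiv.Perm (Fin 5)) (x y : Tn (Fin 5 ⊕ κ)) :
    pl σ x ⬝ᵥ y = x ⬝ᵥ pl σ.symm y := rx_adj _ _ _

/-- the antisymmetrisation -/
def Al : Tn (Fin 5 ⊕ κ) →ₗ[ℝ] Tn (Fin 5 ⊕ κ) := LinearMap.id - pl (.swap 1 2) +
  pl (.swap 0 1 * .swap 0 2) - pl (.swap 0 1) + pl (.swap 0 1 * .swap 1 2) - pl (.swap 0 2)

lemma ev_Al : Ev (Al (κ := κ)) :=
  have e := fun σ => (ev_rx ten_thm _ : Ev (pl (κ := κ) σ))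
  ev_sub ((ev_sub ((ev_sub ev_id (e _)).add (e _)) (e _)).add (e _)) (e _)

lemma Al_adj (x y : Tn (Fin 5 ⊕ κ)) : Al x ⬝ᵥ y = x ⬝ᵥ Al y := by
  simp only [Al, LinearMap.add_apply, LinearMap.sub_apply, LinearMap.id_apply, add_dotProduct,
    sub_dotProduct, dotProduct_add, dotProduct_sub, pl_adj, Equiv.symm_swap,
    show (Equiv.swap 0 1 * .swap 0 2 : Equiv.Perm (Fin 5)).symm = .swap 0 1 * .swap 1 2 by decide,
    show (Equiv.swap 0 1 * .swap 1 2 : Equiv.Perm (Fin 5)).symm = .swap 0 1 * .swap 0 2 by decide]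
  ring

lemma Al_apply (Z : Tn (Fin 5 ⊕ κ)) (i j k r s : Ix) (γ : κ → Ix) :
    Al Z (Sum.elim ![i, j, k, r, s] γ) = Z (Sum.elim ![i, j, k, r, s] γ) -
      Z (Sum.elim ![i, k, j, r, s] γ) + Z (Sum.elim ![k, i, j, r, s] γ) -
      Z (Sum.elim ![j, i, k, r, s] γ) + Z (Sum.elim ![j, k, i, r, s] γ) -
      Z (Sum.elim ![k, j, i, r, s] γ) := by
  have e : ∀ σ (ν : Fin 5 → Ix), pl σ Z (Sum.elim ν γ) =
      Z (Sum.elim ![ν (σ 0), ν (σ 1), ν (σ 2), ν (σ 3), ν (σ 4)] γ) := fun σ ν =>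
    congrArg Z (funext fun i => by rcases i with i | i; exacts [by fin_cases i <;> rfl, rfl])
  simp only [Al, LinearMap.add_apply, LinearMap.sub_apply, LinearMap.id_apply, Pi.add_apply,
    Pi.sub_apply, e]
  rfl

/-- the indices of the contraction -/
def eC (k : ℕ) : Fin 5 ⊕ Fin (k + 1) ≃ Fin 2 ⊕ (Fin 4 ⊕ Fin k) where
  toFun := Sum.elim (Fin.cases (inl 0) fun i => inr (inl i)) (Fin.cases (inl 1) fun i => inr (inr i))
  invFun := Sum.elim ![inl 0, inr 0] (Sum.elim (fun i => inl i.succ) fun i => inr i.succ)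
  left_inv i := by rcases i with i | i <;> exact Fin.cases rfl (fun _ => rfl) i
  right_inv i := by
    rcases i with i | i | i
    · fin_cases i <;> rfl
    · rfl
    · rfl

lemma eC_apply {k : ℕ} (Z : Tn (Fin 5 ⊕ Fin (k + 1))) (ν : Fin 4 → Ix) (γ : Fin k → Ix) :
    ct (rx (eC k) Z) (Sum.elim ν γ) =
      ∑ t, eta t * Z (Sum.elim (Matrix.vecCons t ν) (Matrix.vecCons t γ)) := by
  rw [ct_apply]
  exact Finset.sum_congr rfl fun t _ => congrArg (eta t * Z ·) (funext fun i => by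
    rcases i with i | i <;> exact Fin.cases rfl (fun _ => rfl) i)

lemma eC_symm {k : ℕ} (y : Tn (Fin 4 ⊕ Fin k)) (i a : Ix) (ν : Fin 4 → Ix) (γ : Fin k → Ix) :
    rx (eC k).symm (te y) (Sum.elim (Matrix.vecCons i ν) (Matrix.vecCons a γ)) =
      et ![i, a] * y (Sum.elim ν γ) :=
  congrArg (_ * y ·) (funext fun i => by rcases i with i | i <;> rfl)

/-- the indices of the trace part -/
def eT (k : ℕ) : Fin 2 ⊕ (Fin 2 ⊕ Fin k) ≃ Fin 4 ⊕ Fin k where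
  toFun := Sum.elim ![inl 0, inl 1] (Sum.elim ![inl 2, inl 3] inr)
  invFun := Sum.elim ![inl 0, inl 1, inr (inl 0), inr (inl 1)] fun i => inr (inr i)
  left_inv i := by
    rcases i with i | i | i
    · fin_cases i <;> rfl
    · fin_cases i <;> rfl
    · rfl
  right_inv i := by
    rcases i with i | i
    · fin_cases i <;> rfl
    · rfl

lemma pol_eT {k : ℕ} (τ : Tn (Fin 2 ⊕ Fin k)) (u : V) :
    pol (rx (eT k) (te τ)) u = e1 (pol τ u) := funext fun ν => by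
  refine Eq.trans (Finset.sum_congr rfl fun γ _ => ?_) (Finset.mul_sum _ _ _).symm
  refine (mul_assoc _ _ _).trans (congrArg (fun μ => _ * (τ μ * _)) (funext fun i => ?_))
  rcases i with i | i
  · fin_cases i <;> rfl
  · rfl

lemma tr_eT {k : ℕ} {y : Tn (Fin 4 ⊕ Fin k)} (h : ∀ x, rx (eT k) (te x) ⬝ᵥ y = 0) (r s : Ix)
    (γ : Fin k → Ix) : ∑ m, eta m * y (Sum.elim ![m, m, r, s] γ) = 0 := by
  have := h (Pi.single (Sum.elim ![r, s] γ) 1)
  rw [rx_adj, te_adj, single_one_dotProduct, ct_apply] at this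
  rw [← this]
  refine Finset.sum_congr rfl fun m _ => congrArg (_ * y ·) (funext fun i => ?_)
  rcases i with i | i
  · fin_cases i <;> rfl
  · rfl

end gen

/-! ## degree one -/

/-- the symmetrisation -/
def S2 {κ : Type} [Fintype κ] [DecidableEq κ] : Tn (κ ⊕ Fin 2) →ₗ[ℝ] Tn (κ ⊕ Fin 2) :=
  LinearMap.id + pr (.swap 0 1)

/-- conservation -/
def C1 : Tn J5 →ₗ[ℝ] Tn I5 := rx y2.symm ∘ₗ S2

/-- indices -/
def eC1 : Fin 5 ⊕ Fin 2 ≃ Fin 2 ⊕ I5 := eC 1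

lemma eC1_apply (Z : Tn (Fin 5 ⊕ Fin 2)) (m n r s g : Ix) : ct (rx eC1 Z) (i5 m n r s g) =
    ∑ t, eta t * Z (Sum.elim ![t, m, n, r, s] ![t, g]) := eC_apply Z _ _

lemma eC1_symm (y : Tn I5) (i j k r s a b : Ix) :
    rx eC1.symm (te y) (Sum.elim ![i, j, k, r, s] ![a, b]) = et ![i, a] * y (i5 j k r s b) :=
  eC_symm y _ _ _ _

/-- Bianchi -/
def B1 : Tn (Fin 5 ⊕ Fin 2) →ₗ[ℝ] Tn I5 := ct ∘ₗ rx eC1 ∘ₗ Al ∘ₗ S2

lemma y2e (a n r s b : Ix) : j5 n r s a b ∘ y2 = i5 a n r s b := by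
  funext i; rcases i with i | i <;> fin_cases i <;> rfl

lemma pol1 (h : Tn I5) (u : V) (m n r s : Ix) :
    pol h u ![m, n, r, s] = ∑ g, h (i5 m n r s g) * u g := by
  simp only [pol, sumS, Fintype.sum_unique, Fin.prod_univ_one]; rfl

lemma S2_apply {κ : Type} [Fintype κ] [DecidableEq κ] (Z : Tn (κ ⊕ Fin 2)) (ν : κ → Ix)
    (a b : Ix) : S2 Z (Sum.elim ν ![a, b]) = Z (Sum.elim ν ![a, b]) + Z (Sum.elim ν ![b, a]) :=
  congrArg (_ + ·) (pr2 _ _ _ _)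

lemma S2_adj {κ : Type} [Fintype κ] [DecidableEq κ] (x y : Tn (κ ⊕ Fin 2)) :
    S2 x ⬝ᵥ y = x ⬝ᵥ S2 y := by
  simp only [S2, LinearMap.add_apply, LinearMap.id_apply, add_dotProduct, dotProduct_add, pr_adj,
    Equiv.symm_swap]

lemma pol_C1 (ξ : Tn J5) (u : V) : pol (C1 ξ) u = dA a1 (pol ξ) u := by
  funext ν; obtain ⟨m, n, r, s, rfl⟩ := ex4 ν
  rw [Tn4.dA_a1, pol1]
  refine Eq.trans (Finset.sum_congr rfl fun g _ => ?_) (dp2 ξ u m ![n, r, s]).symm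
  rw [← S2_apply, C1, LinearMap.comp_apply, rx_apply, ← y2e, Function.comp_assoc,
    Equiv.self_comp_symm, Function.comp_id]

lemma pol_B1 (ξ : Tn (Fin 5 ⊕ Fin 2)) (u : V) : pol (B1 ξ) u = dA aB (pol ξ) u := by
  funext ν; obtain ⟨m, n, r, s, rfl⟩ := ex4 ν
  simp only [pol1, B1, LinearMap.comp_apply, eC1_apply, Al_apply, S2_apply, dA, Finset.sum_apply, aB,
    LinearMap.coe_mk, AddHom.coe_mk, dp2, Finset.sum_mul, ← Finset.sum_sub_distrib,
    ← Finset.sum_add_distrib, Finset.mul_sum]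
  rw [Finset.sum_comm]
  refine Finset.sum_congr rfl fun t _ => Finset.sum_congr rfl fun g _ => ?_
  simp only [Matrix.cons_val_zero, Matrix.cons_val_one, Matrix.cons_val]
  ring

lemma comb1 (A : Ix → Ix → Ix → ℝ) (hC : ∀ a n b, A a n b + A b n a = 0)
    (hT : ∀ g, ∑ m, eta m * A m m g = 0)
    (hB : ∀ i j k a b, et ![i, a] * A j k b - et ![i, a] * A k j b + et ![k, a] * A i j b -
      et ![j, a] * A i k b + et ![j, a] * A k i b - et ![k, a] * A j i b +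
      (et ![i, b] * A j k a - et ![i, b] * A k j a + et ![k, b] * A i j a -
      et ![j, b] * A i k a + et ![j, b] * A k i a - et ![k, b] * A j i a) = 0) (m n g : Ix) :
    A m n g = 0 := by
  have e2 : ∀ m, eta m * eta m = 1 := fun m => by unfold eta; split_ifs <;> norm_num
  have c1 : ∀ e (X : Ix → ℝ), ∑ j, eta j * (et ![j, e] * X j) = X e := fun e X => by
    simp [et, bas, ← mul_assoc, e2]
  have c2 : ∀ e (X : Ix → ℝ), ∑ j, eta j * (et ![e, j] * X j) = X e := fun e X => by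
    simp [et, bas, ← mul_assoc, e2]
  have c3 : ∀ X : ℝ, ∑ j, eta j * (et ![j, j] * X) = 4 * X := fun X => by
    simp [et, bas, ← mul_assoc, e2]
  have z1 : ∀ i k, A i k i = 0 := fun i k => by linarith [hC i k i]
  have z2 : ∀ k c, ∑ i, eta i * (c * A k i i) = 0 := fun k c => by
    rw [← mul_zero (-c), ← hT k, Finset.mul_sum]
    exact Finset.sum_congr rfl fun i _ => by linear_combination c * eta i * hC k i i
  have s : ∀ j k b, A j k b = A k j b := fun j k b => by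
    have := Finset.sum_congr rfl fun i (_ : i ∈ Finset.univ) => congrArg (eta i * ·) (hB i j k i b)
    simp only [mul_add, mul_sub, Finset.sum_add_distrib, Finset.sum_sub_distrib, c1, c2, c3, z1, z2,
      mul_zero, Finset.sum_const_zero] at this
    linarith
  linarith [hC m n g, hC n g m, hC g m n, s m n g, s n g m, s g m n]

theorem eq1 : EQ1 := by
  intro k hk
  have T := ten_thm
  interval_cases k
  · refine ⟨rx z0.symm, 0, 0, fun L h hL => ⟨ev_rx T _ L h hL, ev_zero L h hL⟩, fun h u => ?_⟩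
    have p0 : ∀ {κ : Type} {k : ℕ}, pol (0 : Tn (κ ⊕ Fin k)) = 0 := fun {κ k} => by
      funext u ν; simp [pol]
    have d0 : dA aB (0 : V → Tn (Fin 5)) u = 0 := Finset.sum_eq_zero fun m _ => by
      rw [show dX m (0 : V → Tn (Fin 5)) u = 0 from funext fun ν => by simp [dX, dr], map_zero]
    rw [LinearMap.zero_apply, LinearMap.zero_apply, p0, p0, d0, Pi.zero_apply, map_zero, add_zero,
      add_zero, Tn4.dA_a1]
    funext ν; obtain ⟨m, n, r, s, rfl⟩ := ex4 ν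
    change _ = dr m (fun v => pol (rx z0.symm h) v ![n, r, s]) u
    rw [dpol1, rx_apply]
    simp only [pol, Fintype.sum_unique, Finset.univ_eq_empty, Finset.prod_empty, mul_one]
    congr 1
    rw [Equiv.eq_comp_symm]
    funext i; rcases i with i | i <;> fin_cases i <;> rfl
  · have e2 : ∀ {κ : Type} [Fintype κ] [DecidableEq κ], Ev (S2 (κ := κ)) :=
      ev_id.add (ev_rx T _)
    obtain ⟨σ1, σ2, σ3, σ4, σ5, σ6, a1, a2, -, -, e⟩ := solve (ψ1 := C1) (ψ2 := B1)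
      (ψ3 := rx (eT 1) ∘ₗ te) ((ev_rx T _).comp e2)
      (ev_ct.comp ((ev_rx T _).comp (ev_Al.comp e2))) ((ev_rx T _).comp ev_te) (ev_zero (ι := I5))
      (ev_zero (ι := I5)) (ev_zero (ι := I5)) fun y h1 h2 h3 _ _ _ => funext fun ν => by
        obtain ⟨m, n, r, s, h⟩ := ex4 (ν ∘ inl)
        have hν : ν = i5 m n r s (ν (inr 0)) := by
          funext i; rcases i with i | i
          · exact congrFun h i
          · fin_cases i <;> rfl
        rw [hν]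
        refine comb1 (fun m n g => y (i5 m n r s g)) (fun a n b => ?_) (fun g => tr_eT h3 r s ![g])
          (fun i j k a b => ?_) _ _ _
        · have := h1 (Pi.single (j5 n r s a b) 1)
          rwa [C1, LinearMap.comp_apply, rx_adj, S2_adj, single_one_dotProduct, S2_apply, rx_apply,
            rx_apply, Equiv.symm_symm, y2e, y2e] at this
        · have := h2 (Pi.single (Sum.elim ![i, j, k, r, s] ![a, b]) 1)
          simpa only [B1, LinearMap.comp_apply, ct_adj, rx_adj, Al_adj, S2_adj,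
            single_one_dotProduct, S2_apply, Al_apply, eC1_symm] using this
    refine ⟨σ1, σ2, σ3, fun L h hL => ⟨a1 L h hL, a2 L h hL⟩, fun h u => ?_⟩
    conv_lhs => rw [e h]
    simp only [LinearMap.zero_apply, add_zero, fun a b => (T.add _ 1 0 a b).1, Pi.add_apply, pol_C1,
      pol_B1, LinearMap.comp_apply, pol_eT]

/-! ## degree two -/

/-- the cyclic sum -/
def S3 (τ : Equiv.Perm (Fin 3)) : Tn (Fin 5 ⊕ Fin 3) →ₗ[ℝ] Tn (Fin 5 ⊕ Fin 3) :=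
  LinearMap.id + pr (.swap 0 1) + pr τ

/-- indices -/
def eC2 : Fin 5 ⊕ Fin 3 ≃ Fin 2 ⊕ I6 := eC 2

lemma eC2_apply (Z : Tn (Fin 5 ⊕ Fin 3)) (m n r s g d : Ix) : ct (rx eC2 Z) (i6 m n r s g d) =
    ∑ t, eta t * Z (Sum.elim ![t, m, n, r, s] ![t, g, d]) := eC_apply Z _ _

lemma eC2_symm (y : Tn I6) (i j k r s a b e : Ix) :
    rx eC2.symm (te y) (Sum.elim ![i, j, k, r, s] ![a, b, e]) = et ![i, a] * y (i6 j k r s b e) :=
  eC_symm y _ _ _ _

/-- Bianchi -/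
def B2 : Tn (Fin 5 ⊕ Fin 3) →ₗ[ℝ] Tn I6 := ct ∘ₗ rx eC2 ∘ₗ Al ∘ₗ S3 (.swap 0 1 * .swap 1 2)

lemma S3_apply (Z : Tn (Fin 5 ⊕ Fin 3)) (ν : Fin 5 → Ix) (a b e : Ix) :
    S3 (.swap 0 1 * .swap 1 2) Z (Sum.elim ν ![a, b, e]) = Z (Sum.elim ν ![a, b, e]) +
      Z (Sum.elim ν ![b, a, e]) + Z (Sum.elim ν ![b, e, a]) ∧
    S3 (.swap 1 2 * .swap 0 1) Z (Sum.elim ν ![a, b, e]) = Z (Sum.elim ν ![a, b, e]) +
      Z (Sum.elim ν ![b, a, e]) + Z (Sum.elim ν ![e, a, b]) := by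
  simp only [S3, LinearMap.add_apply, LinearMap.id_apply, Pi.add_apply, pr3]
  exact ⟨rfl, rfl⟩

lemma S3_adj (x y : Tn (Fin 5 ⊕ Fin 3)) :
    S3 (.swap 0 1 * .swap 1 2) x ⬝ᵥ y = x ⬝ᵥ S3 (.swap 1 2 * .swap 0 1) y := by
  simp only [S3, LinearMap.add_apply, LinearMap.id_apply, add_dotProduct, dotProduct_add, pr_adj,
    Equiv.symm_swap]
  rfl

lemma pol_B2 (ξ : Tn (Fin 5 ⊕ Fin 3)) (u : V) : pol (B2 ξ) u = dA aB (pol ξ) u := by
  funext ν; obtain ⟨m, n, r, s, rfl⟩ := ex4 ν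
  simp only [pol2, B2, LinearMap.comp_apply, eC2_apply, Al_apply, (S3_apply _ _ _ _ _).1, dA,
    Finset.sum_apply, aB, LinearMap.coe_mk, AddHom.coe_mk, dp3, Finset.sum_mul,
    ← Finset.sum_sub_distrib, ← Finset.sum_add_distrib, Finset.mul_sum]
  rw [Finset.sum_congr rfl fun _ _ => Finset.sum_comm, Finset.sum_comm]
  refine Finset.sum_congr rfl fun t _ => Finset.sum_congr rfl fun g _ =>
    Finset.sum_congr rfl fun d _ => ?_
  simp only [Matrix.cons_val_zero, Matrix.cons_val_one, Matrix.cons_val]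
  ring

/-- the exchange of the pairs -/
def p4 : I6 ≃ I6 := Equiv.swap (inl 0) (inl 2) * Equiv.swap (inl 1) (inl 3)

lemma p4e (m n r s g d : Ix) : i6 m n r s g d ∘ p4 = i6 r s m n g d := by
  funext i; rcases i with i | i <;> fin_cases i <;> rfl

/-- the indices of the scalar class -/
def eH : Fin 2 ⊕ Fin 2 ⊕ Fin 2 ≃ I6 := Equiv.ofBijective
  (Sum.elim ![inr 0, inr 1] (Sum.elim ![inl 1, inl 3] ![inl 0, inl 2])) (by decide)

lemma HH_eq (k : Tn (Fin 2)) : HH k = rx eH (te (te k)) := funext fun μ =>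
  (mul_assoc _ _ _).trans (congrArg (fun ν => et ![μ (inr 0), μ (inr 1)] *
    (et ![μ (inl 1), μ (inl 3)] * k ν)) (funext fun i => by fin_cases i <;> rfl))

/-- the scalar class -/
def Hs : Tn Empty →ₗ[ℝ] Tn I6 := (LinearMap.proj default).smulRight (HH et)

lemma pb_emp (L : Ix → V) (t : Tn Empty) : pb L t default = t default := by
  simp [P352X.TPD.Tn1.pb_apply]
  exact congrArg t (Subsingleton.elim _ _)

theorem eq2 (hc : COMB) : EQ2 := by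
  have T := ten_thm
  obtain ⟨σ1, σ2, σ3, σ4, σ5, σ6, a1, a2, a4, a6, e⟩ := solve (ψ1 := P352X.TPD.Eq2.D1) (ψ2 := B2)
    (ψ3 := rx (eT 2) ∘ₗ te) (ψ4 := an p4) (ψ5 := an p3) (ψ6 := Hs)
    (((ev_rx T _).add (ev_rx T _)).add (ev_rx T _))
    (ev_ct.comp ((ev_rx T _).comp (ev_Al.comp ((ev_id.add (ev_rx T _)).add (ev_rx T _)))))
    ((ev_rx T _).comp ev_te) (ev_an T _) (ev_an T _) (fun L t hL => by
      change pb L t default • HH et = pb L (t default • HH et)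
      rw [pb_emp, map_smul, HH_eq, ← ev_rx T _ L _ hL, ← ev_te L _ hL, ← ev_te L _ hL, T.et L hL])
    fun y h1 h2 h3 h4 h5 h6 => funext fun ν => by
      obtain ⟨m, n, r, s, h⟩ := ex4 (ν ∘ inl)
      have hν : ν = i6 m n r s (ν (inr 0)) (ν (inr 1)) := by
        funext i; rcases i with i | i
        · exact congrFun h i
        · fin_cases i <;> rfl
      rw [hν]
      refine hc (fun m n r s g d => y (i6 m n r s g d)) (fun m n r s g d => ?_)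
        (fun m n r s g d => ?_) (fun r s g d => tr_eT h3 r s ![g, d]) (fun n r s a b e => ?_)
        (fun i j k r s a b e => ?_) ?_ _ _ _ _ _ _
      · rw [← an_dot p3 h5, p3e]
      · rw [← an_dot p4 h4, p4e]
      · have := h1 (Pi.single (j6 n r s a b e) 1)
        simp only [P352X.TPD.Eq2.D1, LinearMap.add_apply, add_dotProduct] at this
        rwa [← rx_dot P352X.TPD.Eq2.a0 y (i6 a _ _ _ _ _),
          ← rx_dot P352X.TPD.Eq2.a1 y (i6 b n r s a e),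
          ← rx_dot P352X.TPD.Eq2.a2 y (i6 e n r s a b), a0e, a1e, a2e]
      · have := h2 (Pi.single (Sum.elim ![i, j, k, r, s] ![a, b, e]) 1)
        simp only [B2, LinearMap.comp_apply, ct_adj, rx_adj, Al_adj, S3_adj,
          single_one_dotProduct, (S3_apply _ _ _ _ _).2, Al_apply, eC2_symm] at this
        linear_combination this
      · refine Eq.trans (Eq.symm ?_) (h6 1)
        change ((1 : ℝ) • HH et) ⬝ᵥ y = _
        have : ∀ m n r s g d, HH et (i6 m n r s g d) =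
          bas g (eta g) d * bas n (eta n) s * bas m (eta m) r := fun _ _ _ _ _ _ => rfl
        rw [one_smul, dotProduct, sumI]
        simp only [this, bas, ite_mul, mul_ite, zero_mul, mul_zero, Finset.sum_ite_eq',
          Finset.mem_univ, if_true, Finset.sum_ite_irrel, Finset.sum_const_zero]
        exact Finset.sum_congr rfl fun _ _ => Finset.sum_congr rfl fun _ _ =>
          Finset.sum_congr rfl fun _ _ => by ring
  refine ⟨σ1, σ2, σ3, σ4, LinearMap.proj default ∘ₗ σ6, fun L h hL => ⟨a1 L h hL, a2 L h hL,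
    a4 L h hL, (congrFun (a6 L h hL) _).trans (pb_emp _ _)⟩, fun h u => ?_⟩
  funext ν; obtain ⟨m, n, r, s, rfl⟩ := ex4 ν
  conv_lhs => rw [e h]
  simp only [fun a b => (T.add _ 2 0 a b).1, Pi.add_apply, pol_D1, pol_B2, LinearMap.comp_apply,
    pol_eT, pol_p3, Tn4.dA_a1, add_zero]
  simp only [pol_an, p4e, ← pol2]
  congr 1
  exact congrFun (congrFun (T.add _ 2 _ _ 0).2 u) _

end Eq3

theorem eq1_row : EQ1 := Eq3.eq1

theorem eq2_row : COMB → EQ2 := Eq3.eq2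

end

end Vale.Agent.P352X.ZZ.TPD
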