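import Vale.Agent.P352Z.TPD.EQ2

/-!
# P352Z, block TPD, row EQ1: constant and linear sources are pure gauge
-/

set_option linter.all false

open scoped Matrix

namespace Vale.Agent.P352X.ZZ.TPD

open Vale.Agent.P352 Vale.Agent.P352.GF Vale.Agent.P352.H755

noncomputable section

namespace Gau

open Sum
open Vale.Agent.P352X.TPD.Eq2 (adj adj_dot Ev gram gram0 rx rx_apply ev_rx rx_dot sumS sum2 ex4
  sum4 eta_ne)
open Vale.Agent.P352X.TPD.Eq1 (hd I5 J5 i5 j5 z0)

lemma ex3 : ∀ j k : Ix, j ≠ k → ∃ i l, j ≠ i ∧ j ≠ l ∧ k ≠ i ∧ k ≠ l ∧ i ≠ l := by decide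

/-- the cokernel in degree one -/
lemma comb1 (A : Ix → Ix → Ix → ℝ) (C : ∀ n a b, A a n b + A b n a = 0)
    (T : ∀ g, ∑ m, eta m * A m m g = 0)
    (B : ∀ i j k a b, et ![i, a] * (A j k b - A k j b) + et ![i, b] * (A j k a - A k j a) +
      (et ![j, a] * (A k i b - A i k b) + et ![j, b] * (A k i a - A i k a)) +
      (et ![k, a] * (A i j b - A j i b) + et ![k, b] * (A i j a - A j i a)) = 0) (m n g : Ix) :
    A m n g = 0 := by
  have Z : ∀ a n, A a n a = 0 := fun a n => by linarith [C n a a]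
  have F : ∀ i j k, i ≠ j → i ≠ k → A j k i = A k j i := fun i j k h1 h2 => by
    have := B i j k i i
    simp only [et2, if_true, if_neg h1, if_neg h2] at this
    have h : eta i * (A j k i - A k j i) = 0 := by linarith
    linarith [(mul_eq_zero.1 h).resolve_left (eta_ne i)]
  have sq : ∀ i, eta i * eta i = 1 := fun i => by unfold eta; split_ifs <;> norm_num
  have G : ∀ i j k, i ≠ j → k ≠ i → k ≠ j → eta i * A i i k = eta j * A j j k :=
    fun i j k h1 h2 h3 => by
      have := B i j k i j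
      simp only [et2, if_true, if_neg h1, if_neg h1.symm, if_neg h2.symm, if_neg h3.symm, Z] at this
      linear_combination -eta i * eta j * this + eta i * eta j * eta j * C i k i -
        eta i * eta i * eta j * C j k j - eta i * A i i k * sq j + eta j * A j j k * sq i
  have U : ∀ j k, A j j k = 0 := fun j k => by
    by_cases h : j = k
    · rw [h, Z]
    obtain ⟨i, l, h1, h2, h3, h4, h5⟩ := ex3 j k h
    have := T k
    rw [sum4 h h1 h2 h3 h4 h5, Z, G i j k h1.symm h3 (Ne.symm h),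
      G l j k h2.symm h4 (Ne.symm h)] at this
    have h' : eta j * A j j k = 0 := by linarith
    exact (mul_eq_zero.1 h').resolve_left (eta_ne j)
  by_cases h1 : m = n
  · rw [h1, U]
  by_cases h2 : m = g
  · rw [h2, Z]
  by_cases h3 : n = g
  · have := C g m g
    rw [U] at this
    rw [h3]; linarith
  linarith [F g m n (Ne.symm h2) (Ne.symm h3), F m g n h2 h1, F n m g (Ne.symm h1) h3, C n m g,
    C m n g, C g m n]

lemma dpol1 {κ : Type} (ξ : Tn (κ ⊕ Fin 1)) (u : V) (m : Ix) (ν : κ → Ix) :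
    dX m (pol ξ) u ν = ξ (Sum.elim ν ![m]) := by
  have : (fun t => pol ξ (u + bas m t) ν) = fun t => ∑ a,
      ξ (Sum.elim ν ![a]) * (u + bas m t) a := by
    funext t; simp only [pol, sumS, Fintype.sum_unique, Fin.prod_univ_one]; rfl
  rw [dX, dr, this, (HasDerivAt.fun_sum fun a _ => (hd u m a).const_mul _).deriv]
  simp

lemma dpol2 {κ : Type} (ξ : Tn (κ ⊕ Fin 2)) (u : V) (m : Ix) (ν : κ → Ix) :
    dX m (pol ξ) u ν = ∑ g, (ξ (Sum.elim ν ![m, g]) + ξ (Sum.elim ν ![g, m])) * u g := by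
  have h0 : ∀ k, (u + bas m 0) k = u k := fun k => by simp [bas]
  have : (fun t => pol ξ (u + bas m t) ν) = fun t => ∑ a, ∑ b,
      ξ (Sum.elim ν ![a, b]) * ((u + bas m t) a * (u + bas m t) b) := by
    funext t; simp only [pol, sum2, Fin.prod_univ_two]; rfl
  rw [dX, dr, this, (HasDerivAt.fun_sum fun a _ => HasDerivAt.fun_sum fun b _ =>
    ((hd u m a).fun_mul (hd u m b)).const_mul _).deriv]
  simp only [h0, mul_add, add_mul, Finset.sum_add_distrib, ite_mul, mul_ite, zero_mul, mul_zero,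
    one_mul, mul_one, Finset.sum_ite_eq', Finset.mem_univ, if_true]
  congr 1
  rw [Finset.sum_eq_single m (fun a _ h => by simp [h]) (by simp)]; simp

lemma pol1 (h : Tn I5) (u : V) (m n r s : Ix) :
    pol h u ![m, n, r, s] = ∑ g, h (i5 m n r s g) * u g := by
  simp only [pol, sumS, Fintype.sum_unique, Fin.prod_univ_one]; rfl

def x0 : J5 ≃ I5 := Equiv.ofBijective (Sum.elim ![inl 1, inl 2, inl 3] ![inl 0, inr 0]) (by decide)
def x1 : J5 ≃ I5 := Equiv.ofBijective (Sum.elim ![inl 1, inl 2, inl 3] ![inr 0, inl 0]) (by decide)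

abbrev K7 := Fin 5 ⊕ Fin 2

def eq7 (v : Fin 2 → Fin 2 ⊕ I5) (h : Function.Bijective
    (Sum.elim ![inl 0, inr (inl 0), inr (inl 1), inr (inl 2), inr (inl 3)] v)) : K7 ≃ Fin 2 ⊕ I5 :=
  Equiv.ofBijective _ h

def w0 := eq7 ![inl 1, inr (inr 0)] (by decide)
def w1 := eq7 ![inr (inr 0), inl 1] (by decide)

section
variable (t t' m n r s g : Ix)
lemma x0e : i5 m n r s g ∘ x0 = j5 n r s m g := by
  funext i; rcases i with i | i <;> fin_cases i <;> rfl
lemma x1e : i5 m n r s g ∘ x1 = j5 n r s g m := by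
  funext i; rcases i with i | i <;> fin_cases i <;> rfl
lemma w0e : Sum.elim ![t, t'] (i5 m n r s g) ∘ w0 = Sum.elim ![t, m, n, r, s] ![t', g] := by
  funext i; rcases i with i | i <;> fin_cases i <;> rfl
lemma w1e : Sum.elim ![t, t'] (i5 m n r s g) ∘ w1 = Sum.elim ![t, m, n, r, s] ![g, t'] := by
  funext i; rcases i with i | i <;> fin_cases i <;> rfl
end

/-- the coefficients of the conservation operator -/
def F1 : Tn J5 →ₗ[ℝ] Tn I5 := rx x0 + rx x1

/-- the coefficients of the Bianchi operator -/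
def FB : Tn K7 →ₗ[ℝ] Tn I5 := (ct ∘ₗ (rx w0 + rx w1)) ∘ₗ (A2 ∘ₗ A1)

lemma ev_F1 : Ev F1 := (ev_rx ten _).add (ev_rx ten _)

lemma ev_FB : Ev FB := (ev_ct.comp ((ev_rx ten _).add (ev_rx ten _))).comp ev_alt

lemma pol_F1 (ξ : Tn J5) (u : V) : pol (F1 ξ) u = dA a1 (pol ξ) u := by
  funext ν; obtain ⟨m, n, r, s, rfl⟩ := ex4 ν
  rw [pol1, dA_a1]
  simp only [F1, LinearMap.add_apply, Pi.add_apply, rx_apply, x0e, x1e]
  exact (dpol2 ξ u m ![n, r, s]).symm

lemma pol_FB (ξ : Tn K7) (u : V) : pol (FB ξ) u = dA aB (pol ξ) u := by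
  funext ν; obtain ⟨m, n, r, s, rfl⟩ := ex4 ν
  rw [pol1, dA_aB]
  simp only [FB, LinearMap.comp_apply, ct_apply, LinearMap.add_apply, Pi.add_apply, rx_apply, w0e,
    w1e, A2_apply, A1_apply, dpol2, Finset.sum_mul, Finset.mul_sum, ← Finset.sum_add_distrib,
    ← Finset.sum_sub_distrib]
  conv_rhs => rw [Finset.sum_comm]
  exact Finset.sum_congr rfl fun g _ => Finset.sum_congr rfl fun t _ => by ring

def B1 : Tn I5 →ₗ[ℝ] Tn I5 := gr F1 + gr FB + gr E1

lemma B1_pos (y : Tn I5) (h : B1 y ⬝ᵥ y = 0) : y = 0 := by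
  simp only [B1, gr, LinearMap.add_apply, LinearMap.comp_apply, add_dotProduct] at h
  have g1 := gram F1 y
  have g2 := gram FB y
  have g3 := gram E1 y
  have h1 := gram0 F1 (y := y) (by linarith)
  have h2 := gram0 FB (y := y) (by linarith)
  have h3 := gram0 E1 (y := y) (by linarith)
  funext ν
  obtain ⟨m, n, r, s, h⟩ := ex4 (ν ∘ inl)
  have hν : ν = i5 m n r s (ν (inr 0)) := by
    funext i; rcases i with i | i
    · exact congrFun h i
    · fin_cases i; rfl
  rw [hν]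
  refine comb1 (fun m n g => y (i5 m n r s g)) (fun n a b => ?_) (fun g => E1_dot h3 r s _)
    (fun i j k a b => ?_) _ _ _
  · have := h1 (Pi.single (j5 n r s a b) 1)
    simp only [F1, LinearMap.add_apply, add_dotProduct] at this
    rwa [← rx_dot x0 y (i5 a _ _ _ _), ← rx_dot x1 y (i5 b n r s a), x0e, x1e]
  · have := congrFun (((tr_tE.symm.comp ((tr_rx w0).add (tr_rx w1))).comp tr_alt).zero h2)
      (Sum.elim ![i, j, k, r, s] ![a, b])
    simp only [LinearMap.comp_apply, A1_apply, A2_apply, LinearMap.add_apply, Pi.add_apply,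
      rx_apply, cs w0 (w0e _ _ _ _ _ _ _), cs w1 (w1e _ _ _ _ _ _ _), tE_apply,
      Pi.zero_apply] at this
    linear_combination this

theorem eq1 : EQ1 := by
  intro k hk
  interval_cases k
  · refine ⟨rx z0.symm, 0, 0, fun L h hL => ⟨ev_rx ten _ L h hL, by simp⟩, fun h u => ?_⟩
    funext ν; obtain ⟨m, n, r, s, rfl⟩ := ex4 ν
    have h1 : dA a1 (pol (rx z0.symm h)) u ![m, n, r, s] =
        rx z0.symm h (Sum.elim ![n, r, s] ![m]) := by
      rw [dA_a1]
      exact dpol1 (rx z0.symm h) u m ![n, r, s]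
    have h2 : e1 (pol (0 : Tn (Fin 2 ⊕ Fin 0)) u) ![m, n, r, s] = 0 := by
      change _ * pol _ u _ = 0
      simp [pol]
    simp only [Pi.add_apply, LinearMap.zero_apply, h1, h2, dA_aB, dpol1, Pi.zero_apply, rx_apply]
    simp only [pol, Fintype.sum_unique, Finset.univ_eq_empty, Finset.prod_empty, mul_one, sub_self,
      add_zero, mul_zero, Finset.sum_const_zero]
    congr 1
    rw [Equiv.eq_comp_symm]
    funext i; rcases i with i | i <;> fin_cases i <;> rfl
  · obtain ⟨C, eC, hC⟩ := solve (B := B1)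
      (((ev_gr ev_F1).add (ev_gr ev_FB)).add (ev_gr ev_E1)) B1_pos
    refine ⟨adj F1 ∘ₗ C, adj FB ∘ₗ C, adj E1 ∘ₗ C, fun L h hL =>
      ⟨(ev_F1.adj ten).comp eC L h hL, (ev_FB.adj ten).comp eC L h hL⟩, fun h u => ?_⟩
    conv_lhs => rw [← hC h]
    simp only [B1, gr, LinearMap.add_apply, LinearMap.comp_apply, pol_add, pol_F1, pol_FB, pol_E1]

end Gau

/-- row EQ1 -/
theorem eq1_row : EQ1 := Gau.eq1

end

end Vale.Agent.P352X.ZZ.TPD
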