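import Vale.Agent.P352Z.TPD.Spec
import Vale.Agent.P352X.TPD.EQ1
import Vale.Agent.P352X.TPD.Ten1
import Vale.Agent.P352X.TPD.Ten2
import Vale.Agent.P352X.TPD.Ten3

/-!
# P352Z, block TPD, row EQ2: quadratic sources are pure gauge up to two classes
-/

set_option linter.all false

open scoped Matrix

namespace Vale.Agent.P352X.ZZ.TPD

open Vale.Agent.P352 Vale.Agent.P352.GF Vale.Agent.P352.H755

noncomputable section

namespace Gau

open Sum
open Vale.Agent.P352X.TPD.Eq2 (adj adj_dot Ev gram gram0 rx rx_apply ev_rx rx_dot an ev_an an_dot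
  tp pb_tp pol_D1 pol2 sumS sum2 sum3 sumI I6 J6 i6 j6 p3 p3e pol_an pol_p3 ex4 a0 a2 a0e a1e
  a2e)

theorem ten : TEN :=
  P352X.TPD.TEN.of P352X.TPD.ten1_row P352X.TPD.ten2_row P352X.TPD.ten3_row

section
variable {ι κ τ : Type} [Fintype ι] [DecidableEq ι] [Fintype κ] [DecidableEq κ] [Fintype τ]
  [DecidableEq τ]

/-! ## transposed maps -/

/-- `φ` is the transpose of `ψ` -/
def Tr (ψ : Tn ι →ₗ[ℝ] Tn κ) (φ : Tn κ →ₗ[ℝ] Tn ι) : Prop := ∀ x y, ψ x ⬝ᵥ y = x ⬝ᵥ φ y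

lemma Tr.symm {ψ : Tn ι →ₗ[ℝ] Tn κ} {φ} (h : Tr ψ φ) : Tr φ ψ := fun x y => by
  rw [dotProduct_comm, ← h, dotProduct_comm]

lemma Tr.add {ψ ψ' : Tn ι →ₗ[ℝ] Tn κ} {φ φ'} (h : Tr ψ φ) (h' : Tr ψ' φ') :
    Tr (ψ + ψ') (φ + φ') := fun x y => by
  rw [LinearMap.add_apply, LinearMap.add_apply, add_dotProduct, dotProduct_add, h, h']

lemma Tr.sub {ψ ψ' : Tn ι →ₗ[ℝ] Tn κ} {φ φ'} (h : Tr ψ φ) (h' : Tr ψ' φ') :
    Tr (ψ - ψ') (φ - φ') := fun x y => by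
  rw [LinearMap.sub_apply, LinearMap.sub_apply, sub_dotProduct, dotProduct_sub, h, h']

lemma Tr.comp {ψ : Tn ι →ₗ[ℝ] Tn κ} {ψ' : Tn τ →ₗ[ℝ] Tn ι} {φ φ'} (h : Tr ψ φ) (h' : Tr ψ' φ') :
    Tr (ψ ∘ₗ ψ') (φ' ∘ₗ φ) := fun x y => by
  rw [LinearMap.comp_apply, LinearMap.comp_apply, h, h']

lemma tr_id : Tr (LinearMap.id : Tn ι →ₗ[ℝ] Tn ι) LinearMap.id := fun _ _ => rfl

lemma tr_rx (e : ι ≃ κ) : Tr (rx e) (rx e.symm) := fun x y => by
  refine Fintype.sum_equiv (e.symm.arrowCongr (Equiv.refl Ix)) _ _ fun ν => ?_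
  have : (ν ∘ e) ∘ e.symm = ν := by funext i; simp
  change x (ν ∘ e) * y ν = x (ν ∘ e) * y ((ν ∘ e) ∘ e.symm)
  rw [this]

lemma Tr.zero {ψ : Tn ι →ₗ[ℝ] Tn κ} {φ} (h : Tr ψ φ) {y} (h0 : ∀ x, ψ x ⬝ᵥ y = 0) : φ y = 0 :=
  dotProduct_self_eq_zero.1 (by rw [← h, h0])

lemma Tr.ev {ψ : Tn ι →ₗ[ℝ] Tn κ} {φ} (h : Tr ψ φ) (e : Ev ψ) : Ev φ := by
  have : φ = adj ψ := LinearMap.ext fun y => dotProduct_eq _ _ fun x => by
    rw [dotProduct_comm, ← h, dotProduct_comm (adj ψ y), adj_dot]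
  rw [this]
  exact e.adj ten

lemma cs (e : ι ≃ κ) {μ : κ → Ix} {ν : ι → Ix} (h : μ ∘ e = ν) : ν ∘ e.symm = μ := by
  subst h; funext i; simp

lemma ev_id : Ev (LinearMap.id : Tn ι →ₗ[ℝ] Tn ι) := fun _ _ _ => rfl

lemma ev_sub {ψ ψ' : Tn ι →ₗ[ℝ] Tn κ} (e : Ev ψ) (e' : Ev ψ') : Ev (ψ - ψ') := fun L h hL => by
  simp only [LinearMap.sub_apply, e L h hL, e' L h hL, map_sub]

/-- the Gram operator -/
def gr (ψ : Tn ι →ₗ[ℝ] Tn κ) : Tn κ →ₗ[ℝ] Tn κ := ψ ∘ₗ adj ψ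

lemma ev_gr {ψ : Tn ι →ₗ[ℝ] Tn κ} (e : Ev ψ) : Ev (gr ψ) := e.comp (e.adj ten)

lemma solve {B : Tn ι →ₗ[ℝ] Tn ι} (e : Ev B) (hB : ∀ y, B y ⬝ᵥ y = 0 → y = 0) :
    ∃ C : Tn ι →ₗ[ℝ] Tn ι, Ev C ∧ ∀ h, B (C h) = h := by
  have inj : Function.Injective B :=
    (injective_iff_map_eq_zero _).2 fun y hy => hB y (by rw [hy, zero_dotProduct])
  let E := LinearEquiv.ofInjectiveEndo B inj
  have hE : ∀ h, B (E.symm h) = h := fun h => E.apply_symm_apply h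
  refine ⟨E.symm.toLinearMap, fun L h hL => inj ?_, hE⟩
  change B (E.symm _) = B (pb L (E.symm h))
  rw [e L _ hL, hE, hE]

/-! ## the metric -/

/-- the product with the metric -/
def tE : Tn κ →ₗ[ℝ] Tn (Fin 2 ⊕ κ) where
  toFun k := tp et k
  map_add' k k' := funext fun ν => mul_add _ _ _
  map_smul' a k := funext fun ν => mul_left_comm _ _ _

/-- the contraction -/
def ct : Tn (Fin 2 ⊕ κ) →ₗ[ℝ] Tn κ where
  toFun h ν := ∑ t, eta t * h (Sum.elim ![t, t] ν)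
  map_add' h h' := funext fun ν => by simp [mul_add, Finset.sum_add_distrib]
  map_smul' a h := funext fun ν => by simp [Finset.mul_sum, mul_left_comm]

lemma tE_apply (k : Tn κ) (a : Fin 2 → Ix) (ν) : tE k (Sum.elim a ν) = et a * k ν := rfl

lemma ct_apply (h : Tn (Fin 2 ⊕ κ)) (ν) : ct h ν = ∑ t, eta t * h (Sum.elim ![t, t] ν) := rfl

lemma et2 (i a : Ix) : et ![i, a] = if a = i then eta i else 0 := rfl

lemma ev_tE : Ev (tE : Tn κ →ₗ[ℝ] _) := fun L k hL => by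
  change tp et (pb L k) = pb L (tp et k)
  rw [pb_tp, ten.et L hL]

lemma tr_tE : Tr (tE : Tn κ →ₗ[ℝ] _) ct := fun x y => by
  rw [dotProduct, dotProduct, ← (Equiv.sumArrowEquivProdArrow _ κ Ix).symm.sum_comp,
    Fintype.sum_prod_type, Finset.sum_comm]
  refine Finset.sum_congr rfl fun ν _ => ?_
  change ∑ a : Fin 2 → Ix, et a * x ν * y (Sum.elim a ν) = _
  rw [sum2, ct_apply, Finset.mul_sum]
  refine Finset.sum_congr rfl fun t _ => ?_
  rw [Finset.sum_eq_single t (fun b _ h => by simp [et2, h]) (by simp), et2, if_pos rfl]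
  ring

lemma ev_ct : Ev (ct : Tn (Fin 2 ⊕ κ) →ₗ[ℝ] _) := tr_tE.ev ev_tE

/-! ## the trace part -/

def c4 : Fin 2 ⊕ Fin 2 ⊕ τ ≃ Fin 4 ⊕ τ :=
  (Equiv.sumAssoc _ _ _).symm.trans (finSumFinEquiv.sumCongr (Equiv.refl τ))

lemma c4e (m n r s : Ix) (γ : τ → Ix) :
    Sum.elim ![m, n, r, s] γ ∘ c4 = Sum.elim ![m, n] (Sum.elim ![r, s] γ) := by
  funext i; rcases i with i | i | i
  · fin_cases i <;> rfl
  · fin_cases i <;> rfl
  · rfl

def E1 : Tn (Fin 2 ⊕ τ) →ₗ[ℝ] Tn (Fin 4 ⊕ τ) := rx c4 ∘ₗ tE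

lemma ev_E1 : Ev (E1 : Tn (Fin 2 ⊕ τ) →ₗ[ℝ] _) := (ev_rx ten _).comp ev_tE

lemma pol_E1 {k : ℕ} (x : Tn (Fin 2 ⊕ Fin k)) (u : V) : pol (E1 x) u = e1 (pol x u) := by
  funext ν; obtain ⟨m, n, r, s, rfl⟩ := ex4 ν
  change ∑ γ, _ = et ![m, n] * ∑ γ, x (Sum.elim ![r, s] γ) * ∏ i, u (γ i)
  rw [Finset.mul_sum]
  refine Finset.sum_congr rfl fun γ _ => ?_
  rw [E1, LinearMap.comp_apply, rx_apply, c4e, tE_apply, mul_assoc]

lemma E1_dot {y : Tn (Fin 4 ⊕ τ)} (h : ∀ x, E1 x ⬝ᵥ y = 0) (r s : Ix) (γ : τ → Ix) :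
    ∑ m, eta m * y (Sum.elim ![m, m, r, s] γ) = 0 := by
  have := congrFun (((tr_rx c4).comp tr_tE).zero h) (Sum.elim ![r, s] γ)
  simpa only [LinearMap.comp_apply, ct_apply, rx_apply, cs c4 (c4e _ _ _ _ _),
    Pi.zero_apply] using this

/-! ## antisymmetrisation in three indices -/

def pm (i j : Fin 5) : Fin 5 ⊕ τ ≃ Fin 5 ⊕ τ := (Equiv.swap i j).sumCongr (Equiv.refl τ)

section
variable (i j k r s : Ix) (γ : τ → Ix)
lemma pm01 : Sum.elim ![i, j, k, r, s] γ ∘ pm 0 1 = Sum.elim ![j, i, k, r, s] γ := by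
  funext x; rcases x with x | x
  · fin_cases x <;> rfl
  · rfl
lemma pm02 : Sum.elim ![i, j, k, r, s] γ ∘ pm 0 2 = Sum.elim ![k, j, i, r, s] γ := by
  funext x; rcases x with x | x
  · fin_cases x <;> rfl
  · rfl
lemma pm12 : Sum.elim ![i, j, k, r, s] γ ∘ pm 1 2 = Sum.elim ![i, k, j, r, s] γ := by
  funext x; rcases x with x | x
  · fin_cases x <;> rfl
  · rfl
end

def A1 : Tn (Fin 5 ⊕ τ) →ₗ[ℝ] Tn (Fin 5 ⊕ τ) := LinearMap.id - rx (pm 1 2)
def A2 : Tn (Fin 5 ⊕ τ) →ₗ[ℝ] Tn (Fin 5 ⊕ τ) := LinearMap.id - rx (pm 0 1) - rx (pm 0 2)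

lemma tr_pm (i j : Fin 5) : Tr (rx (pm i j : Fin 5 ⊕ τ ≃ _)) (rx (pm i j)) := tr_rx _

lemma tr_alt : Tr (A2 ∘ₗ A1 : Tn (Fin 5 ⊕ τ) →ₗ[ℝ] _) (A1 ∘ₗ A2) :=
  ((tr_id.sub (tr_pm 0 1)).sub (tr_pm 0 2)).comp (tr_id.sub (tr_pm 1 2))

lemma ev_alt : Ev (A2 ∘ₗ A1 : Tn (Fin 5 ⊕ τ) →ₗ[ℝ] _) :=
  (ev_sub (ev_sub ev_id (ev_rx ten _)) (ev_rx ten _)).comp (ev_sub ev_id (ev_rx ten _))

lemma A1_apply (h : Tn (Fin 5 ⊕ τ)) (i j k r s : Ix) (γ : τ → Ix) :
    A1 h (Sum.elim ![i, j, k, r, s] γ) =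
      h (Sum.elim ![i, j, k, r, s] γ) - h (Sum.elim ![i, k, j, r, s] γ) := by
  simp only [A1, LinearMap.sub_apply, LinearMap.id_apply, Pi.sub_apply, rx_apply, pm12]

lemma A2_apply (h : Tn (Fin 5 ⊕ τ)) (i j k r s : Ix) (γ : τ → Ix) :
    A2 h (Sum.elim ![i, j, k, r, s] γ) = h (Sum.elim ![i, j, k, r, s] γ) -
      h (Sum.elim ![j, i, k, r, s] γ) - h (Sum.elim ![k, j, i, r, s] γ) := by
  simp only [A2, LinearMap.sub_apply, LinearMap.id_apply, Pi.sub_apply, rx_apply, pm01, pm02]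

end

lemma dA_a1 (X : V → Tn (Fin 3)) (u : V) : dA a1 X u = d1 X u := by
  funext ν
  rw [dA, Finset.sum_apply]
  change ∑ m, bas m 1 (ν 0) * dX m X u ![ν 1, ν 2, ν 3] = _
  rw [Finset.sum_eq_single (ν 0) (fun m _ h => by simp [bas, h.symm]) (by simp)]
  simp only [bas, if_true, one_mul]
  rfl

lemma dA_aB (X : V → Tn (Fin 5)) (u : V) (m n r s : Ix) : dA aB X u ![m, n, r, s] =
    ∑ t, eta t * (dX t X u ![t, m, n, r, s] - dX t X u ![t, n, m, r, s] +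
      dX t X u ![n, t, m, r, s] - dX t X u ![m, t, n, r, s] + dX t X u ![m, n, t, r, s] -
      dX t X u ![n, m, t, r, s]) := by
  rw [dA, Finset.sum_apply]
  rfl

/-! ## degree two -/

lemma dpol3 {κ : Type} (ξ : Tn (κ ⊕ Fin 3)) (u : V) (m : Ix) (ν : κ → Ix) :
    dX m (pol ξ) u ν = ∑ g, ∑ d, (ξ (Sum.elim ν ![m, g, d]) + ξ (Sum.elim ν ![g, m, d]) +
      ξ (Sum.elim ν ![g, d, m])) * (u g * u d) := by
  have hd := P352X.TPD.Eq1.hd u m
  have h0 : ∀ k, (u + bas m 0) k = u k := fun k => by simp [bas]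
  have : (fun t => pol ξ (u + bas m t) ν) = fun t => ∑ a, ∑ b, ∑ c,
      ξ (Sum.elim ν ![a, b, c]) * ((u + bas m t) a * (u + bas m t) b * (u + bas m t) c) := by
    funext t; simp only [pol, sum3, Fin.prod_univ_three]; rfl
  rw [dX, dr, this, (HasDerivAt.fun_sum fun a _ => HasDerivAt.fun_sum fun b _ =>
    HasDerivAt.fun_sum fun c _ => (((hd a).fun_mul (hd b)).fun_mul (hd c)).const_mul _).deriv]
  simp only [h0, mul_add, add_mul, Finset.sum_add_distrib, ite_mul, mul_ite, zero_mul, mul_zero,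
    one_mul, mul_one, Finset.sum_ite_eq', Finset.mem_univ, if_true]
  congr 2
  · rw [Finset.sum_eq_single m (fun a _ h => by simp [h]) (by simp)]; simp
  · refine Finset.sum_congr rfl fun a _ => ?_
    rw [Finset.sum_eq_single m (fun a _ h => by simp [h]) (by simp)]; simp

abbrev K8 := Fin 5 ⊕ Fin 3

def eq8 (v : Fin 3 → Fin 2 ⊕ I6) (h : Function.Bijective
    (Sum.elim ![inl 0, inr (inl 0), inr (inl 1), inr (inl 2), inr (inl 3)] v)) : K8 ≃ Fin 2 ⊕ I6 :=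
  Equiv.ofBijective _ h

def f0 := eq8 ![inl 1, inr (inr 0), inr (inr 1)] (by decide)
def f1 := eq8 ![inr (inr 0), inl 1, inr (inr 1)] (by decide)
def f2 := eq8 ![inr (inr 0), inr (inr 1), inl 1] (by decide)

section
variable (t t' m n r s g d : Ix)
lemma f0e : Sum.elim ![t, t'] (i6 m n r s g d) ∘ f0 = Sum.elim ![t, m, n, r, s] ![t', g, d] := by
  funext i; rcases i with i | i <;> fin_cases i <;> rfl
lemma f1e : Sum.elim ![t, t'] (i6 m n r s g d) ∘ f1 = Sum.elim ![t, m, n, r, s] ![g, t', d] := by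
  funext i; rcases i with i | i <;> fin_cases i <;> rfl
lemma f2e : Sum.elim ![t, t'] (i6 m n r s g d) ∘ f2 = Sum.elim ![t, m, n, r, s] ![g, d, t'] := by
  funext i; rcases i with i | i <;> fin_cases i <;> rfl
end

/-- the coefficients of the Bianchi operator -/
def DB : Tn K8 →ₗ[ℝ] Tn I6 := (ct ∘ₗ (rx f0 + rx f1 + rx f2)) ∘ₗ (A2 ∘ₗ A1)

lemma ev_DB : Ev DB :=
  (ev_ct.comp (((ev_rx ten _).add (ev_rx ten _)).add (ev_rx ten _))).comp ev_alt

lemma pol_DB (ξ : Tn K8) (u : V) : pol (DB ξ) u = dA aB (pol ξ) u := by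
  funext ν; obtain ⟨m, n, r, s, rfl⟩ := ex4 ν
  rw [pol2, dA_aB]
  simp only [DB, LinearMap.comp_apply, ct_apply, LinearMap.add_apply, Pi.add_apply, rx_apply, f0e,
    f1e, f2e, A2_apply, A1_apply, dpol3, Finset.sum_mul, Finset.mul_sum, ← Finset.sum_add_distrib,
    ← Finset.sum_sub_distrib]
  conv_rhs => rw [Finset.sum_comm]
  refine Finset.sum_congr rfl fun g _ => ?_
  conv_rhs => rw [Finset.sum_comm]
  exact Finset.sum_congr rfl fun d _ => Finset.sum_congr rfl fun t _ => by ring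

lemma DB_dot {y : Tn I6} (h : ∀ x, DB x ⬝ᵥ y = 0) (i j k r s a b e : Ix) :
    et ![i, a] * (y (i6 j k r s b e) - y (i6 k j r s b e)) +
      et ![i, b] * (y (i6 j k r s a e) - y (i6 k j r s a e)) +
      et ![i, e] * (y (i6 j k r s a b) - y (i6 k j r s a b)) +
    (et ![j, a] * (y (i6 k i r s b e) - y (i6 i k r s b e)) +
      et ![j, b] * (y (i6 k i r s a e) - y (i6 i k r s a e)) +
      et ![j, e] * (y (i6 k i r s a b) - y (i6 i k r s a b))) +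
    (et ![k, a] * (y (i6 i j r s b e) - y (i6 j i r s b e)) +
      et ![k, b] * (y (i6 i j r s a e) - y (i6 j i r s a e)) +
      et ![k, e] * (y (i6 i j r s a b) - y (i6 j i r s a b))) = 0 := by
  have := congrFun (((tr_tE.symm.comp (((tr_rx f0).add (tr_rx f1)).add (tr_rx f2))).comp
    tr_alt).zero h) (Sum.elim ![i, j, k, r, s] ![a, b, e])
  simp only [LinearMap.comp_apply, A1_apply, A2_apply, LinearMap.add_apply, Pi.add_apply, rx_apply,
    cs f0 (f0e _ _ _ _ _ _ _ _), cs f1 (f1e _ _ _ _ _ _ _ _), cs f2 (f2e _ _ _ _ _ _ _ _),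
    tE_apply, Pi.zero_apply] at this
  linear_combination this

/-- the exchange of the pairs -/
def q2 : I6 ≃ I6 := Equiv.ofBijective (Sum.elim ![inl 2, inl 3, inl 0, inl 1] ![inr 0, inr 1])
  (by decide)

lemma q2e (m n r s g d : Ix) : i6 m n r s g d ∘ q2 = i6 r s m n g d := by
  funext i; rcases i with i | i <;> fin_cases i <;> rfl

lemma pol_q2 (z : Tn I6) (u : V) : pol (an q2 z) u = pol z u - swp (pol z u) := by
  funext ν; obtain ⟨m, n, r, s, rfl⟩ := ex4 ν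
  rw [pol_an]
  simp only [q2e, ← pol2]
  rfl

def c6 : Fin 2 ⊕ Fin 2 ⊕ Fin 2 ≃ I6 := Equiv.ofBijective
  (Sum.elim ![inr 0, inr 1] (Sum.elim ![inl 1, inl 3] ![inl 0, inl 2])) (by decide)

lemma HH_apply (m n r s g d : Ix) :
    HH et (i6 m n r s g d) = et ![g, d] * et ![n, s] * et ![m, r] := rfl

lemma pb_HH (L : Ix → V) (hL : IsLor L) : pb L (HH et) = HH et := by
  have : HH et = (rx c6 ∘ₗ tE ∘ₗ tE) et := funext fun ν => mul_assoc _ _ _
  rw [this, ← ((ev_rx ten c6).comp (ev_tE.comp ev_tE)) L _ hL, ten.et L hL]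

/-- the scalar class -/
def l0 : Tn I6 →ₗ[ℝ] ℝ where
  toFun y := HH et ⬝ᵥ y
  map_add' := dotProduct_add _
  map_smul' a y := dotProduct_smul a _ y

lemma l0_pb (L : Ix → V) (y : Tn I6) (hL : IsLor L) : l0 (pb L y) = l0 y := by
  have h := ten.adj I6 L y (HH et)
  rw [pb_HH _ (ten.tra L hL)] at h
  exact (dotProduct_comm _ _).trans (h.trans (dotProduct_comm _ _))

lemma l0_eq (y : Tn I6) :
    l0 y = ∑ m, ∑ n, ∑ g, eta m * eta n * eta g * y (i6 m n m n g g) := by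
  change ∑ ν, HH et ν * y ν = _
  rw [sumI]
  refine Finset.sum_congr rfl fun m _ => Finset.sum_congr rfl fun n _ => ?_
  rw [Finset.sum_eq_single m (fun a _ h => by simp [HH_apply, et2, h]) (by simp),
    Finset.sum_eq_single n (fun a _ h => by simp [HH_apply, et2, h]) (by simp)]
  refine Finset.sum_congr rfl fun g _ => ?_
  rw [Finset.sum_eq_single g (fun a _ h => by simp [HH_apply, et2, h]) (by simp)]
  simp only [HH_apply, et2, if_true]
  ring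

/-- the coefficients of the conservation operator -/
abbrev G1 : Tn J6 →ₗ[ℝ] Tn I6 := P352X.TPD.Eq2.D1

def BB : Tn I6 →ₗ[ℝ] Tn I6 :=
  gr G1 + gr DB + gr E1 + gr (an q2) + gr (an p3) + l0.smulRight (HH et)

lemma ev_D1 : Ev G1 := ((ev_rx ten _).add (ev_rx ten _)).add (ev_rx ten _)

lemma ev_BB : Ev BB :=
  (((((ev_gr ev_D1).add (ev_gr ev_DB)).add (ev_gr ev_E1)).add (ev_gr (ev_an ten _))).add
    (ev_gr (ev_an ten _))).add fun L h hL => by
      simp only [LinearMap.smulRight_apply, l0_pb L h hL, map_smul, pb_HH L hL]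

lemma BB_pos (hc : COMB) (y : Tn I6) (h : BB y ⬝ᵥ y = 0) : y = 0 := by
  simp only [BB, gr, LinearMap.add_apply, LinearMap.comp_apply, add_dotProduct,
    LinearMap.smulRight_apply, smul_dotProduct, smul_eq_mul] at h
  change _ + l0 y * l0 y = 0 at h
  have g1 := gram G1 y
  have g2 := gram DB y
  have g3 := gram E1 y
  have g4 := gram (an q2) y
  have g5 := gram (an p3) y
  have g6 := mul_self_nonneg (l0 y)
  have h1 := gram0 G1 (y := y) (by linarith)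
  have h2 := gram0 DB (y := y) (by linarith)
  have h3 := gram0 E1 (y := y) (by linarith)
  have h4 := gram0 (an q2) (y := y) (by linarith)
  have h5 := gram0 (an p3) (y := y) (by linarith)
  have h6 : l0 y = 0 := mul_self_eq_zero.1 (by linarith)
  funext ν
  obtain ⟨m, n, r, s, h⟩ := ex4 (ν ∘ inl)
  have hν : ν = i6 m n r s (ν (inr 0)) (ν (inr 1)) := by
    funext i; rcases i with i | i
    · exact congrFun h i
    · fin_cases i <;> rfl
  rw [hν]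
  refine hc (fun m n r s g d => y (i6 m n r s g d)) (fun m n r s g d => ?_)
    (fun m n r s g d => ?_) (fun r s g d => E1_dot h3 r s _) (fun n r s a b c => ?_)
    (DB_dot h2) (by rw [← l0_eq, h6]) _ _ _ _ _ _
  · rw [← an_dot p3 h5, p3e]
  · rw [← an_dot q2 h4, q2e]
  · have := h1 (Pi.single (j6 n r s a b c) 1)
    simp only [G1, P352X.TPD.Eq2.D1, LinearMap.add_apply, add_dotProduct] at this
    rwa [← rx_dot a0 y (i6 a _ _ _ _ _), ← rx_dot P352X.TPD.Eq2.a1 y (i6 b n r s a c),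
      ← rx_dot a2 y (i6 c n r s a b), a0e, a1e, a2e]

lemma pol_add {k : ℕ} (a b : Tn (Fin 4 ⊕ Fin k)) (u : V) : pol (a + b) u = pol a u + pol b u :=
  congrFun (ten.add (Fin 4) k 0 a b).1 u

lemma pol_smul {k : ℕ} (a : ℝ) (b : Tn (Fin 4 ⊕ Fin k)) (u : V) : pol (a • b) u = a • pol b u :=
  congrFun (ten.add (Fin 4) k a b b).2 u

lemma pol_BB (z : Tn I6) (u : V) : pol (BB z) u = dA a1 (pol (adj G1 z)) u +
    dA aB (pol (adj DB z)) u + e1 (pol (adj E1 z) u) +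
    (pol (adj (an q2) z) u - swp (pol (adj (an q2) z) u)) + l0 z • pol (HH et) u := by
  have h3 : ∀ z, pol (an p3 z) u = 0 := fun z => by
    funext ν; obtain ⟨m, n, r, s, rfl⟩ := ex4 ν
    exact pol_p3 z u m n r s
  have h : BB z = G1 (adj G1 z) + DB (adj DB z) + E1 (adj E1 z) + an q2 (adj (an q2) z) +
    an p3 (adj (an p3) z) + l0 z • HH et := rfl
  rw [h, pol_add, pol_add, pol_add, pol_add, pol_add, pol_smul, h3, add_zero, pol_q2, pol_E1,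
    pol_DB, pol_D1, dA_a1]

theorem eq2 (hc : COMB) : EQ2 := by
  obtain ⟨C, eC, hC⟩ := solve ev_BB (BB_pos hc)
  refine ⟨adj G1 ∘ₗ C, adj DB ∘ₗ C, adj E1 ∘ₗ C, adj (an q2) ∘ₗ C, l0 ∘ₗ C, fun L h hL =>
    ⟨(ev_D1.adj ten).comp eC L h hL, (ev_DB.adj ten).comp eC L h hL,
      ((ev_an ten _).adj ten).comp eC L h hL,
      (congrArg l0 (eC L h hL)).trans (l0_pb L _ hL)⟩, fun h u => ?_⟩
  conv_lhs => rw [← hC h]
  exact pol_BB _ u

end Gau

/-- row EQ2 -/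
theorem eq2_row : COMB → EQ2 := Gau.eq2

end

end Vale.Agent.P352X.ZZ.TPD
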