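import Vale.Agent.P352Z.TPD.Spec
import Vale.Agent.P352X.TPD.FIN

/-!
# P352Z, block TPD: row FIN, symmetric traceless products (helper14)
-/

set_option linter.all false

open MeasureTheory Filter Topology Set
open scoped SchwartzMap ComplexConjugate ContDiff

namespace Vale.Agent.P352X.ZZ.TPD

open Vale.Agent.P352 Vale.Agent.P352.GF Vale.Agent.P352.BW Api4
open Vale.Agent.P352Y (tsupport_comp sw_sw)
open UniformSpace (Completion)

noncomputable section

namespace Fn1

/-- the metric -/
def ei (I : I2) : ℝ := bas I.1 (eta I.1) I.2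

lemma key {E : Type*} [AddCommGroup E] [Module ℂ E] {L : Ix → V} (hL : IsLor L) (Y : I2 → E)
    (I : I2) : ∑ K, L2 L K I • Y K - (ei I / 4) • ∑ m, eta m • ∑ K, L2 L K (m, m) • Y K =
      ∑ K, L2 L K I • (Y K - (ei K / 4) • ∑ n, eta n • Y (n, n)) := by
  have e1 : ∀ K, ∑ m, (eta m : ℂ) * L2 L K (m, m) = ei K := fun K => by
    rw [ei, ← hL.1, GF.mdot]
    simp [L2, mul_assoc]
  have e2 : ∑ K, L2 L K I * (ei K / 4 : ℝ) = (ei I / 4 : ℝ) := by
    rw [ei, ← lor_transpose hL]
    simp [L2, Fintype.sum_prod_type, ei, bas, apply_ite Complex.ofReal, Finset.sum_div, ite_div]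
    exact Finset.sum_congr rfl fun _ _ => by ring
  have e3 : ∑ m, eta m • ∑ K, L2 L K (m, m) • Y K = ∑ n, eta n • Y (n, n) := by
    simp only [← Complex.coe_smul, Finset.smul_sum, smul_smul]
    rw [Finset.sum_comm]
    simp only [← Finset.sum_smul, e1]
    simp [Fintype.sum_prod_type, ei, bas, apply_ite Complex.ofReal]
  simp only [e3, smul_sub, Finset.sum_sub_distrib, ← Complex.coe_smul (_ / 4), smul_smul,
    ← Finset.sum_smul, e2]

variable {D : Type*} [NormedAddCommGroup D] [InnerProductSpace ℂ D] {c : Ctx D}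
  {w z z' : ℝ → WW D} {K : ℕ}

/-- covariant local extensions of `w` -/
structure Gz (c : Ctx D) (K : ℕ) (w z : ℝ → WW D) : Prop where
  off : ∀ l I J F, OffD F → z l I J F = w l I J F
  cov : ∀ l s L a I J (F G : S2), 0 < s → IsLor L →
    (∀ x y, G (x, y) = F (sim s L a x, sim s L a y)) → ∃ κ : ℂ, z l I J F =
      ∑ K, ∑ M, (L2 L K I * L2 L M J) • Ue c.Q s L a (z (l + Real.log s) K M G) + κ • om c.Q
  pl : ∀ I J, PL K fun l => z l I J
  loc : ∀ l, LocW c (z l)

theorem Gz.av (h : Gz c K w z) (h' : Gz c K w z') :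
    Gz c K w fun l I J => (2⁻¹ : ℝ) • (z l I J + z' l I J) where
  off l I J F hF := by
    simp only [ContinuousLinearMap.smul_apply, ContinuousLinearMap.add_apply, h.off l I J F hF,
      h'.off l I J F hF]
    module
  cov l s L a I J F G hs hL e := by
    obtain ⟨κ, e1⟩ := h.cov l s L a I J F G hs hL e
    obtain ⟨κ', e2⟩ := h'.cov l s L a I J F G hs hL e
    refine ⟨(2⁻¹ : ℝ) • (κ + κ'), ?_⟩
    simp only [ContinuousLinearMap.smul_apply, ContinuousLinearMap.add_apply, map_add,
      ← Ug_apply _ hs hL, e1, e2, smul_add, Finset.smul_sum, add_smul, smul_assoc,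
      ContinuousLinearMap.map_smul_of_tower, Finset.sum_add_distrib, smul_comm (2⁻¹ : ℝ)]
    abel
  pl I J := ((h.pl I J).add (h'.pl I J)).smul _
  loc l a b y I J G G' ha hb hab hG hW e := by
    have := ((h.loc l a b y I J G G' ha hb hab hG hW e).add
      (h'.loc l a b y I J G G' ha hb hab hG hW e)).csmul 2⁻¹
    simpa only [ContinuousLinearMap.smul_apply, ContinuousLinearMap.add_apply, map_add,
      ← Complex.coe_smul, map_smulₛₗ, Complex.conj_ofReal, RingHom.id_apply] using this

theorem Gz.swap (h : Gz c K w z) (hw : ∀ l I J F, w l J I (Str.sw F) = w l I J F) :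
    Gz c K w fun l I J => z l J I ∘L Str.sw where
  off l I J F hF := (h.off l _ _ _ (P352Y.OffD.sw hF)).trans (hw l I J F)
  cov l s L a I J F G hs hL e :=
    (h.cov l s L a J I (Str.sw F) (Str.sw G) hs hL fun x y => e y x).imp fun κ k =>
      k.trans (congrArg (· + _) (Finset.sum_comm.trans (by simp only [mul_comm]; rfl)))
  pl I J := PL.clm fun F => (h.pl J I).app _
  loc l a b y I J G G' ha hb hab hG hW e := h.loc l a b y J I (Str.sw G) (Str.sw G') ha hb hab
    (hG.comp_homeomorph (Homeomorph.prodComm V V))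
    (fun z hz => (hW (P352Y.tsupport_sw G hz)).symm) fun x z => e z x

/-- the traceless part in the first slot -/
def p1 (z : ℝ → WW D) : ℝ → WW D := fun l I J =>
  z l I J - (ei I / 4) • ∑ m, eta m • z l (m, m) J

lemma p1_apply (z : ℝ → WW D) (l : ℝ) (I J : I2) (F : S2) :
    p1 z l I J F = z l I J F - (ei I / 4) • ∑ m, eta m • z l (m, m) J F := by
  simp only [p1, ContinuousLinearMap.sub_apply, ContinuousLinearMap.smul_apply,
    ContinuousLinearMap.sum_apply]

theorem Gz.p1 (h : Gz c K w z)
    (hw : ∀ l J G, OffD G → ∑ m, (eta m : ℂ) • w l (m, m) J G = 0) : Gz c K w (p1 z) where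
  off l I J F hF := by
    simp only [p1_apply, h.off l _ J F hF, ← Complex.coe_smul (eta _), hw l J F hF, smul_zero,
      sub_zero]
  cov l s L a I J F G hs hL e := by
    choose κ e1 using fun I => h.cov l s L a I J F G hs hL e
    refine ⟨κ I - (ei I / 4) • ∑ m, eta m • κ (m, m), ?_⟩
    have := key hL (fun K => ∑ M, L2 L M J • Ug c.Q s L a (z (l + Real.log s) K M G)) I
    simp only [p1_apply, e1, ← Ug_apply _ hs hL, mul_smul, ← Finset.smul_sum, smul_add,
      Finset.sum_add_distrib, sub_smul, smul_assoc, Finset.sum_smul, map_sub, smul_sub,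
      Finset.sum_sub_distrib, ContinuousLinearMap.map_smul_of_tower, map_sum] at this ⊢
    rw [← sub_eq_zero] at this ⊢
    rw [← this]
    simp only [Finset.smul_sum, smul_comm (L2 L _ J)]
    rw [Finset.sum_congr rfl fun K _ => Finset.sum_comm (f := fun M n => L2 L K I • (ei K / 4) •
      eta n • L2 L M J • Ug c.Q s L a (z (l + Real.log s) (n, n) M G))]
    abel
  pl I J := (h.pl I J).sub ((PL.sum _ fun m _ => (h.pl _ J).smul _).smul _)
  loc l a b y I J G G' ha hb hab hG hW e := by
    have k := fun I => h.loc l a b y I J G G' ha hb hab hG hW e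
    have := (k I).sub ((Pr.sum Finset.univ fun m _ => (k (m, m)).csmul (eta m)).csmul (ei I / 4))
    simpa only [p1_apply, map_sub, map_sum, ← Complex.coe_smul, map_smulₛₗ, Complex.conj_ofReal,
      RingHom.id_apply] using this

end Fn1

open Fn1

theorem fin_row {D : Type*} [NormedAddCommGroup D] [InnerProductSpace ℂ D] (c : Ctx D) :
    B0 c → FIN c := fun b K R w v hw hv => by
  have s1 : ∀ l I J F, w l J I (Str.sw F) = w l I J F := fun l I J F =>
    (hw.swap l I J F _ fun _ _ => rfl).symm
  have p : ∀ z, (1 - Pp c) z = inner ℂ c.Om z • c.Om := fun z => by simp [Pp]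
  have p0 : Pp c c.Om = 0 := by
    simp [Pp, inner_self_eq_norm_sq_to_K, show ‖c.Om‖ = 1 from c.E.norm_xi]
  have h0 : Gz c K w fun l I J => v l I J + (1 - Pp c) ∘L w l I J := by
    refine ⟨fun l I J F hF => by simp [hv.off l I J F hF], fun l s L a I J F G hs hL e => ?_,
      fun I J => (hv.pl I J).add (PL.clm fun F => ((hw.pl I J).app F).map
        ((1 - Pp c).restrictScalars ℝ).toLinearMap), fun l a b' y I J G G' ha hb hab hG hW e => ?_⟩
    · refine ⟨inner ℂ c.Om (w l I J F) -
        ∑ K, ∑ M, L2 L K I * L2 L M J * inner ℂ c.Om (w (l + Real.log s) K M G), ?_⟩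
      simp only [ContinuousLinearMap.add_apply, ContinuousLinearMap.comp_apply, p,
        ← Ug_apply c.Q hs hL, map_add, map_smul, b.grp.vac, smul_add, Finset.sum_add_distrib,
        smul_smul, sub_smul, Finset.sum_smul,
        hv.cov l s L a I J F G hs hL (fun _ h => absurd h (Nat.not_lt_zero _)) e]
      abel
    · simpa only [ContinuousLinearMap.add_apply, ContinuousLinearMap.comp_apply, p, map_add,
        map_smul, p0, smul_zero, add_zero, (b.ba.pp _).2.2.2.1 (hv.perp _ _ _ _)] using
        hv.loc l a b' y I J G G' ha hb hab (fun _ h => absurd h (Nat.not_lt_zero _)) hG hW e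
  obtain ⟨u, hu, u1⟩ : ∃ u, Gz c K w u ∧ ∀ l I J F, u l J I (Str.sw F) = u l I J F :=
    ⟨_, h0.av (h0.swap s1), fun l I J F => by
      simp only [ContinuousLinearMap.smul_apply, ContinuousLinearMap.add_apply,
        ContinuousLinearMap.comp_apply, sw_sw]
      module⟩
  have h := ((hu.p1 hw.t1).swap s1).p1 hw.t1
  refine ⟨_, ⟨fun l I J f g F e hL => ?_, fun l I J F G e => ?_, fun l J => ?_, h.cov, h.pl⟩, h.loc⟩
  · exact (h.off l I J F fun x hx => hL x
      (tsupport_comp continuous_fst (fun z k => by rw [e z.1 z.2, k, zero_mul]) hx) x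
      (tsupport_comp continuous_snd (fun z k => by rw [e z.1 z.2, k, mul_zero]) hx)
      (by simp [GF.mdot])).trans (hw.fac l I J f g F e hL)
  · obtain rfl : G = Str.sw F := SchwartzMap.ext fun z => e z.1 z.2
    simp only [p1_apply, ContinuousLinearMap.comp_apply, sw_sw, u1, smul_sub,
      Finset.sum_sub_distrib, Finset.smul_sum, smul_smul]
    rw [Finset.sum_comm (f := fun x y => _ • u l (y, y) (x, x) F)]
    simp only [mul_comm, mul_left_comm, mul_assoc]
    abel
  · ext F
    simp only [ContinuousLinearMap.sum_apply, ContinuousLinearMap.smul_apply]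
    simp only [Complex.coe_smul, p1_apply _ l _ J, smul_sub, Finset.sum_sub_distrib, smul_smul,
      ← Finset.sum_smul]
    rw [show ∑ m, eta m * (ei (m, m) / 4) = 1 by
      simp [ei, bas, Fin.sum_univ_four, eta, o]; norm_num, one_smul, sub_self]
    rfl

end

end Vale.Agent.P352X.ZZ.TPD
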