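import Vale.Agent.P352Z.TPD.Spec
import Vale.Agent.P352X.TPD.FIN

/-!
# P352Z, block TPD: rows FU and FIN, the extension to the diagonal (helper14)
-/

set_option linter.all false

open MeasureTheory Filter Topology Set
open scoped SchwartzMap ComplexConjugate ContDiff

namespace Vale.Agent.P352X.ZZ.TPD

open Vale.Agent.P352 Vale.Agent.P352.GF Vale.Agent.P352.BW Api4
open Vale.Agent.P352.H755 (Tst)
open Vale.Agent.P352.H496 (IsNull Wdg)
open Vale.Agent.P352Y (mon dc_mon f2 jet ext5 expand2 expand' tsupport_comp sw_sw)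
open Vale.Agent.P352X.TPD.Fi
open UniformSpace (Completion)

noncomputable section

namespace Fu1

variable {D : Type*} [NormedAddCommGroup D] [InnerProductSpace ℂ D] {c : Ctx D}
  {w v : ℝ → WW D} {k m n K : ℕ} {B : ∀ k, Tn (Fin 4 ⊕ Fin k) →ₗ[ℝ] Fam D}

theorem sym_ext (t : TEN) (h : Ext c K w k) :
    ∃ B : Tn (Fin 4 ⊕ Fin k) →ₗ[ℝ] Fam D, (∀ h, Dat c K w ((-1) ^ k) (pol h) (B h)) ∧
      (∀ (s : ℝ) L h, 0 < s → IsLor L → s ^ k • ga c s L (B (pb L h)) = B h) ∧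
      ∀ I J γ (σ : Equiv.Perm (Fin k)), B (un I J (γ ∘ σ)) = B (un I J γ) := by
  obtain ⟨B, h1, h2⟩ := h
  exact ⟨B ∘ₗ Sy k, fun h => pol_Sy h ▸ h1 (Sy k h), fun s L h hs hL => by
    simpa only [LinearMap.comp_apply, Sy_pb t] using h2 s L (Sy k h) hs hL,
    fun I J γ σ => congrArg B (Sy_un I J γ σ)⟩

/-- an extension with the contact terms `B` -/
structure Cd (n : ℕ) (w v : ℝ → WW D) (m : ℕ) (B : ∀ k, Tn (Fin 4 ⊕ Fin k) →ₗ[ℝ] Fam D) :
    Prop where
  rel : ∀ l I J, Rel m (v l I J) (w l I J)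
  val : ∀ k ≤ m, n ≤ k → ∀ l I J (γ : Fin k → Ix) (η : EC) f,
    v l I J (ten2 (cmo γ η.1) f) = B k (un I J γ) l η f
  low : ∃ η : EC, ∀ k ≤ m, ∀ l I J (γ : Fin k → Ix) f,
    v l I J (ten2 (cmo γ η.1) f) = B k (un I J γ) l η f

theorem ex_cd (t : TEN) (pl : ∀ I J, PL K fun l => w l I J)
    (h1 : ∀ k, n ≤ k → ∀ h, Dat c K w ((-1) ^ k) (pol h) (B k h))
    (h3 : ∀ k I J γ (σ : Equiv.Perm (Fin k)), B k (un I J (γ ∘ σ)) = B k (un I J γ)) :
    ∃ v m, Cd n w v m B := by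
  obtain ⟨C, m, hC, hb⟩ := ST.clm_sn_c (ContinuousLinearMap.pi fun p : I2 × I2 × Fin (K + 1) =>
    PL.cf K (fun l => w l p.1 p.2.1) p.2.2)
  obtain ⟨η0, -⟩ := t.small 1 one_pos
  choose v e1 e2 e3 using fun l I J => ext5 (w l I J) (m + 1) (dc_cx η0.2.1.1)
    (η0.2.1.2.mono fun u hu => by simp [cx, hu]) (fun k γ => B k (un I J γ) l η0)
    fun k γ σ => by rw [h3]
  refine ⟨v, m, fun l I J => ⟨e1 l I J, fun F ⟨γ, H, e⟩ => e3 l I J γ H F e,
    ∑ j ∈ Finset.range (K + 1), |l| ^ j * C, by positivity, fun F => ?_⟩,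
    fun k hk hn l I J γ η f => ?_, η0, fun k hk l I J => e2 l I J k (Nat.lt_succ_of_le hk)⟩
  · rw [(pl I J).eq l, ContinuousLinearMap.sum_apply, Finset.sum_mul]
    refine norm_sum_le_of_le _ fun j hj => ?_
    rw [ContinuousLinearMap.smul_apply, norm_smul, norm_pow, Real.norm_eq_abs, mul_assoc]
    have := (norm_le_pi_norm _ (I, J, ⟨j, Finset.mem_range.1 hj⟩)).trans (hb F)
    rw [ContinuousLinearMap.pi_apply] at this
    exact mul_le_mul_of_nonneg_left this (by positivity)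
  obtain ⟨k1, k2⟩ := t.ec η η0
  have a := DFunLike.congr_fun ((h1 k hn (un I J γ)).coc l η η0) f
  rw [psi_un, ContinuousLinearMap.sub_apply, ← e2 l I J k (Nat.lt_succ_of_le hk),
    ContinuousLinearMap.comp_apply, ← e1 l I J _ fun x hx => k2 ?_, sub_eq_iff_eq_add,
    ← map_add] at a
  · refine (congrArg _ (SchwartzMap.ext fun z => ?_)).trans a.symm
    erw [SchwartzMap.add_apply, ten2_apply, ten2_apply, ten2_apply, cmo_apply γ η.2.1.1,
      cmo_apply γ k1, cmo_apply γ η0.2.1.1]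
    simp only [Pi.sub_apply]
    push_cast
    ring
  · simpa using (supp_ten2 γ k1 f hx).1

theorem ug_spl (g : GRP c) {s : ℝ} {L : Ix → V} (hs : 0 < s) (hL : IsLor L) (a : V)
    (z : Completion D) : Ug c.Q s L a z = Ut c.Q a (Ug c.Q s L 0 z) := by
  have := g.mul 1 GF.one a s L 0 one_pos hs H496.isLor_one hL
  simp only [HM.sim_tr, one_mul, zero_add, add_zero] at this
  exact (DFunLike.congr_fun this z).symm

theorem Cd.perp (h : Cd n w v m B) (hw : Src c K w) (h0 : ∀ k < n, B k = 0)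
    (h1 : ∀ k, n ≤ k → ∀ h, Dat c K w ((-1) ^ k) (pol h) (B k h)) (l : ℝ) (I J : I2) (F : S2) :
    inner ℂ c.Om (v l I J F) = 0 := by
  obtain ⟨η, e⟩ := h.low
  obtain ⟨a1, a2⟩ := ((h.rel l I J).comp (innerSL ℂ c.Om) adm_one).kill fun F _ => hw.perp l I J F
  refine DFunLike.congr_fun (expand' a1 a2 (dc_cx η.2.1.1)
    (η.2.1.2.mono fun u hu => by simp [cx, hu]) fun k hk γ f =>
      (congrArg (inner ℂ c.Om) (e k hk l I J γ f)).trans ?_) F
  rcases lt_or_ge k n with hn | hn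
  · simp [h0 k hn]
  · exact ((h1 k hn _).tc l η).perp f

theorem Cd.pl (h : Cd n w v m B) (hw : Src c K w) (h0 : ∀ k < n, B k = 0)
    (h1 : ∀ k, n ≤ k → ∀ h, Dat c K w ((-1) ^ k) (pol h) (B k h)) (I J : I2) :
    PL K fun l => v l I J := PL.clm fun F => by
  obtain ⟨η, e⟩ := h.low
  refine (((hw.pl I J).app F).add (PL.sum (Finset.range (m + 1)) fun k _ =>
    PL.sum Finset.univ fun (γ : Fin k → Ix) _ => (PL.sub (x := fun l => B k (un I J γ) l η (jet γ F))
      ?_ ((hw.pl I J).app (ten2 (cmo γ η.1) (jet γ F)))).map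
        ((LinearMap.lsmul ℂ _ (k.factorial : ℂ)⁻¹).restrictScalars ℝ))).congr fun l => ?_
  · rcases lt_or_ge k n with hn | hn
    · simpa [h0 k hn] using PL.zero
    · exact ((h1 k hn _).pl η).app _
  · refine (eq_sub_iff_add_eq'.1 ?_)
    refine Eq.trans ?_ (expand2 (Λ := v l I J - w l I J)
      (fun F hF => sub_eq_zero.2 ((h.rel l I J).off F hF))
      (fun γ H F e => sub_eq_zero.2 ((h.rel l I J).van F ⟨γ, H, e⟩)) (dc_cx η.2.1.1)
      (η.2.1.2.mono fun u hu => by simp [cx, hu]) F).symm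
    exact Finset.sum_congr rfl fun k hk => Finset.sum_congr rfl fun γ _ => by
      rw [← e k (Nat.lt_succ_iff.1 (Finset.mem_range.1 hk))]
      rfl

theorem Cd.cov (h : Cd n w v m B) (t : TEN) (g : GRP c) (hw : Src c K w)
    (h1 : ∀ k, n ≤ k → ∀ h, Dat c K w ((-1) ^ k) (pol h) (B k h))
    (h2 : ∀ k, n ≤ k → ∀ (s : ℝ) L h, 0 < s → IsLor L → s ^ k • ga c s L (B k (pb L h)) = B k h)
    (l s : ℝ) (L : Ix → V) (a : V) (I J : I2) (F G : S2) (hs : 0 < s) (hL : IsLor L) (hF : Vj n F)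
    (e : ∀ x y, G (x, y) = F (sim s L a x, sim s L a y)) :
    v l I J F = ∑ K, ∑ M, (L2 L K I * L2 L M J) • Ug c.Q s L a (v (l + Real.log s) K M G) := by
  obtain ⟨η, -⟩ := t.small 1 one_pos
  obtain ⟨a1, a2⟩ := ((h.rel l I J).sub (Rel.sum Finset.univ fun K => Rel.sum Finset.univ fun M =>
    (h.rel (l + Real.log s) K M).comp ((L2 L K I * L2 L M J) • Ug c.Q s L a)
      (adm_sim hs hL a))).kill fun F hF => by
      simpa [sub_eq_zero] using hw.cov l s L a I J F _ hs hL hF (Wk.sim2_apply hs hL a F)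
  have := expand2 a1 a2 (dc_cx η.2.1.1) (η.2.1.2.mono fun u hu => by simp [cx, hu]) F
  rw [Finset.sum_eq_zero fun k hk => Finset.sum_eq_zero fun γ _ =>
    smul_eq_zero_of_right _ ?_] at this
  · rw [show G = Wk.sim2 hs hL a F from SchwartzMap.ext fun z =>
      (e z.1 z.2).trans (Wk.sim2_apply hs hL a F z.1 z.2).symm]
    simpa [sub_eq_zero] using this
  rcases lt_or_ge k n with hn | hn
  · rw [hF k hn, map_zero, map_zero]
  replace hk := Nat.lt_succ_iff.1 (Finset.mem_range.1 hk)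
  generalize jet γ F = f
  have e1 : Wk.sim2 hs hL a (ten2 (cmo γ η.1) f) = ∑ δ : Fin k → Ix,
      ((s ^ k * ∏ i, L (δ i) (γ i) : ℝ) : ℂ) •
        ten2 (cmo δ (η.pull s L).1) (pS s L (ST.tsl (-a) f)) := SchwartzMap.ext fun z => by
    rw [Wk.sim2_apply hs hL a _ z.1 z.2, ten2_apply, P352Y.sim_sub, cmo_apply γ η.2.1.1, mon_lin]
    simp only [SchwartzMap.sum_apply, SchwartzMap.smul_apply, ten2_apply, smul_eq_mul,
      cmo_apply _ (η.pull s L).2.1.1, η.pull_apply hs hL, pS_apply hs hL, ST.tsl_apply,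
      Finset.sum_mul, mul_assoc, sub_neg_eq_add, ← HM.sim_at]
  have e2 := DFunLike.congr_fun (congrFun (congrFun (h2 k hn s L (un I J γ) hs hL) l) η)
    (ST.tsl (-a) f)
  have e3 := ((h1 k hn (un I J γ)).tc l η).tra a (ST.tsl (-a) f)
  rw [show ST.tsl a (ST.tsl (-a) f) = f from SchwartzMap.ext fun z => by simp [ST.tsl_apply],
    ← e2, pb_un] at e3
  rw [show (sch fun u => mon γ u * cx η.1 u) = cmo γ η.1 from rfl,
    ContinuousLinearMap.sub_apply, h.val k hk hn, ← e3, sub_eq_zero]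
  simp only [ContinuousLinearMap.sum_apply, ContinuousLinearMap.comp_apply,
    ContinuousLinearMap.smul_apply, map_sum, map_smul, Finset.sum_apply, Pi.smul_apply, ga_apply,
    act_apply, ContinuousLinearMap.map_smul_of_tower, Finset.smul_sum, ← ug_spl g hs hL, e1]
  simp only [map_sum, map_smul, h.val k hk hn, Finset.smul_sum, smul_smul, ← Complex.coe_smul, L2]
  refine Finset.sum_congr rfl fun K _ => Finset.sum_congr rfl fun M _ =>
    Finset.sum_congr rfl fun δ _ => congrArg₂ _ ?_ rfl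
  push_cast
  ring

theorem Cd.loc (h : Cd n w v m B) (t : TEN) (b0 : BA c) (hw : Src c K w)
    (h1 : ∀ k, n ≤ k → ∀ h, Dat c K w ((-1) ^ k) (pol h) (B k h)) (l : ℝ) (a b y : V) (I J : I2)
    (G G' : S2) (ha : IsNull a) (hb : IsNull b) (hab : 0 < mdot a b) (hV : Vj n G)
    (hG : HasCompactSupport G)
    (hW : tsupport G ⊆ Wdg a b y ×ˢ Wdg a b y) (e : ∀ x z, G' (x, z) = G (-x, -z)) :
    Pr (c.N (Wdg a b y)) c.Om (v l I J G) (Th c (v l I J G')) := fun Z hZ => by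
  have o := (Ap.open_wdg a b y).prod (Ap.open_wdg a b y)
  obtain ⟨κ, k1, k2, k3, -⟩ := Ap.ex_chi hG o hW
  have dk := dc_cx k1
  obtain ⟨ε, ε0, hε⟩ := hG.isCompact.exists_thickening_subset_open
    (o.inter (isOpen_interior (s := {z | κ z = 1}))) fun z hz =>
      ⟨hW hz, mem_interior_iff_mem_nhds.2 (k3 z hz)⟩
  obtain ⟨η, hη⟩ := t.small ε ε0
  have i : ∀ x, inner ℂ (Th c x) (Z c.Om) = inner ℂ (Th c (Z c.Om)) x := fun x => by
    rw [← b0.th_inner x, b0.th_th]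
  obtain ⟨a1, a2⟩ := (((h.rel l I J).comp (innerSL ℂ (star Z c.Om)) (adm_ml dk)).sub
    ((h.rel l I J).comp (innerSL ℂ (Th c (Z c.Om))) (adm_ng.comp (adm_ml dk) (vn_ml dk)))).kill
      fun F hF => by
    have s1 : tsupport (ml (cx κ) F) ⊆ tsupport κ :=
      Ap.tsupp_of_zero fun z hz => by simp [ml_apply dk, cx, hz]
    exact sub_eq_zero.2 ((hw.loc l a b y I J _ _ ha hb hab ((adm_ml dk).off F hF)
      (k1.2.of_isClosed_subset (isClosed_tsupport _) s1) (s1.trans k2)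
      (fun _ _ => rfl) Z hZ).trans (i _))
  have := expand2 a1 a2 (dc_cx η.2.1.1) (η.2.1.2.mono fun u hu => by simp [cx, hu]) G
  rw [Finset.sum_eq_zero fun k hk => Finset.sum_eq_zero fun γ _ => ?_] at this
  · have e1 : ml (cx κ) G = G := SchwartzMap.ext fun z => by
      by_cases hz : z ∈ tsupport G
      · simp [ml_apply dk, cx, (k3 z hz).self_of_nhds]
      · simp [ml_apply dk, image_eq_zero_of_notMem_tsupport hz]
    rw [i, show G' = ng2 G from SchwartzMap.ext fun z => e z.1 z.2, ← sub_eq_zero]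
    simpa [e1] using this
  rcases lt_or_ge k n with hn | hn
  · rw [hV k hn, map_zero, map_zero, smul_zero]
  have s1 : tsupport (jet γ G) ⊆ (fun z => (z, z)) ⁻¹' tsupport G :=
    closure_minimal (fun z hz => by_contra fun n => hz (f2.dd_zero γ n))
      ((isClosed_tsupport _).preimage (by fun_prop))
  have s2 : ∀ z ∈ tsupport (jet γ G), ∀ u ∈ tsupport η.1, (z + u, z) ∈
      Metric.thickening ε (tsupport G) := fun z hz u hu =>
    Metric.mem_thickening_iff.2 ⟨_, s1 hz, by simpa [Prod.dist_eq, ε0] using hη hu⟩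
  have e1 : ml (cx κ) (ten2 (cmo γ η.1) (jet γ G)) = ten2 (cmo γ η.1) (jet γ G) :=
    SchwartzMap.ext fun z => by
      by_cases hz : z ∈ tsupport (ten2 (cmo γ η.1) (jet γ G))
      · obtain ⟨b1, b2⟩ := supp_ten2 γ η.2.1.1 _ hz
        have := interior_subset (hε (s2 _ b2 _ b1)).2
        simp only [add_sub_cancel, mem_setOf_eq, Prod.mk.eta] at this
        simp only [ml_apply dk, cx, this, Complex.ofReal_one, one_mul]
      · rw [ml_apply dk, image_eq_zero_of_notMem_tsupport hz, mul_zero]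
  have e2 : ng2 (ten2 (cmo γ η.1) (jet γ G)) =
      (((-1 : ℝ) ^ k : ℝ) : ℂ) • ten2 (cmo γ η.1) (ng (jet γ G)) := SchwartzMap.ext fun z => by
    simp only [ng2_apply, ten2_apply, cmo_apply γ η.2.1.1, SchwartzMap.smul_apply, ng_apply,
      neg_sub_neg, smul_eq_mul]
    rw [← neg_sub z.1, η.2.2, ← neg_one_smul ℝ (z.1 - z.2), P352Y.mon_smul]
    push_cast
    ring
  have := ((h1 k hn (un I J γ)).loc l η) a b y (jet γ G) ha hb hab
    ((hG.isCompact.image continuous_snd).of_isClosed_subset (isClosed_tsupport _)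
      fun z hz => ⟨_, s1 hz, rfl⟩) (fun z hz => (hW (s1 hz)).1)
    (fun z hz u hu => (hε (s2 z hz u hu)).1.1) Z hZ
  have hk' := Nat.lt_succ_iff.1 (Finset.mem_range.1 hk)
  refine smul_eq_zero_of_right _ (sub_eq_zero.2 ?_)
  show inner ℂ _ (v l I J (ml (cx κ) (ten2 (cmo γ η.1) _))) =
    inner ℂ _ (v l I J (ng2 (ml (cx κ) (ten2 (cmo γ η.1) _))))
  rw [e1, e2, map_smul, h.val k hk' hn, h.val k hk' hn, this, ← Complex.coe_smul, inner_smul_left,
    inner_smul_right, i, Complex.conj_ofReal]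

end Fu1

open Fu1

variable {D : Type*} [NormedAddCommGroup D] [InnerProductSpace ℂ D]

theorem fu_row (c : Ctx D) : B0 c → FU c := fun b K w n hw h => by
  have : ∀ k, ∃ B : Tn (Fin 4 ⊕ Fin k) →ₗ[ℝ] Fam D, (k < n → B = 0) ∧
      (n ≤ k → ∀ h, Dat c K w ((-1) ^ k) (pol h) (B h)) ∧
      (n ≤ k → ∀ (s : ℝ) L h, 0 < s → IsLor L → s ^ k • ga c s L (B (pb L h)) = B h) ∧
      ∀ I J γ (σ : Equiv.Perm (Fin k)), B (un I J (γ ∘ σ)) = B (un I J γ) := fun k => by
    rcases lt_or_ge k n with hn | hn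
    · exact ⟨0, fun _ => rfl, fun h => (hn.not_ge h).elim, fun h => (hn.not_ge h).elim,
        fun _ _ _ _ => rfl⟩
    · obtain ⟨B, h1, h2, h3⟩ := sym_ext b.ten (h k hn)
      exact ⟨B, fun h => (h.not_ge hn).elim, fun _ => h1, fun _ => h2, h3⟩
  choose B h0 h1 h2 h3 using this
  obtain ⟨v, m, k⟩ := ex_cd b.ten hw.pl h1 h3
  exact ⟨v, fun l I J => (k.rel l I J).off, k.perp hw h0 h1, k.pl hw h0 h1,
    k.cov b.ten b.grp hw h1 h2, k.loc b.ten b.ba hw h1⟩

end

end Vale.Agent.P352X.ZZ.TPD
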