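import Vale.Agent.P352Z.TPD.Ten

/-!
# P352Z, block TPD: row INV (helper18)
-/

set_option linter.all false

namespace Vale.Agent.P352X.ZZ.TPD

open Vale.Agent.P352 Vale.Agent.P352.GF Vale.Agent.P352X.TPD.Tn1
open Vale.Agent.P352X.TPD (ee trc r1 cyc sw)

theorem inv_row : INV := fun lam h => by
  have ex : ∀ k : Tn (Fin 2), lam k = ∑ a, ∑ b, k ![a, b] * lam (ee a b) := fun k => by
    simp only [← smul_eq_mul, ← map_smul, ← map_sum]
    congr 1
    funext ν
    simp [ee, bas, Finset.sum_apply]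
    exact congrArg k (funext fun i => by fin_cases i <;> rfl)
  have e : ∀ L, IsLor L → ∀ a b, lam (ee a b) = ∑ m, ∑ n, L m a * L n b * lam (ee m n) :=
    fun L hL a b => by
      rw [← h L _ hL, ex]
      have : ∀ m n, ee a b ![m, n] = bas a 1 m * bas b 1 n := fun _ _ => rfl
      simp [pb2, this, bas]
  refine ⟨lam (ee 0 0), fun k => ?_⟩
  rw [ex]
  generalize hA : (fun a b => lam (ee a b)) = A
  simp only [show ∀ a b, lam (ee a b) = A a b from fun a b => congrFun₂ hA a b] at e ⊢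
  have e1 : ∀ a b, A a b = sj a * sj b * A a b := fun a b => by
    simpa [r1, bas] using e _ ten_thm.r1.1 a b
  have e2 : ∀ a b, A (![0, 2, 3, 1] a) (![0, 2, 3, 1] b) = A a b := fun a b => by
    rw [e _ ten_thm.cyc.1]
    fin_cases a <;> fin_cases b <;> simp [cyc, bas, Fin.sum_univ_four]
  have e3 := e _ ten_thm.sw.1 0 0
  have a1 := e1 0 2
  have a2 := e1 2 0
  have a3 := e1 1 2
  have a4 := e1 2 1
  have b := fun a => And.intro (And.intro (e2 a 0) (e2 a 1)) (And.intro (e2 a 2) (e2 a 3))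
  have b0 := b 0
  have b1 := b 1
  have b2 := b 2
  have b3 := b 3
  simp [sj, sw, Fin.sum_univ_four] at a1 a2 a3 a4 e3 b0 b1 b2 b3
  obtain ⟨⟨⟨_, _⟩, _, _⟩, ⟨⟨_, _⟩, _, _⟩, ⟨⟨_, _⟩, _, _⟩, _, _, _⟩ :=
    And.intro b1 (And.intro b2 (And.intro b3 b0))
  have c : ∀ x y : ℝ, x = y → x = y := fun _ _ h => h
  simp only [trc, Fin.sum_univ_four, c (A 0 1) 0 (by linarith), c (A 0 2) 0 (by linarith),
    c (A 0 3) 0 (by linarith), c (A 1 0) 0 (by linarith), c (A 1 2) 0 (by linarith),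
    c (A 1 3) 0 (by linarith), c (A 2 0) 0 (by linarith), c (A 2 1) 0 (by linarith),
    c (A 2 3) 0 (by linarith), c (A 3 0) 0 (by linarith), c (A 3 1) 0 (by linarith),
    c (A 3 2) 0 (by linarith), c (A 1 1) (-A 0 0) (by linarith), c (A 2 2) (-A 0 0) (by linarith),
    c (A 3 3) (-A 0 0) (by linarith)]
  simp [eta, o]
  ring

end Vale.Agent.P352X.ZZ.TPD
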