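import Vale.Agent.P352X.TPD.IRG
import Vale.Agent.P352Z.TPD.Spec

/-!
# P352Z, block TPD: row IRG
-/

set_option linter.all false

open MeasureTheory Filter Topology
open scoped SchwartzMap ComplexConjugate ENNReal ContDiff

namespace Vale.Agent.P352X.ZZ.TPD

export Vale.Agent.P352X.TPD (Irg.geo)

open Vale.Agent.P352 Vale.Agent.P352.GF Vale.Agent.P352.BW Vale.Agent.P352.H246
open Vale.Agent.P352.H496 Vale.Agent.P352.H755 Vale.Agent.P352.H15
open UniformSpace (Completion)

noncomputable section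

variable {D : Type*} [NormedAddCommGroup D] [InnerProductSpace ℂ D]

theorem irg_row (c : Ctx D) (b : B0 c) : IRG c := fun σ K x f hx hl hK hf => by
  obtain ⟨r, hr⟩ := hK.exists_norm_le
  obtain ⟨r', hr'⟩ := hf.isCompact.isBounded.exists_norm_le
  refine ⟨6 * (|r'| + |r|) + 3, fun t y ht hy => ?_⟩
  obtain ⟨a, a', v, ha, ha', hp, h⟩ := Irg.geo (by positivity) hy
  have n1 : ∀ z ∈ tsupport f, ‖z‖ ≤ |r'| + |r| := fun z hz =>
    ((hr' z hz).trans (le_abs_self _)).trans (le_add_of_nonneg_right (abs_nonneg _))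
  have n2 : ∀ z ∈ tsupport f, ∀ u ∈ K, ‖z + u‖ ≤ |r'| + |r| := fun z hz u hu =>
    (norm_add_le _ _).trans (add_le_add ((hr' z hz).trans (le_abs_self _))
      ((hr u hu).trans (le_abs_self _)))
  set p : V := bas o t + tv y with hp'
  have sp : ∀ z ∈ tsupport (ST.tsl p f), z - p ∈ tsupport f :=
    Ap.tsupp_sub (K := (· - p) ⁻¹' tsupport f)
      ((isClosed_tsupport _).preimage (continuous_sub_right p)) fun z hz => subset_tsupport _ hz
  have h1 := hl a' a v f ha' ha (by rwa [H755.mdot_comm]) hf (fun z hz => (h z (n1 z hz)).1)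
    fun z hz u hu => (h _ (n2 z hz u hu)).1
  have h2 := hl a a' v (ST.tsl p f) ha ha' hp (hf.comp_homeomorph (Homeomorph.subRight p))
    (fun z hz => sub_add_cancel z p ▸ (h _ (n1 _ (sp z hz))).2 t ht) fun z hz u hu => by
      have := (h _ (n2 _ (sp z hz) u hu)).2 t ht
      rwa [← hp', add_right_comm, sub_add_cancel] at this
  have e : ng (ST.tsl p f) = ST.tsl (-p) (ng f) := by
    ext z
    rw [ng_apply, ST.tsl_apply, ST.tsl_apply, ng_apply]
    congr 1
    abel
  rw [e, ← hx.tra, ← hx.tra, Ut, Ut, b.ba.th_ug _ _ _ _ one_pos H496.isLor_one, neg_neg] at h2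
  rw [ContinuousLinearMap.map_smul_of_tower]
  exact h1.symm.pair' h2 (fun X hX => (b.jc.dual a' a v ha' ha (by rwa [H755.mdot_comm])).symm ▸ hX)
    (b.grp.rs _ (Ap.open_wdg _ _ _) ⟨_, (h 0 (by rw [norm_zero]; positivity)).2 t ht⟩)

end

end Vale.Agent.P352X.ZZ.TPD
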