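import Vale.Agent.P352Z.TPD.Spec
import Vale.Agent.P352Z.R.TWO.Vc
import Vale.Agent.P352X.TPD.IRN

/-!
# P352Z, block TPD: rows IRN0 and IRN (helper22)
-/

set_option linter.all false

open MeasureTheory Filter Topology Set
open scoped ENNReal NNReal

namespace Vale.Agent.P352X.ZZ.TPD

open Vale.Agent.P352 Vale.Agent.P352.GF Vale.Agent.P352.BW
open UniformSpace (Completion)

noncomputable section

namespace Irn

export Vale.Agent.P352X.TPD.Irn (sh meas_sh wt meas_wt hh meas_hh sim_one absorb half bnd fin lim)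

variable {D : Type*} [NormedAddCommGroup D] [InnerProductSpace ℂ D] {c : Ctx D}

lemma nu_dil (g : GRP c) {s : ℝ} (hs : 0 < s) (w : Completion D) {φ : V → ℝ≥0∞}
    (hφ : Measurable φ) :
    ∫⁻ p, φ p ∂c.nu (Ug c.Q s GF.one 0 w) = ∫⁻ p, φ (s⁻¹ • p) ∂c.nu w := by
  rw [← Two.nu_W (g.uni s GF.one 0) (A := fun y => s • y) (k := fun p => s • p) (by fun_prop)
    (fun y => ?_) (fun p y => by simp only [mdot_eq, Pi.smul_apply, smul_eq_mul]; ring) w,
    lintegral_map (by fun_prop) (by fun_prop)]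
  · simp only [smul_smul, inv_mul_cancel₀ hs.ne', one_smul]
  rw [Ut, Ut, g.mul _ _ _ _ _ _ hs one_pos H496.isLor_one H496.isLor_one,
    g.mul _ _ _ _ _ _ one_pos hs H496.isLor_one H496.isLor_one]
  simp [sim_one]

/-- the two point measure -/
structure Rh (c : Ctx D) (x : TT D) (ρ : Measure V) : Prop where
  lf : IsLocallyFiniteMeasure ρ
  nu : ∀ f : Sch, c.nu (x f) = ρ.withDensity fun p => ENNReal.ofReal (‖ft (ev f) p‖ ^ 2)
  cone : ∀ᵐ p ∂ρ, 0 < p o ∧ 0 ≤ mu p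
  tmp : ∃ M : ℕ, ∫⁻ p, ENNReal.ofReal (((1 + ‖p‖) ^ M)⁻¹) ∂ρ < ⊤

lemma ex_rh (rho : RHO c) {x : TT D} (h : TC c x) : ∃ ρ, Rh c x ρ :=
  (rho x h).imp fun _ a => ⟨a.1, a.2.1, a.2.2.1, a.2.2.2⟩

/-- the test function with nowhere vanishing Fourier transform -/
def G : Sch := P352X.Two.exists_g0.choose

lemma eG : ev G = P352X.Two.g0 := rfl

lemma mf (f : Sch) : Measurable fun p => ENNReal.ofReal (‖ft (ev f) p‖ ^ 2) :=
  P352X.Two.meas_sq2 (P352X.Two.cont_ft ⟨f, rfl⟩).measurable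

/-- the inverse density -/
def ik : V → ℝ≥0∞ := P352X.Two.sq2 fun p => (ft P352X.Two.g0 p)⁻¹

lemma mik : Measurable ik := P352X.Two.meas_sq2 P352X.Two.cont_k.measurable

lemma cn (p : V) (t : ℝ) :
    ENNReal.ofReal (t * ‖ft P352X.Two.g0 p‖ ^ 2) * ik p = ENNReal.ofReal t := by
  rw [ik, P352X.Two.sq2, mul_comm, ← ENNReal.ofReal_mul (sq_nonneg _), norm_inv]
  have := norm_pos_iff.2 (P352X.Two.g0_ne p)
  congr 1
  field_simp

variable {x y z : TT D} {ρ ρ' : Measure V}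

lemma Rh.e1 (h : Rh c x ρ) (δ : ℝ) :
    ∫⁻ p, hh δ p ∂ρ = ∫⁻ p, hh δ p * ik p ∂c.nu (x G) := by
  rw [h.nu, lintegral_withDensity_eq_lintegral_mul _ (mf G) (g := fun p => hh δ p * ik p)
    ((meas_hh δ).mul mik)]
  refine lintegral_congr fun p => ?_
  have := cn p 1
  rw [one_mul, ENNReal.ofReal_one] at this
  rw [Pi.mul_apply, eG, mul_left_comm, this, mul_one]

lemma m1 (r : ℝ) : MeasurableSet (Metric.closedBall (0 : V) r) :=
  Metric.isClosed_closedBall.measurableSet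

lemma Rh.ball (h : Rh c x ρ) (r : ℝ) : ρ (Metric.closedBall 0 r) ≠ ⊤ :=
  haveI := h.lf
  (isCompact_closedBall _ _).measure_lt_top.ne

lemma Rh.mu (h : Rh c x ρ) (q0 : ∫⁻ p, hh 0 p ∂ρ ≠ ⊤) : Mu c (fun p => ((p o)⁻¹ : ℝ)) x := by
  obtain ⟨-, hν, hc, M, hM⟩ := h
  obtain ⟨m, A, A0, hA⟩ := ft_decay M
  set J := (∫⁻ p, hh 0 p ∂ρ + ∫⁻ p, ENNReal.ofReal (((1 + ‖p‖) ^ M)⁻¹) ∂ρ).toReal with hJ
  refine ⟨m, A * Real.sqrt J, fun f => ?_⟩
  have s0 : 0 ≤ sn m f := apply_nonneg _ _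
  rw [hν, lintegral_withDensity_eq_lintegral_mul _ (mf f) (by fun_prop), mul_right_comm, mul_pow,
    Real.sq_sqrt ENNReal.toReal_nonneg, ENNReal.ofReal_mul (sq_nonneg _),
    ENNReal.ofReal_toReal (ENNReal.add_ne_top.2 ⟨q0, hM.ne⟩), ← lintegral_add_left (meas_hh 0),
    ← lintegral_const_mul' _ _ ENNReal.ofReal_ne_top]
  refine lintegral_mono_ae (hc.mono fun p hp => ?_)
  have a := hA f p
  have w1 : 1 ≤ (1 + ‖p‖) ^ M := one_le_pow₀ (by simp)
  have f0 := norm_nonneg (ft (ev f) p)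
  rw [Pi.mul_apply, Complex.norm_real, Real.norm_eq_abs, sq_abs]
  generalize ‖ft (ev f) p‖ = F at a f0
  have a1 : F ≤ A * sn m f := by nlinarith
  by_cases m1 : p o ≤ 1
  · refine mul_le_mul' (ENNReal.ofReal_le_ofReal (pow_le_pow_left₀ f0 a1 2)) (le_add_right ?_)
    rw [hh, indicator_of_mem (show p ∈ sh 0 from ⟨hp.1, m1⟩), Irn.wt]
  · refine le_trans ?_ (mul_le_mul_right le_add_self _)
    rw [← ENNReal.ofReal_mul (sq_nonneg _), ← ENNReal.ofReal_mul (sq_nonneg _)]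
    refine ENNReal.ofReal_le_ofReal ?_
    have i1 : (p o)⁻¹ ^ 2 ≤ 1 := pow_le_one₀ (inv_pos.2 hp.1).le
      (inv_le_one_of_one_le₀ (not_le.1 m1).le)
    rw [← div_eq_mul_inv _ (_ ^ M), le_div_iff₀ (by positivity)]
    calc F ^ 2 * (p o)⁻¹ ^ 2 * (1 + ‖p‖) ^ M = F * ((1 + ‖p‖) ^ M * F) * (p o)⁻¹ ^ 2 := by ring
      _ ≤ (A * sn m f) * (A * sn m f) * 1 :=
        mul_le_mul (mul_le_mul a1 a (by positivity) (by positivity)) i1 (by positivity)
          (by positivity)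
      _ = _ := by ring

lemma Rh.fin (h : Rh c x ρ) (hm : Mu c (fun p => ((p o)⁻¹ : ℝ)) x) : ∫⁻ p, hh 0 p ∂ρ ≠ ⊤ := by
  obtain ⟨m, C, hm⟩ := hm
  obtain ⟨B, hB⟩ := (isCompact_closedBall (0 : V) 1).exists_bound_of_continuousOn
    P352X.Two.cont_k.continuousOn
  refine ne_top_of_le_ne_top (ENNReal.mul_ne_top (a := ENNReal.ofReal (B ^ 2))
    ENNReal.ofReal_ne_top ENNReal.ofReal_ne_top) (le_trans ?_ (mul_le_mul_right (hm G) _))
  rw [h.nu, lintegral_withDensity_eq_lintegral_mul _ (mf G) (by fun_prop),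
    ← lintegral_const_mul' _ _ ENNReal.ofReal_ne_top]
  refine lintegral_mono_ae (h.cone.mono fun p hp => ?_)
  by_cases m : p ∈ sh 0
  swap
  · simp [hh, m]
  have a := hB p (mem_closedBall_zero_iff.2 ((P352X.TPD.Ani.cone hp.1 hp.2).1.trans m.2))
  rw [hh, indicator_of_mem m, wt, ← cn p, Pi.mul_apply, eG, Complex.norm_real, Real.norm_eq_abs,
    sq_abs, ENNReal.ofReal_mul (sq_nonneg _), mul_comm (ENNReal.ofReal (B ^ 2)),
    mul_comm (ENNReal.ofReal (_⁻¹ ^ 2))]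
  exact mul_le_mul_right (ENNReal.ofReal_le_ofReal (pow_le_pow_left₀ (norm_nonneg _) a 2)) _

lemma hh_le {δ : ℝ} (hδ : 0 ≤ δ) (p : V) : hh δ p ≤ hh 0 p :=
  indicator_le_indicator_of_subset (show sh δ ⊆ sh 0 from fun _ hp => ⟨hδ.trans_lt hp.1, hp.2⟩)
    (fun _ => zero_le) p

lemma fix (b : B0 c) (h : Rh c x ρ) (h' : Rh c z ρ') (e : x = (2 : ℝ) • act c 2 GF.one x + z)
    {δ : ℝ} (hδ : 0 < δ) :
    ∫⁻ p, hh δ p ∂ρ ≤ ρ (Metric.closedBall 0 2) + 3 * ∫⁻ p, hh 0 p ∂ρ' := by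
  haveI := h.lf
  refine absorb (fin hδ h.cone) ?_
  have mφ : Measurable fun p => hh δ p * ik p := (meas_hh δ).mul mik
  have e2 : x G = ((2 : ℝ) : ℂ) • Ug c.Q 2 GF.one 0 (x (pS 2 GF.one G)) + z G := by
    conv_lhs => rw [e]
    rfl
  refine ((h.e1 δ).trans (by rw [e2])).trans_le
    ((lintegral_mono' (c.bt.nu_add_le _ _) le_rfl).trans ?_)
  rw [lintegral_smul_measure, lintegral_add_measure, ← Ctx.nu, Two.nu_real, lintegral_smul_measure,
    nu_dil b.grp two_pos _ mφ, h.nu, ← Ctx.nu, ← h'.e1,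
    lintegral_withDensity_eq_lintegral_mul _ (mf _)
      (g := fun p => hh δ ((2⁻¹ : ℝ) • p) * ik ((2⁻¹ : ℝ) • p)) (mφ.comp (by fun_prop)),
    ENNReal.smul_def, smul_eq_mul, smul_eq_mul]
  refine mul_le_mul' le_rfl (add_le_add (mul_le_mul_right ?_ _)
    (lintegral_mono (hh_le hδ.le)))
  rw [← lintegral_indicator_one (m1 2), ← lintegral_add_left (meas_hh δ),
    ← lintegral_const_mul' _ _ ENNReal.ofReal_ne_top]
  refine lintegral_mono_ae (h.cone.mono fun p hp => le_trans (le_of_eq ?_) (half hδ hp.1 hp.2))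
  have a := ft_sim two_pos H496.isLor_one P352X.Two.g0 0 ((2⁻¹ : ℝ) • p)
  rw [smul_smul, mul_inv_cancel₀ two_ne_zero, one_smul, Irn.sim_one, zero_add, one_smul] at a
  rw [Pi.mul_apply, show ev (pS 2 GF.one G) = fun z => P352X.Two.g0 (sim 2 GF.one 0 z) from
    funext (pS_apply two_pos H496.isLor_one G), a, mul_left_comm, ← cn ((2⁻¹ : ℝ) • p) (1 / 256)]
  congr 3
  simp [mul_pow]
  norm_num

lemma der (h : Rh c y ρ) {v : V} (h' : Rh c (y ∘L KDa.dS v) ρ') : ∫⁻ p, hh 0 p ∂ρ' ≤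
    ENNReal.ofReal ((4 * ‖v‖) ^ 2) * ρ (Metric.closedBall 0 1) := by
  rw [h'.e1, ContinuousLinearMap.comp_apply, h.nu,
    lintegral_withDensity_eq_lintegral_mul _ (mf _) (g := fun p => hh 0 p * ik p)
      ((meas_hh 0).mul mik),
    ← lintegral_indicator_one (m1 1), ← lintegral_const_mul' _ _ ENNReal.ofReal_ne_top]
  refine lintegral_mono_ae (h.cone.mono fun p hp => le_trans (le_of_eq ?_)
    (bnd le_rfl v hp.1 hp.2))
  rw [Pi.mul_apply, KDa.ev_dS, ft_dv ⟨G, rfl⟩, eG, mul_left_comm, ← cn p (mdot p v ^ 2)]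
  congr 3
  simp [mul_pow]

lemma mu_add {F : V → ℂ} (h : Mu c F x) (h' : Mu c F y) : Mu c F (x + y) := by
  obtain ⟨m, C, h⟩ := h
  obtain ⟨m', C', h'⟩ := h'
  refine ⟨max m m', 2 * (|C| + |C'|), fun f => ?_⟩
  refine (lintegral_mono' (c.bt.nu_add_le (x f) (y f)) le_rfl).trans ?_
  rw [lintegral_smul_measure, lintegral_add_measure, ENNReal.smul_def, smul_eq_mul]
  refine (mul_le_mul_right (add_le_add (h f) (h' f)) _).trans ?_
  rw [← ENNReal.ofReal_add (sq_nonneg _) (sq_nonneg _), ← ENNReal.ofReal_coe_nnreal,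
    ← ENNReal.ofReal_mul NNReal.zero_le_coe]
  refine ENNReal.ofReal_le_ofReal ?_
  have a1 := pow_le_pow_left₀ (Lie.sn_nonneg _ f) (Lie.sn_mono (le_max_left m m') f) 2
  have a2 := pow_le_pow_left₀ (Lie.sn_nonneg _ f) (Lie.sn_mono (le_max_right m m') f) 2
  simp only [mul_pow, NNReal.coe_ofNat]
  rw [← sq_abs C, ← sq_abs C']
  have := abs_nonneg C
  have := abs_nonneg C'
  have := sq_nonneg (sn (max m m') f)
  nlinarith [mul_le_mul_of_nonneg_left a1 (sq_nonneg |C|),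
    mul_le_mul_of_nonneg_left a2 (sq_nonneg |C'|), mul_nonneg (mul_nonneg ‹0 ≤ |C|› ‹0 ≤ |C'|›) this,
    mul_nonneg (sq_nonneg |C|) this, mul_nonneg (sq_nonneg |C'|) this]

lemma mu_sm {F : V → ℂ} (a : ℝ) (h : Mu c F x) : Mu c F (a • x) := by
  obtain ⟨m, C, h⟩ := h
  refine ⟨m, a * C, fun f => ?_⟩
  rw [ContinuousLinearMap.smul_apply, ← Complex.coe_smul, Two.nu_real, lintegral_smul_measure,
    mul_assoc, mul_pow, ENNReal.ofReal_mul (sq_nonneg _)]
  exact mul_le_mul_right (h f) _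

lemma mu_dil (g : GRP c) (h : Mu c (fun p => ((p o)⁻¹ : ℝ)) x) :
    Mu c (fun p => ((p o)⁻¹ : ℝ)) (act c 2 GF.one x) := by
  obtain ⟨m, C, h⟩ := h
  obtain ⟨C', m', hC', h'⟩ := ST.clm_sn' ((pS 2 GF.one).restrictScalars ℝ) m
  refine ⟨m', 2 * (|C| * C'), fun f => ?_⟩
  rw [act_apply, nu_dil g two_pos _ (by fun_prop), mul_assoc, mul_pow,
    ENNReal.ofReal_mul (sq_nonneg _)]
  refine le_trans (le_of_eq ?_) (mul_le_mul_right ((h (pS 2 GF.one f)).trans
    (ENNReal.ofReal_le_ofReal ?_)) _)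
  · rw [← lintegral_const_mul' _ _ ENNReal.ofReal_ne_top]
    refine lintegral_congr fun p => ?_
    rw [← ENNReal.ofReal_mul (sq_nonneg _)]
    simp [mul_pow, mul_comm]
  · rw [← sq_abs, abs_mul, abs_of_nonneg (Lie.sn_nonneg _ _), mul_assoc]
    refine pow_le_pow_left₀ (mul_nonneg (abs_nonneg _) (Lie.sn_nonneg _ _))
      (mul_le_mul_of_nonneg_left ?_ (abs_nonneg _)) 2
    rw [Api4.sn_eq, Api4.sn_eq]
    exact h' f

end Irn

variable {D : Type*} [NormedAddCommGroup D] [InnerProductSpace ℂ D]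

open Irn in
/-- **row IRN0** -/
theorem irn0_row (c : Ctx D) (b : B0 c) (rho : RHO c) : IRN0 c where
  fix x z tx tz hz e := by
    obtain ⟨ρ, h⟩ := ex_rh rho tx
    obtain ⟨ρ', h'⟩ := ex_rh rho tz
    exact h.mu (ne_top_of_le_ne_top (ENNReal.add_ne_top.2 ⟨h.ball 2, ENNReal.mul_ne_top (by simp)
      (h'.fin hz)⟩) (lim fun δ hδ => Irn.fix b h h' e hδ))
  der y v ty := by
    obtain ⟨ρ, h⟩ := ex_rh rho ty
    obtain ⟨ρ', h'⟩ := ex_rh rho (b.ba.tc_der v y ty)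
    exact h'.mu (ne_top_of_le_ne_top (ENNReal.mul_ne_top ENNReal.ofReal_ne_top (h.ball 1))
      (Irn.der h h'))
  add F x y _ := mu_add
  dil x a h := mu_sm a (mu_dil b.grp h)

open Irn in
/-- **row IRN** -/
theorem irn_row (c : Ctx D) (b : B0 c) (i : IRN0 c) : IRN c := by
  have ms : Measurable fun p : V => (((p o)⁻¹ : ℝ) : ℂ) := by fun_prop
  have ts : ∀ {x y : TT D}, TC c x → TC c y → TC c (x + (-1 : ℝ) • y) := fun h h' =>
    b.ba.tc_add _ _ h (b.ba.tc_smul _ _ h')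
  have key : ∀ (K : ℕ) (x z : ℝ → TT D), PL K x → (∀ l, TC c (x l)) → (∀ l, TC c (z l)) →
      (∀ l, Mu c (fun p => ((p o)⁻¹ : ℝ)) (z l)) →
      (∀ l, x l = (2 : ℝ) • act c 2 GF.one (x (l + Real.log 2)) + z l) →
      ∀ l, Mu c (fun p => ((p o)⁻¹ : ℝ)) (x l) := fun K => by
    induction K with
    | zero => exact fun x z p tx tz mz e l => i.fix _ _ (tx l) (tz l) (mz l) (by
        have := e l
        rwa [p.of_zero (l + Real.log 2) l] at this)
    | succ K ih =>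
      intro x z p tx tz mz e l
      have tx' := fun l => ts (tx (l + Real.log 2)) (tx l)
      have h := ih (fun l => x (l + Real.log 2) + (-1 : ℝ) • x l)
        (fun l => z (l + Real.log 2) + (-1 : ℝ) • z l)
        ((p.diff (Real.log 2)).congr fun l => by rw [neg_one_smul, sub_eq_add_neg]) tx'
        (fun l => ts (tz _) (tz _)) (fun l => mu_add (mz _) (mu_sm _ (mz _))) (fun l => by
          simp only [map_add, map_smul]
          linear_combination (norm := module) e (l + Real.log 2) - e l) l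
      refine i.fix _ _ (tx l) (b.ba.tc_add _ _ (b.ba.tc_smul _ _ (b.ba.tc_act _ _ _ two_pos
        H496.isLor_one (tx' l))) (tz l)) (mu_add (i.dil _ 2 h) (mz l)) ?_
      simp only [map_add, map_smul]
      linear_combination (norm := module) e l
  exact fun K x y v p tx ty e => key K x _ p tx (fun l => b.ba.tc_der _ _ (ty l))
    (fun l => i.der _ _ (ty l)) e

end

end Vale.Agent.P352X.ZZ.TPD
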