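import Vale.Agent.P352X.TPD.IRQ
import Vale.Agent.P352Z.TPD.Spec

/-!
# P352Z, block TPD: row IRQ
-/

noncomputable section

open MeasureTheory Complex Set Metric
open scoped Real

namespace Vale.Agent.P352X.ZZ.TPD

open Vale.Agent.P352 Vale.Agent.P352.GF Vale.Agent.P352.BW

namespace Irq

export Vale.Agent.P352X.TPD.Irq (G G_le int_e gau step1 sig step2 shell)

variable {s R : ℝ} {m : Measure V} [IsFiniteMeasure m]

end Irq

open Irq in
/-- **row IRQ** -/
theorem irq_row {D : Type*} [NormedAddCommGroup D] [InnerProductSpace ℂ D] (c : Ctx D) (b : B0 c) :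
    IRQ c := fun ψ ψ' R h0 h => by
  obtain ⟨C, C0, hC⟩ := shell (m := c.nu ψ + c.nu ψ') (R := R)
    (ae_add_measure_iff.2 ⟨b.bas.cone ψ, b.bas.cone ψ'⟩) fun t x ht hx => by
      have i := fun v => (SN.isPair_mdot.bd (bas o t + tv x)).integrable (c.nu v)
      have e : ∀ v, ∫ p, Real.sin (t * p o - d2 (tx p) x) ∂c.nu v =
          (inner ℂ v (Ut c.Q (bas o t + tv x) v)).im := fun v => by
        rw [← c.bt.char SN.isPair_mdot]
        refine .trans (integral_congr_ae (.of_forall fun p => ?_)) (imCLM.integral_comp_comm (i v))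
        simp [SN.ch, exp_im, H755.md_add, Ap.md_bas, md_tv', mul_comm t, sub_eq_add_neg]
      have j : ∀ v, Integrable (fun p : V => Real.sin (t * p o - d2 (tx p) x)) (c.nu v) := fun v =>
        .of_bound (Continuous.aestronglyMeasurable (by fun_prop)) 1
          (.of_forall fun p => Real.abs_sin_le_one _)
      rw [integral_add_measure (j ψ) (j ψ'), e, e, h t x ht hx, ← inner_conj_symm ψ',
        conj_im, add_neg_cancel]
  refine ⟨2 * C, fun s hs => ?_⟩
  refine (measure_mono (t := {p | tx p = 0} ∪ ⋃ k : ℕ, {p | s * (1 / 2) ^ k / 2 < ‖tx p‖ ∧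
    ‖tx p‖ ≤ s * (1 / 2) ^ k ∧ p o ≤ 1}) fun p hp => ?_).trans ((measure_union_le _ _).trans ?_)
  · refine (em (tx p = 0)).imp id fun k => ?_
    obtain ⟨n, h1, h2⟩ := exists_nat_pow_near_of_lt_one (div_pos (norm_pos_iff.2 k) hs)
      ((div_le_one hs).2 hp.1) one_half_pos one_half_lt_one
    rw [lt_div_iff₀ hs] at h1
    rw [div_le_iff₀ hs] at h2
    exact mem_iUnion.2 ⟨n, by rw [pow_succ] at h1; linarith, by linarith, hp.2⟩
  rw [(b.bas.ker ψ h0).2.2.1, zero_add]
  refine (measure_iUnion_le _).trans ((ENNReal.tsum_le_tsum fun k => (Measure.le_add_right le_rfl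
    _).trans (hC _ (by positivity))).trans_eq ?_)
  rw [← ENNReal.ofReal_tsum_of_nonneg (fun k => by positivity)
    ((summable_geometric_two.mul_left s).mul_left C), tsum_mul_left, tsum_mul_left,
    tsum_geometric_two]
  ring_nf

end Vale.Agent.P352X.ZZ.TPD

end
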