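import Vale.Agent.P352Z.TPD.Ten
import Vale.Agent.P352X.TPD.LIM

/-!
# P352Z, block TPD: rows KILL and LIM with logarithms (helper18)
-/

set_option linter.all false

open MeasureTheory Filter Topology
open scoped SchwartzMap ComplexConjugate ENNReal ContDiff

namespace Vale.Agent.P352X.ZZ.TPD

open Vale.Agent.P352 Vale.Agent.P352.GF Vale.Agent.P352.BW Vale.Agent.P352.H246
open Vale.Agent.P352.H496 Vale.Agent.P352.H755 Vale.Agent.P352.H15
open Vale.Agent.P352X.TPD (cs pf)
open UniformSpace (Completion)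

noncomputable section

variable {D : Type*} [NormedAddCommGroup D] [InnerProductSpace ℂ D] {c : Ctx D}

namespace Lim

export Vale.Agent.P352X.TPD.Lim (exists_lim Ps)

lemma poly_geo (j : ℕ) (l t : ℝ) {q q' : ℝ} (h0 : 0 ≤ q) (h1 : q < q') :
    ∃ C, 0 ≤ C ∧ ∀ N : ℕ, |l + N * t| ^ j * q ^ N ≤ C * q' ^ N := by
  have p := h0.trans_lt h1
  have r0 := div_nonneg h0 p.le
  obtain ⟨B, hB⟩ := (tendsto_pow_const_mul_const_pow_of_abs_lt_one j (r := q / q')
    (by rw [abs_of_nonneg r0]; exact (div_lt_one p).2 h1)).bddAbove_range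
  have hb := fun N => hB (Set.mem_range_self N)
  have B0 : 0 ≤ B := le_trans (by positivity) (hb 0)
  refine ⟨|l| ^ j + (|l| + |t|) ^ j * B, by positivity, fun N => ?_⟩
  rcases Nat.eq_zero_or_pos N with rfl | hN
  · simp only [Nat.cast_zero, zero_mul, add_zero, pow_zero, mul_one, le_add_iff_nonneg_right]
    positivity
  have hN' : (1 : ℝ) ≤ N := by exact_mod_cast hN
  have e : |l + N * t| ≤ (|l| + |t|) * N := (abs_add_le _ _).trans (by
    rw [abs_mul, Nat.abs_cast]
    nlinarith [abs_nonneg l])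
  calc _ ≤ ((|l| + |t|) * N) ^ j * q ^ N := by gcongr
    _ = (|l| + |t|) ^ j * (N ^ j * (q / q') ^ N) * q' ^ N := by
      rw [div_pow, mul_pow]
      field_simp
    _ ≤ (|l| + |t|) ^ j * B * q' ^ N := by gcongr; exact hb N
    _ ≤ _ := by gcongr; exact le_add_of_nonneg_left (by positivity)

lemma ani_pow (b : B0 c) (A : ANI c) {σ : ℝ} {K : Set V} {x : TT D} {r s : ℝ} (h1 : TC c x)
    (h2 : Loc c σ K x) (h3 : Bornology.IsBounded K) (r0 : 0 < r) (r1 : r < 1) (s0 : 0 < s)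
    (s1 : s < 1) : ∃ (m : ℕ) (C : ℝ), ∀ N f, ‖(act c (Real.sqrt (r * s)) (Lsc r s))^[N] x f‖ ≤
      C * ((r * s) ^ (-(15 / 8 : ℝ))) ^ N * sn m f := by
  obtain ⟨m, C, h⟩ := A σ K x r s h1 h2 h3 r0 r1 s0 s1
  obtain ⟨hL, hs, -⟩ := b.ten.lsc r s r0 s0
  have e : ∀ N f, ‖(act c (Real.sqrt (r * s)) (Lsc r s))^[N] x f‖ =
      ‖x ((pS (Real.sqrt (r * s)) (Lsc r s))^[N] f)‖ ∧
      ∀ z, (pS (Real.sqrt (r * s)) (Lsc r s))^[N] f z = f (scp (r ^ N) (s ^ N) z) := fun N => by
    induction N with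
    | zero => simp
    | succ N ih =>
      refine fun f => ⟨?_, fun z => ?_⟩
      · rw [Function.iterate_succ_apply', b.ba.nrm, (ih _).1, Function.iterate_succ_apply]
      · rw [Function.iterate_succ_apply, (ih _).2, pS_apply (by positivity) hL, hs,
          scp_scp _ r0.le s0.le, pow_succ', pow_succ']
  exact ⟨m, C, fun N f => (e N f).1.trans_le (h N f _ (e N f).2)⟩

/-- the anisotropic bound for logarithmic families -/
lemma ani_log (b : B0 c) (A : ANI c) {σ : ℝ} {K : Set V} {n : ℕ} {x : ℝ → TT D} {r s a q : ℝ}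
    (p : PL n x) (h1 : ∀ l, TC c (x l)) (h2 : ∀ l, Loc c σ K (x l)) (h3 : Bornology.IsBounded K)
    (r0 : 0 < r) (r1 : r < 1) (s0 : 0 < s) (s1 : s < 1) (a0 : 0 ≤ a)
    (hq : a * (r * s) ^ (-(15 / 8 : ℝ)) < q) (l t : ℝ) : ∃ (m : ℕ) (C : ℝ), ∀ (N : ℕ) f,
      ‖(a ^ N • (act c (Real.sqrt (r * s)) (Lsc r s))^[N] (x (l + N * t))) f‖ ≤
        C * q ^ N * sn m f := by
  have q0 : 0 ≤ a * (r * s) ^ (-(15 / 8 : ℝ)) := by positivity
  choose m C hC using fun j => ani_pow b A (x := PL.cf n x j)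
    (tc_sum b.ba _ fun i => b.ba.tc_smul _ _ (h1 i))
    (loc_sum b.ba _ fun i => b.ba.loc_smul _ _ _ _ (h2 i)) h3 r0 r1 s0 s1
  choose C' C0 hC' using fun j => poly_geo j l t q0 hq
  refine ⟨(Finset.range (n + 1)).sup m, ∑ j ∈ Finset.range (n + 1), |C j| * C' j, fun N f => ?_⟩
  rw [p.eq, ← Module.End.pow_apply, map_sum, Finset.smul_sum, ContinuousLinearMap.sum_apply,
    Finset.sum_mul, Finset.sum_mul]
  refine norm_sum_le_of_le _ fun j hj => ?_
  have s0 := Lie.sn_nonneg (m j) f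
  have s1 : sn (m j) f ≤ sn ((Finset.range (n + 1)).sup m) f := by
    simp only [Api4.sn_eq]
    exact ST.sn_mono (Finset.le_sup hj) f
  rw [map_smul, ContinuousLinearMap.smul_apply, ContinuousLinearMap.smul_apply, norm_smul,
    norm_smul, Module.End.pow_apply, Real.norm_of_nonneg (pow_nonneg a0 N), norm_pow,
    Real.norm_eq_abs]
  calc _ ≤ a ^ N * (|l + N * t| ^ j * (|C j| * ((r * s) ^ (-(15 / 8 : ℝ))) ^ N * sn (m j) f)) := by
        gcongr
        exact (hC j N f).trans (by gcongr; exact le_abs_self _)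
    _ = |C j| * (|l + N * t| ^ j * (a * (r * s) ^ (-(15 / 8 : ℝ))) ^ N) * sn (m j) f := by
        rw [mul_pow]
        ring
    _ ≤ |C j| * (C' j * q ^ N) * sn ((Finset.range (n + 1)).sup m) f := by
        have := C0 j
        have := (q0.trans hq.le)
        exact mul_le_mul (mul_le_mul_of_nonneg_left (hC' j N) (abs_nonneg _)) s1 s0 (by positivity)
    _ = _ := by ring

variable (b : B0 c) {K : ℕ} {w : ℝ → WW D} (hw : Src c K w) {S : V → Tn (Fin 4)} (hS : ContDiff ℝ ∞ S)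
include b hw hS

lemma ok (η η' : EC) : Ok (cs (η.1 - η'.1) S) ∧
    tsupport (cs (η.1 - η'.1) S) ⊆ tsupport η.1 ∪ tsupport η'.1 :=
  have h := b.ten.okc _ S (b.ten.ec η η').1 (b.ten.ec η η').2 hS
  ⟨h.1, h.2.trans (tsupport_sub _ _)⟩

lemma ps_add (l : ℝ) (η η' η'' : EC) : Ps (w l) S η η' + Ps (w l) S η' η'' = Ps (w l) S η η'' := by
  rw [P352X.TPD.Lim.Ps, P352X.TPD.Lim.Ps, ← (b.bp K w hw).add l _ _ (ok b hw hS _ _).1 (ok b hw hS _ _).1]
  congr 1
  funext u
  simp only [cs, Pi.add_apply, Pi.sub_apply, ← add_smul, sub_add_sub_cancel]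

lemma ps_tc (l : ℝ) (η η' : EC) : TC c (Ps (w l) S η η') := (b.bp K w hw).tc l _ (ok b hw hS _ _).1

lemma ps_loc (l : ℝ) {σ : ℝ} (hσ : σ * σ = 1) (he : ∀ u, S (-u) = σ • S u) (η η' : EC) :
    Loc c σ (tsupport η.1 ∪ tsupport η'.1) (Ps (w l) S η η') :=
  b.ba.loc_mono _ _ _ _ (ok b hw hS _ _).2 ((b.bp K w hw).loc l σ _ hσ (ok b hw hS _ _).1 fun u => by
    simp only [cs, Pi.sub_apply, η.2.2, η'.2.2, he, smul_comm σ])

lemma ps_cov (l : ℝ) {s κ : ℝ} {L : Ix → V} (hs : 0 < s) (hL : IsLor L) (h : pf s L S = κ • S) (η η' : EC) :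
    κ • act c s L (Ps (w (l + Real.log s)) S (η.pull s L) (η'.pull s L)) = Ps (w l) S η η' := by
  rw [← map_smul, P352X.TPD.Lim.Ps, ← (b.bp K w hw).smul _ _ _ (ok b hw hS _ _).1, P352X.TPD.Lim.Ps,
    ← (b.bp K w hw).cov l s L _ hs hL (ok b hw hS η η').1]
  congr 2
  funext u
  have := congrFun h u
  simp only [pf, Pi.smul_apply] at this
  simp only [pf, cs, Pi.smul_apply, Pi.sub_apply, map_smul, this, P352X.TPD.EC.pull_apply _ hs hL,
    smul_comm κ]

end Lim

open Lim

/-- **Row KILL.** -/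
theorem kill_row (c : Ctx D) (b : B0 c) (A : ANI c) : KILL c := by
  intro σ y r s a h1 h2 r0 r1 s0 s1 h ha
  obtain ⟨m, C, hC⟩ := ani_pow b A h1 h2 Bornology.isBounded_empty r0 r1 s0 s1
  have h0 : 0 < (r * s) ^ (-(15 / 8 : ℝ)) := by positivity
  have e : ∀ N, (act c (Real.sqrt (r * s)) (Lsc r s))^[N] y = a ^ N • y := fun N => by
    induction N with
    | zero => simp
    | succ N ih => rw [Function.iterate_succ_apply', ih, map_smul, h, smul_smul, pow_succ]
  refine ContinuousLinearMap.ext fun f => norm_le_zero_iff.1 ?_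
  have t := (tendsto_pow_atTop_nhds_zero_of_lt_one (div_pos h0 (h0.trans ha)).le
    ((div_lt_one (h0.trans ha)).2 ha)).const_mul (C * sn m f)
  rw [mul_zero] at t
  refine ge_of_tendsto' t fun N => ?_
  have := hC N f
  rw [e, ContinuousLinearMap.smul_apply, norm_smul, Real.norm_of_nonneg (pow_pos (h0.trans ha) N).le,
    ← le_div_iff₀' (pow_pos (h0.trans ha) N)] at this
  rw [div_pow, ← mul_div_assoc, mul_right_comm]
  exact this

/-- **Row LIM.** -/
theorem lim_row (c : Ctx D) (b : B0 c) (A : ANI c) : LIM c := by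
  intro K w hw σ S r s a hσ hS he r0 r1 s0 s1 h a0 ha
  obtain ⟨hL, hg, -⟩ := b.ten.lsc r s r0 s0
  obtain ⟨hL', hg', -⟩ := b.ten.lsc r⁻¹ s⁻¹ (inv_pos.2 r0) (inv_pos.2 s0)
  have l0 : 0 < Real.sqrt (r * s) := by positivity
  have l0' : 0 < Real.sqrt (r⁻¹ * s⁻¹) := by positivity
  set P : EC → EC := fun η => η.pull (Real.sqrt (r⁻¹ * s⁻¹)) (Lsc r⁻¹ s⁻¹) with hP
  have i1 : ∀ z, scp r⁻¹ s⁻¹ (scp r s z) = z := fun z => by
    rw [scp_scp _ (inv_pos.2 r0).le (inv_pos.2 s0).le, inv_mul_cancel₀ r0.ne',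
      inv_mul_cancel₀ s0.ne', scp_one]
  have i2 : ∀ z, scp r s (scp r⁻¹ s⁻¹ z) = z := fun z => by
    rw [scp_scp _ r0.le s0.le, mul_inv_cancel₀ r0.ne', mul_inv_cancel₀ s0.ne', scp_one]
  have p0 : ∀ η u, (P η).1 u = η.1 (scp r⁻¹ s⁻¹ u) := fun η u => by
    rw [hP, P352X.TPD.EC.pull_apply _ l0' hL', hg']
  have p1 : ∀ η η' (N : ℕ) l, Ps (w l) S (P^[N] η) (P^[N] η') = a ^ N •
      (act c (Real.sqrt (r * s)) (Lsc r s))^[N]
        (Ps (w (l + N * Real.log (Real.sqrt (r * s)))) S η η') := fun η η' N => by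
    have e : ∀ η, (P η).pull (Real.sqrt (r * s)) (Lsc r s) = η := fun η =>
      Subtype.ext (funext fun u => by rw [P352X.TPD.EC.pull_apply _ l0 hL, hg, p0, i1])
    induction N with
    | zero => simp
    | succ N ih =>
      intro l
      simp only [Function.iterate_succ_apply']
      rw [← ps_cov b hw hS l l0 hL h, e, e, ih, map_smul, smul_smul, pow_succ', Nat.cast_succ,
        add_one_mul, add_assoc, add_comm (Real.log _)]
  obtain ⟨q, hq, ha⟩ := exists_between ha
  have q0 : 0 ≤ q := le_trans (by positivity) hq.le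
  have p2 : ∀ l (η η' : EC), ∃ (m : ℕ) (C : ℝ), ∀ N f, ‖Ps (w l) S (P^[N] η) (P^[N] η') f‖ ≤
      C * q ^ N * sn m f := fun l η η' => by
    simp only [p1]
    exact ani_log b A ((b.bp K w hw).pl _) (fun l => ps_tc b hw hS l η η')
      (fun l => ps_loc b hw hS l hσ he η η') (η.2.1.1.2.union η'.2.1.1.2).isBounded r0 r1 s0 s1
      a0 hq l _
  have p3 : ∀ l (η : EC), ∃ y : TT D, ∀ f,
      Tendsto (fun N => Ps (w l) S η (P^[N] η) f) atTop (𝓝 (y f)) := fun l η => by
    obtain ⟨m, C, hC⟩ := p2 l η (P η)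
    refine exists_lim (fun N => Ps (w l) S η (P^[N] η)) (C := C) (m := m) q0 ha fun N f => ?_
    rw [← ps_add b hw hS l η (P^[N] η) (P^[N + 1] η), ContinuousLinearMap.add_apply,
      add_sub_cancel_left, Function.iterate_succ_apply]
    exact hC N f
  choose x hx using p3
  have p4 : ∀ (η : EC) N, tsupport (P^[N] η).1 ⊆ scp (r ^ N) (s ^ N) '' tsupport η.1 := fun η N => by
    induction N with
    | zero => simp
    | succ N ih =>
      intro u hu
      rw [Function.iterate_succ_apply'] at hu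
      obtain ⟨v, hv, e⟩ := ih ((b.ten.pull _ _ 1 _ _ l0' one_pos hL' hL').2.2 ▸
        Set.mem_image_of_mem _ hu)
      refine ⟨v, hv, ?_⟩
      rw [pow_succ', pow_succ', ← scp_scp _ r0.le s0.le, e, hg', i2]
  refine ⟨x, ⟨fun l η => ⟨fun y f => ?_, fun f => ?_⟩, fun l η => ?_, fun l η η' => ?_,
    fun η => PL.clm fun f => PL.lim (fun N => ((b.bp K w hw).pl _).app f) fun l => hx l η f⟩,
    fun s' L κ hs' hL1 hc hκ => funext₂ fun l η => ContinuousLinearMap.ext fun f => ?_⟩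
  · refine tendsto_nhds_unique (((Ut c.Q y).continuous.tendsto _).comp (hx l η f)) ?_
    simpa only [Function.comp_def, (ps_tc b hw hS l _ _).tra] using hx l η (ST.tsl y f)
  · refine tendsto_nhds_unique (tendsto_const_nhds.inner (hx l η f)) ?_
    simpa only [(ps_tc b hw hS l _ _).perp] using tendsto_const_nhds
  · refine b.ba.loc_lim σ _ _ _ (hx l η) fun ε hε => ?_
    have hc : Continuous fun z : (ℝ × ℝ) × V => scp z.1.1 z.1.2 z.2 := by
      unfold scp
      fun_prop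
    have t := ((tendsto_pow_atTop_nhds_zero_of_lt_one r0.le r1).prodMk_nhds
      (tendsto_pow_atTop_nhds_zero_of_lt_one s0.le s1)).eventually
        (η.2.1.1.2.isCompact.eventually_forall_of_forall_eventually
          (P := fun (t : ℝ × ℝ) z => scp t.1 t.2 z ∈ Metric.ball 0 ε) fun z _ =>
            (hc.tendsto' ((0, 0), z) 0 (null_ext (by simp) (by simp) (by simp))).eventually
              (Metric.ball_mem_nhds 0 hε))
    refine t.mono fun N hN => b.ba.loc_mono _ _ _ _ (Set.union_subset_union_right _ ?_)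
      (ps_loc b hw hS l hσ he η _)
    refine (p4 η N).trans ?_
    rintro _ ⟨v, hv, rfl⟩
    exact hN v hv
  · refine ContinuousLinearMap.ext fun f => tendsto_nhds_unique ((hx l η f).sub (hx l η' f)) ?_
    obtain ⟨m, C, hC⟩ := p2 l η η'
    have t := ((tendsto_pow_atTop_nhds_zero_of_lt_one q0 ha).const_mul C).mul_const (sn m f)
    rw [mul_zero, zero_mul] at t
    have t2 := (squeeze_zero_norm (fun N => hC N f) t).const_sub (Ps (w l) S η η' f)
    rw [sub_zero] at t2
    refine t2.congr fun N => ?_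
    have := (ps_add b hw hS l η (P^[N] η) (P^[N] η')).trans
      (ps_add b hw hS l η η' (P^[N] η')).symm
    rw [sub_eq_sub_iff_add_eq_add, ← ContinuousLinearMap.add_apply, ← this,
      ContinuousLinearMap.add_apply]
  · have e : ∀ N, P^[N] (η.pull s' L) = (P^[N] η).pull s' L := fun N => by
      induction N with
      | zero => rfl
      | succ N ih =>
        simp only [Function.iterate_succ_apply', ih]
        refine Subtype.ext (funext fun u => ?_)
        have e1 : ∀ z, sim s' L 0 z = s' • sim 1 L 0 z := fun z => funext fun n => by simp [sim]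
        have e2 := hc (scp r⁻¹ s⁻¹ u)
        rw [i2] at e2
        rw [p0, P352X.TPD.EC.pull_apply _ hs' hL1, P352X.TPD.EC.pull_apply _ hs' hL1, p0, e1, e1 u, e2,
          ← scpL_apply (s' • _), map_smul, scpL_apply, i1]
    refine tendsto_nhds_unique ((((Ug c.Q s' L 0).continuous.tendsto _).comp
      (hx (l + Real.log s') (η.pull s' L) (pS s' L f))).const_smul κ) ((hx l η f).congr fun N => ?_)
    rw [← ps_cov b hw hS l hs' hL1 hκ, ← e, ContinuousLinearMap.smul_apply, act_apply,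
      Function.comp_apply]

end

end Vale.Agent.P352X.ZZ.TPD
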