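import Vale.Agent.P352Z.TPD.Wire
import Vale.Agent.P352Z.TPD.COMB
import Vale.Agent.P352Z.TPD.EQ
import Vale.Agent.P352Z.TPD.INV

/-!
# P352Z, block TPD: the time ordered products exist (helper18)
-/

set_option linter.all false

namespace Vale.Agent.P352X.ZZ.TPD

variable {D : Type*} [NormedAddCommGroup D] [InnerProductSpace ℂ D]

theorem rows_thm (c : Ctx D) : Rows c := rows_of c comb_row eq1_row eq2_row inv_row

/-- **time ordered products of logarithmic families** -/
theorem tpl_thm (c : Ctx D) (t : T3 c) : TPL c := (rows_thm c).tpl t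

/-- **time ordered products of the canonical tensor** -/
theorem tpd_thm (c : Ctx D) [Fact c.can] (t : T3 c) : ∃ wp wm t, TP c.Q c.T wp wm t :=
  (rows_thm c).tpd t

end Vale.Agent.P352X.ZZ.TPD
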