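import Vale.Agent.P352Z.TPD.Bp2

/-!
# P352Z, block TPD: rows ODD and AQ (helper27)
-/

set_option linter.all false

open MeasureTheory Filter Topology
open scoped SchwartzMap ComplexConjugate ENNReal ContDiff LineDeriv

namespace Vale.Agent.P352X.ZZ.TPD

open Vale.Agent.P352 Vale.Agent.P352.GF Vale.Agent.P352.BW Vale.Agent.P352.H246
open Vale.Agent.P352.H496 Vale.Agent.P352.H755 Vale.Agent.P352.H15
open UniformSpace (Completion)

noncomputable section

namespace Od

open Bp Tn4

lemma iter_hom {a : V → ℂ} (ha : ContDiff ℝ ∞ a) {k j : ℕ} (h2 : ∀ u, a ((2 : ℝ) • u) = 2 ^ k * a u)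
    (h : j ≠ k) : iteratedFDeriv ℝ j a 0 = 0 := by
  have h1 := congrFun (iteratedFDeriv_comp_const_smul (2 : ℝ) (ha.of_le (ST.le_inf j))) 0
  rw [show (fun z => a ((2 : ℝ) • z)) = fun z => ((2 : ℝ) ^ k) • a z from
    funext fun z => by rw [h2]; simp, iteratedFDeriv_const_smul_apply'
      (ha.of_le (ST.le_inf j)).contDiffAt, smul_zero, ← sub_eq_zero, ← sub_smul] at h1
  exact (smul_eq_zero.1 h1).resolve_left (sub_ne_zero.2 fun a =>
    h (pow_right_injective₀ two_pos (by norm_num) a).symm)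

/-- the odd part under the exchange of the points -/
def od : S2 →L[ℂ] S2 := .id ℂ S2 - Str.sw

lemma od_apply (F : S2) (x y : V) : od F (x, y) = F (x, y) - F (y, x) := rfl

lemma pol_two (h : Tn (Fin 4 ⊕ Fin 2)) (u : V) : pol h ((2 : ℝ) • u) = (2 : ℝ) ^ 2 • pol h u := by
  funext ν
  simp only [P352X.TPD.pol, Pi.smul_apply, smul_eq_mul, Fin.prod_univ_two, Finset.mul_sum]
  exact Finset.sum_congr rfl fun _ _ => by ring

lemma vj (η : EC) (h : Tn (Fin 4 ⊕ Fin 2)) (ν : Fin 4 → Ix) (f : Sch) :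
    Vj 3 (od (Api4.ten2 (e fun u => cs η.1 (pol h) u ν) f)) := fun k hk γ =>
  SchwartzMap.ext fun z => by
    have sm := ten_thm.smooth _ _ h
    have t := ts_cs η.2.1.1 sm.1 ν
    have s1 : ContDiff ℝ ∞ fun u => (pol h u ν : ℂ) :=
      Complex.ofRealCLM.contDiff.comp (contDiff_pi.1 sm.1 ν)
    have h1 := norm_iteratedFDeriv_mul_le s1 (g := fun u => (η.1 u : ℂ) * (f z - f (z + u)))
      ((Complex.ofRealCLM.contDiff.comp η.2.1.1.1).mul (contDiff_const.sub ((f.smooth ⊤).comp
        (by fun_prop)))) 0 (ST.le_inf k)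
    rw [Finset.sum_eq_zero fun i hi => ?_, norm_le_zero_iff] at h1
    · rw [P352Y.jet_eq, show (fun u => od (Api4.ten2 (e fun u => cs η.1 (pol h) u ν) f) (z + u, z)) =
        _ from funext fun u => ?_, h1]
      · rfl
      · rw [od_apply, ten_e t, ten_e t]
        simp [P352X.TPD.cs, η.2.2, sm.2]
        ring
    · by_cases e : i = 2
      · rw [show k - i = 0 by omega]
        simp
      · rw [iter_hom s1 (k := 2) (fun u => by simp [pol_two]) e]
        simp

end Od

variable {D : Type*} [NormedAddCommGroup D] [InnerProductSpace ℂ D]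

open Od Bp Tn4 in
/-- **row ODD** -/
theorem odd_row (c : Ctx D) : B0 c → A3 c → FU c → ODD c := fun b a3 fu K w S => by
  obtain ⟨v, F⟩ := fu K w 3 S (a3 K w S)
  have T := ten_thm
  have P := b.bp K w S
  let v' : ℝ → WW D := fun l I J => v l I J ∘L od
  have sm := fun h : Tn (Fin 4 ⊕ Fin 2) => T.smooth _ _ h
  have ts := fun (η : EC) h => ts_cs η.2.1.1 (sm h).1
  have cv : ∀ l s L a (η : EC) h (f g : Sch) (hs : 0 < s) (hL : IsLor L),
      (∀ x, g x = f (sim s L a x)) → Ug c.Q s L a (psi (v' (l + Real.log s))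
        (s ^ 2 • cs (η.pull s L).1 (pol (pb L h))) g) = psi (v' l) (cs η.1 (pol h)) f :=
    fun l s L a η h f g hs hL e => by
      have e1 : pf s L (cs η.1 (pol h)) = s ^ 2 • cs (η.pull s L).1 (pol (pb L h)) := by
        funext u
        have := congrFun (T.pol _ 2 s L h) u
        simp only [P352X.TPD.pf, P352X.TPD.cs, map_smul, Pi.smul_apply,
          P352X.TPD.EC.pull_apply _ hs hL] at this ⊢
        rw [this, smul_comm]
      rw [← e1]
      refine cov' a hs hL (ts η h) (e1 ▸ fun ν => ⟨contDiff_const.mul (ts _ _ ν).1,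
        (ts _ _ ν).2.mul_left⟩) f g e fun I J G hG => ?_
      exact F.cov l s L a I J _ (od G) hs hL (vj η h _ f) fun x y => by
        rw [od_apply, hG, hG]; rfl
  refine ⟨⟨⟨fun h l η => psi (v' l) (cs η.1 (pol h)), fun h h' => funext₂ fun l η => ?_⟩,
    fun t h => funext₂ fun l η => ?_⟩, fun h => ⟨fun l η => ⟨fun a f => ?_, fun f => ?_⟩,
      fun l η => ?_, fun l η η' => ?_, 
      fun η => Bp.pl (w := v') (fun I J => PL.clm fun G => (F.pl I J).app (od G)) _⟩,
    fun s L h hs hL => funext₂ fun l η => ?_⟩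
  · rw [(T.add _ _ 0 h h').1, Pi.add_apply, Pi.add_apply, ← Bp.add (ts η h) (ts η h')]
    exact congrArg _ (funext fun u => smul_add _ _ _)
  · simp only [Pi.smul_apply, RingHom.id_apply]
    rw [(T.add _ _ t h h).2, ← Bp.smul t (ts η h)]
    exact congrArg _ (funext fun u => smul_comm (η.1 u) t (pol h u))
  · have := cv l 1 GF.one a η h (ST.tsl a f) f one_pos H496.isLor_one fun x => by
      rw [ST.tsl_apply, sim_ut, add_sub_cancel_right]
    simp only [T.one, (T.pull η 1 1 _ _ one_pos one_pos H496.isLor_one H496.isLor_one).2.1,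
      one_pow, one_smul, Real.log_one, add_zero] at this
    exact this
  · simp [psi_apply, inner_sum, v', F.perp]
  · refine b.ba.loc_mono _ (tsupport (cs η.1 (pol h))) _ (psi (v' l) (cs η.1 (pol h)))
      (tsupport_smul_subset_left η.1 (pol h)) (loc' (ts η h) (fun u => by
        rw [P352X.TPD.cs, P352X.TPD.cs, η.2.2, (sm h).2, smul_comm])
        fun a b y I J f G' ha hb hab h1 h2 h3 => ?_)
    have s1 := h1.comp_homeomorph (Homeomorph.prodComm V V)
    refine F.loc l a b y I J _ (od G') ha hb hab (vj η h _ f) (h1.sub s1) ((tsupport_sub _ _).trans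
      (Set.union_subset h2 fun z hz => ?_)) fun x z => by rw [od_apply, h3, h3]; rfl
    have := h2 (P352Y.tsupport_sw _ hz)
    exact ⟨this.2, this.1⟩
  · have E := T.ec η η'
    have s2 := sm_lin swp (sm h).1
    have e1 : cs η.1 (pol h) = cs (η.1 - η'.1) (pol h) + cs η'.1 (pol h) :=
      funext fun u => by simp [P352X.TPD.cs, sub_smul]
    have e2 : cs (η.1 - η'.1) (pol h) = (cs (η.1 - η'.1) fun u => pol h u - swp (pol h u)) +
        cs (η.1 - η'.1) fun u => swp (pol h u) := funext fun u => by simp [P352X.TPD.cs, smul_sub]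
    change psi _ _ - psi _ _ = _
    rw [e1, Bp.add (ts_cs E.1 (sm h).1) (ts η' h), add_sub_cancel_right, eq_comm,
      ← add_left_inj (psi (w l) (cs (η.1 - η'.1) fun u => swp (pol h u))),
      ← Bp.add (ts_cs E.1 ((sm h).1.sub s2)) (ts_cs E.1 s2), ← e2]
    ext f
    simp only [psi_apply, ContinuousLinearMap.add_apply]
    rw [Finset.sum_comm (f := fun I J => w l I J (Api4.ten2 (e fun u => cs _ (fun u => swp _) u _) f))]
    simp only [← Finset.sum_add_distrib]
    refine Finset.sum_congr rfl fun I _ => Finset.sum_congr rfl fun J _ => ?_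
    have o := ok_offD (okc T η η' (sm h).1) (q I J) f
    have o' := P352Y.OffD.sw o
    simp only [v', od, ContinuousLinearMap.comp_apply, ContinuousLinearMap.sub_apply,
      ContinuousLinearMap.id_apply, map_sub]
    rw [F.off l I J _ o, F.off l I J _ o', S.swap l J I _ (Str.sw (Api4.ten2 (e fun u =>
      cs (η.1 - η'.1) (pol h) u (q I J)) f)) fun _ _ => rfl, sub_add_cancel]
  · ext f
    change s ^ 2 • Ug c.Q s L 0 (psi _ _ _) = _
    rw [← ContinuousLinearMap.map_smul_of_tower, ← ContinuousLinearMap.smul_apply,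
      ← Bp.smul _ (ts _ _)]
    exact cv l s L 0 η h f _ hs hL (pS_apply hs hL f)

open Tn4 in
/-- **row AQ** -/
theorem aq_row (c : Ctx D) : B0 c → EQ2 → ODD c → AQ c := by
  rintro b ⟨σ1, σB, τ, od, lam, cv, eq⟩ odd K w S
  have T := ten_thm
  have P := b.bp K w S
  have s1 := fun h => sm_dA a1 (T.smooth _ _ (σ1 h)).1
  have s2 := fun h => sm_dA aB (T.smooth _ _ (σB h)).1
  have s3 := fun h => (T.smooth _ _ (τ h)).1
  have s4 := fun h => (T.smooth _ _ (od h)).1
  refine ⟨lam, fun L h hL => (cv L h hL).2.2.2, ?_⟩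
  have := (((((P.gA _ a1 2 eqv_a1 P.c1).comp σ1 fun L h hL => (cv L h hL).1).add P
    ((P.gA _ aB 2 eqv_aB P.cB).comp σB fun L h hL => (cv L h hL).2.1) s1 s2).add P
      (Cv.tr P _ s3) (fun h => (s1 h).add (s2 h)) fun h => sm_lin e1 (s3 h)).add P
        ((odd K w S).comp od fun L h hL => (cv L h hL).2.2.1)
          (fun h => ((s1 h).add (s2 h)).add (sm_lin e1 (s3 h))) fun h =>
            (s4 h).sub (sm_lin swp (s4 h)))
  exact (funext₂ fun h u => sub_eq_of_eq_add (eq h u) : _ = _) ▸ this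

end

end Vale.Agent.P352X.ZZ.TPD
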