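import Vale.Agent.P352Z.TPD.Spec
import Vale.Agent.P352Z.Api1C
import Vale.Agent.P352Z.SG.Pot
import Vale.Agent.P352X.TPD.POT

/-!
# P352Z, block TPD: rows HMU, DL0, MUL, POT (ports, helper40)
-/

set_option linter.all false

open MeasureTheory Filter Topology
open scoped SchwartzMap ComplexConjugate ENNReal ContDiff

namespace Vale.Agent.P352X.ZZ.TPD

open Vale.Agent.P352 Vale.Agent.P352.GF Vale.Agent.P352.BW Vale.Agent.P352.H246
open Vale.Agent.P352.H496 Vale.Agent.P352.H755 Vale.Agent.P352.H15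
open UniformSpace (Completion)
open Complex (I)

noncomputable section

variable {D : Type*} [NormedAddCommGroup D] [InnerProductSpace ℂ D]

/-- **row HMU** -/
theorem hmu_row (c : Ctx D) (b : B0 c) : HMU c := fun _ _ _ _ _ _ ha ha' hp hb hP =>
  Sg.hmu b.jc ha ha' hp hb hP

namespace Dl0

/-- the mean ergodic theorem along a null ray -/
lemma erg (c : Ctx D) (g : GRP c) {a : V} (ha : IsNull a) {v : Completion D}
    (hv : inner ℂ c.Om v = 0) : Tendsto (fun t : ℝ => ∫ y in (0 : ℝ)..1,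
      (Ut c.Q ((t * y) • a) v - v)) atTop (𝓝 (-v)) := by
  have h := Kin.thin c.bR c.ct c.bV volume (ContinuousLinearMap.toSpanSingleton ℝ a) (x := 1)
    (.inl (by simpa using ha)) (u := (Set.Ioc (0 : ℝ) 1).indicator 1)
    ((integrable_indicator_iff measurableSet_Ioc).2 (integrableOn_const (by simp))) v
  rw [show inner ℂ (om c.Q) v = 0 from hv, zero_smul, smul_zero] at h
  have h1 := h.sub_const v
  rw [zero_sub] at h1
  refine h1.congr fun t => ?_
  rw [intervalIntegral.integral_sub ((g.ut_cont (by fun_prop) continuous_const).intervalIntegrable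
    _ _) (by simp), intervalIntegral.integral_const, sub_zero, one_smul,
    intervalIntegral.integral_of_le zero_le_one, ← integral_indicator measurableSet_Ioc]
  congr 2 with y
  by_cases hy : y ∈ Set.Ioc (0 : ℝ) 1 <;> simp [hy, Br.Ut_apply]

lemma th_rsmul (c : Ctx D) (r : ℝ) (z : Completion D) : Th c (r • z) = r • Th c z := by
  rw [← Complex.coe_smul, map_smulₛₗ, Complex.conj_ofReal, Complex.coe_smul]

end Dl0

/-- **row DL0** -/
theorem dl0_row (c : Ctx D) (b : B0 c) : DL0 c := by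
  intro σ K x hx h a a' y f ha ha' haa hf h1 h2
  have g := b.grp
  have G := g.ugT a
  have hp := (h a a a' y f ha ha' haa hf h1 h2).neg
  set W : ℝ → Completion D →L[ℂ] Completion D := fun t => Ut c.Q (t • a) with hW
  have eT : ∀ t z, W t (Th c z) = Th c (W (-t) z) := fun t z => by
    have := b.ba.th_ug 1 _ ((-t) • a) z one_pos H496.isLor_one
    rw [neg_smul, neg_neg] at this
    simpa only [hW, Ut, neg_smul] using this.symm
  have g1 := b.ba.tc_gn a x f hx
  have g2 : Gn W (σ • Th c (x (ng f))) (σ • -I • Th c (x (KDa.dS a (ng f)))) := by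
    refine Gn.rsmul σ ?_
    let A : Completion D →L[ℝ] Completion D :=
      ⟨⟨⟨Th c, map_add _⟩, Dl0.th_rsmul c⟩, (Th c).continuous⟩
    have := A.hasFDerivAt.comp_hasDerivAt (0 : ℝ) (HasDerivAt.scomp_of_eq (0 : ℝ)
      (b.ba.tc_gn a x (ng f) hx) (hasDerivAt_neg 0) neg_zero.symm)
    refine (gn_of_hasDerivAt (this.congr_of_eventuallyEq (.of_forall fun t => eT t _))).cast rfl ?_
    rw [smul_smul I I, Complex.I_mul_I, neg_one_smul, neg_one_smul, neg_neg]
    rfl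
  have key : ∀ t, 0 ≤ t → Pr (c.N (Wdg a a' y)) c.Om (W t (x f) - x f)
      (W t (σ • Th c (x (ng f))) - σ • Th c (x (ng f))) := fun t ht => by
    have e1 := G.integral_eq g1 0 t
    have e2 := G.integral_eq g2 0 t
    rw [G.zero] at e1 e2
    rw [← e1, ← e2]
    refine Pr.intervalIntegral (((G.cont _).const_smul I).intervalIntegrable _ _)
      (((G.cont _).const_smul I).intervalIntegrable _ _) fun r hr => ?_
    rw [Set.uIoc_of_le ht] at hr
    refine (ZZ.Pr.sub_reg (hp.cov (g.uni 1 GF.one (r • a)) (g.vac _ _ _) fun X hX =>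
      (g.alg 1 _ (r • a) _ one_pos H496.isLor_one X).1 hX) ?_).cast ?_ ?_
    · rintro _ ⟨z, hz, rfl⟩
      rw [sim_ut]
      refine ⟨?_, ?_⟩
      · rw [add_sub_right_comm, md_add, md_smul, ha.1, mul_zero, add_zero]
        exact hz.1
      · rw [add_sub_right_comm, md_add, md_smul, md_comm a' a]
        exact add_pos hz.2 (mul_pos hr.1 haa)
    · rw [← map_smul, smul_smul, Complex.I_mul_I, neg_one_smul]
      rfl
    · rw [← map_smul, smul_comm I σ, I_neg_I, neg_smul, neg_neg]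
      rfl
  have p2 : inner ℂ c.Om (σ • Th c (x (ng f))) = 0 := by
    rw [← Complex.coe_smul, inner_smul_right, ← b.ba.th_om, b.ba.th_inner, ← inner_conj_symm,
      hx.perp, map_zero, mul_zero]
  have := Pr.closed ((eventually_ge_atTop (0 : ℝ)).mono fun t ht => Pr.intervalIntegral
    (((g.ut_cont (by fun_prop) continuous_const).sub continuous_const).intervalIntegrable _ _)
    (((g.ut_cont (by fun_prop) continuous_const).sub continuous_const).intervalIntegrable _ _)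
    fun r hr => key (t * r) (mul_nonneg ht (by
      rw [Set.uIoc_of_le zero_le_one] at hr
      exact hr.1.le))) (Dl0.erg c g ha (hx.perp f)) (Dl0.erg c g ha p2)
  simpa only [neg_neg] using this.neg

/-- **row MUL** -/
theorem mul_row (c : Ctx D) : B0 c → MUL c := fun b F x hx hF ⟨m, C, h⟩ => by
  have h1 : ∀ f, c.bt.Dom F (x f) ∧ ‖c.bt.Psi F (x f)‖ ≤ |C| * ST.sn V ℂ m f := fun f =>
    SN.Calc.dom_of_lintegral hF (mul_nonneg (abs_nonneg C) (apply_nonneg _ _)) (by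
      rw [mul_pow, sq_abs, ← mul_pow, ← Api4.sn_eq]
      exact h f)
  refine ⟨Wk.mkC
    { toFun := fun f => c.bt.Psi F (x f)
      map_add' := fun f g => by rw [map_add, SN.Calc.Psi_add_vec (h1 f).1 (h1 g).1]
      map_smul' := fun a f => by rw [map_smul, SN.Calc.Psi_smul_vec a (h1 f).1, RingHom.id_apply] }
    fun f => (h1 f).2, ⟨fun a f => ?_, fun f => ?_⟩, fun f => ⟨(h1 f).1, rfl⟩⟩
  · show Ut c.Q a (c.bt.Psi F (x f)) = c.bt.Psi F (x (ST.tsl a f))
    have hb : SN.Bd (SN.ch (fun p y : V => mdot p y) a) :=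
      SN.Bd.expI (by unfold GF.mdot; fun_prop)
    rw [← hx.tra, ← c.bt.Phi_ch, ← c.bt.Phi_ch, SN.Calc.Psi_Phi_comm (h1 f).1 hb]
  · show inner ℂ c.Om (c.bt.Psi F (x f)) = 0
    have h2 := (c.bt.cov_Psi c.bt SN.isPair_mdot measurable_id (A := id) (fun _ _ => rfl) (Pp c)
      (fun y => ((b.ba.pp (x f)).2.2.2.2 1 GF.one y).symm) (h1 f).1).2
    rw [(b.ba.pp (x f)).2.2.2.1 (hx.perp f)] at h2
    exact (congrArg (inner ℂ c.Om) h2).trans (b.ba.pp _).1

open SN SN.Calc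

namespace Ptr

export Vale.Agent.P352X.TPD.Ptr (P_Psi dom_ind null_of_P eq_zero_of_ae rr mm mZ mN mu_sum iv meas_iv
  norm_iv hk mK hk_bd)

variable {c : Ctx D}

lemma der2 (B : BA c) {x : TT D} (h : TC c x) (v w : V) (f : Sch) :
    c.bt.Dom (fun p => rr v p * rr w p) (x f) ∧
      x (KDa.dS v (KDa.dS w f)) = -c.bt.Psi (fun p => rr v p * rr w p) (x f) := by
  obtain ⟨d1, e1⟩ := B.tc_psi w x f h
  obtain ⟨d2, e2⟩ := B.tc_psi v x (KDa.dS w f) h
  rw [e1] at d2 e2
  have d3 : c.bt.Dom (rr v) (c.bt.Psi (rr w) (x f)) := by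
    have := d2.smul_vec I
    rwa [smul_smul, mul_neg, Complex.I_mul_I, neg_neg, one_smul] at this
  obtain ⟨d4, e4⟩ := Psi_mul d1 d3
  refine ⟨d4, ?_⟩
  rw [e2, Psi_smul_vec _ d3, smul_smul, neg_mul_neg, Complex.I_mul_I, e4, neg_one_smul]

lemma bx_psi (B : BA c) {x : TT D} (h : TC c x) (f : Sch) :
    c.bt.Dom mm (x f) ∧ x (bx f) = -c.bt.Psi mm (x f) := by
  have d := fun m => ((der2 B h (bas m 1) (bas m 1) f).1.smul (eta m : ℂ))
  rw [mu_sum]
  refine ⟨Dom.sum _ fun m _ => d m, ?_⟩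
  rw [Psi_sum _ fun m _ => d m, ← Finset.sum_neg_distrib, bx, ContinuousLinearMap.sum_apply,
    map_sum]
  refine Finset.sum_congr rfl fun m _ => ?_
  rw [ContinuousLinearMap.smul_apply, ContinuousLinearMap.map_smul_of_tower,
    ContinuousLinearMap.comp_apply, (der2 B h _ _ f).2, Psi_smul _ (der2 B h _ _ f).1, smul_neg,
    Complex.coe_smul]

lemma tc_dvg (B : BA c) {n : V → TT D} (h : ∀ v, TC c (n v)) : TC c (dvg n) :=
  Finset.sum_induction _ (TC c) B.tc_add B.tc0 fun m _ => B.tc_smul _ _ (B.tc_der _ _ (h _))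

lemma loc_dvg (B : BA c) {n : V → TT D} {σ K} (h : ∀ v, Loc c σ K (n v)) :
    Loc c (-σ) K (dvg n) :=
  Finset.sum_induction _ (Loc c (-σ) K) (B.loc_add _ _) (B.loc0 _ _) fun m _ =>
    B.loc_smul _ _ _ _ (B.loc_der _ _ _ _ (h _))

lemma tc_sub (B : BA c) {x y : TT D} (hx : TC c x) (hy : TC c y) : TC c (x - y) := by
  have := B.tc_add _ _ hx (B.tc_smul (-1) _ hy)
  rwa [neg_one_smul, ← sub_eq_add_neg] at this

lemma tc_bx (B : BA c) {x : TT D} (h : TC c x) : TC c (x ∘L bx) := by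
  have : x ∘L bx = dvg fun v => x ∘L KDa.dS v := by
    ext1 f
    simp [bx, dvg]
  rw [this]
  exact tc_dvg B fun v => B.tc_der _ _ h

lemma ae_pos (b : BAS c) {z : Completion D} (h : inner ℂ c.Om z = 0) :
    ∀ᵐ p ∂c.nu z, 0 < p o ∧ al p ≠ 0 ∧ be p ≠ 0 := by
  obtain ⟨h1, h2, -⟩ := b.ker z h
  filter_upwards [b.cone z, measure_eq_zero_iff_ae_notMem.1 h1,
    measure_eq_zero_iff_ae_notMem.1 h2] with p hp h1 h2
  refine ⟨lt_of_le_of_ne hp.1 fun e => h1 ?_, h2, h1⟩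
  have h3 := hp.2
  have e' : p 0 = 0 := e.symm
  rw [mu, mdot_eq, e'] at h3
  show be p = 0
  rw [be_eq, e']
  nlinarith [mul_self_nonneg (p 1), mul_self_nonneg (p 2), mul_self_nonneg (p 3)]

lemma mu_le {F G : V → ℂ} {x : TT D} (h : Mu c G x) {K : ℝ} (hK : 0 ≤ K)
    (hle : ∀ f, ∀ᵐ p ∂c.nu (x f), ‖F p‖ ≤ K * ‖G p‖) : Mu c F x := by
  obtain ⟨m, C, hC⟩ := h
  refine ⟨m, K * C, fun f => ?_⟩
  calc ∫⁻ p, ENNReal.ofReal (‖F p‖ ^ 2) ∂c.nu (x f)
      ≤ ∫⁻ p, ENNReal.ofReal (K ^ 2) * ENNReal.ofReal (‖G p‖ ^ 2) ∂c.nu (x f) := by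
        refine lintegral_mono_ae ?_
        filter_upwards [hle f] with p hp
        rw [← ENNReal.ofReal_mul (by positivity), ← mul_pow]
        exact ENNReal.ofReal_le_ofReal (pow_le_pow_left₀ (norm_nonneg _) hp 2)
    _ ≤ ENNReal.ofReal (K ^ 2) * ENNReal.ofReal ((C * sn m f) ^ 2) := by
        rw [lintegral_const_mul' _ _ ENNReal.ofReal_ne_top]
        exact mul_le_mul_right (hC f) _
    _ = _ := by rw [← ENNReal.ofReal_mul (by positivity), ← mul_pow, mul_assoc]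

lemma cancel (B : BA c) {a : V} {A : Set V} (hA : MeasurableSet A) {x : TT D} (h : TC c x)
    (f : Sch) (h0 : ∀ᵐ p ∂c.nu (x f), mdot p a ≠ 0) :
    c.bt.Dom (iv a A) (x (KDa.dS a f)) ∧ c.bt.Psi (iv a A) (x (KDa.dS a f)) = c.bt.P A (x f) := by
  obtain ⟨d1, e1⟩ := B.tc_psi a x f h
  have e : (fun p => iv a A p * rr a p) =ᵐ[c.nu (x f)] fun p => I * A.indicator (fun _ => 1) p := by
    filter_upwards [h0] with p hp
    have : rr a p ≠ 0 := by simpa [rr] using hp
    by_cases hpA : p ∈ A <;> simp [iv, hpA, mul_assoc, inv_mul_cancel₀ this]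
  have bd := (Bd.ind hA).smul I
  have d2 : c.bt.Dom (fun p => iv a A p * rr a p) (x f) :=
    (Dom.of_bd bd _).congr_ae ((meas_iv a hA).mul d1.1) e.symm
  have d3 := (dom_Psi d1 (meas_iv a hA)).2 d2
  rw [e1]
  refine ⟨d3.smul_vec _, ?_⟩
  rw [Psi_smul_vec _ d3, Psi_Psi d1 (meas_iv a hA) d2, Psi_congr_ae d2 bd.1 e, Psi_bd bd,
    c.bt.smul I (Bd.ind hA), ContinuousLinearMap.smul_apply, smul_smul, neg_mul, Complex.I_mul_I,
    neg_neg, one_smul, P]

/-- the potential on the set `A` -/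
lemma half (B : BA c) (hM : MUL c) {n : V →ₗ[ℝ] TT D} (hn : ∀ v, TC c (n v)) {a : V}
    {A : Set V} (hA : MeasurableSet A)
    (h0 : ∀ z, inner ℂ c.Om z = 0 → ∀ᵐ p ∂c.nu z, mdot p a ≠ 0)
    (h1 : Mu c (iv a A) (n a)) (h2 : Mu c (fun p => (mm p)⁻¹ * iv a A p) (dcr n a))
    (h3 : ∀ v f, c.bt.P {p | mu p = 0} (crl n v a f) = 0) :
    ∃ y, TC c y ∧ (∀ f, c.bt.P {p | mu p ≠ 0} (y (bx f)) =
      c.bt.P {p | mu p ≠ 0} (c.bt.P A (dvg (fun v => n v) f))) ∧
      ∀ v f, c.bt.P {p | mu p = 0} (y (KDa.dS v f)) =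
        c.bt.P {p | mu p = 0} (c.bt.P A (n v f)) := by
  have tD := tc_dvg B hn
  have tZ : TC c (dcr n a) := tc_sub B (tc_bx B (hn a)) (B.tc_der _ _ tD)
  have m1 := meas_iv a hA
  obtain ⟨y1, t1, e1⟩ := hM _ _ (hn a) m1 h1
  obtain ⟨y2, t2, e2⟩ := hM _ _ tZ (by fun_prop) h2
  refine ⟨y1 + y2, B.tc_add _ _ t1 t2, fun f => ?_, fun v f => ?_⟩
  · obtain ⟨d1, c1⟩ := cancel B hA tD f (h0 _ (tD.perp f))
    obtain ⟨d2, c2⟩ := bx_psi B t2 f
    rw [(e2 f).2] at d2 c2
    obtain ⟨d3, c3⟩ := Psi_mul (e2 f).1 d2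
    have d4 : c.bt.Dom (iv a A) (dcr n a f) := (e1 (bx f)).1.sub_vec d1
    have c4 : c.bt.Psi (iv a A) (dcr n a f) = y1 (bx f) - c.bt.P A (dvg (fun v => n v) f) := by
      rw [(e1 (bx f)).2, ← c1]
      exact Psi_sub_vec (e1 (bx f)).1 d1
    have c5 : c.bt.P {p | mu p ≠ 0} (c.bt.Psi (fun p => mm p * ((mm p)⁻¹ * iv a A p)) (dcr n a f)) =
        c.bt.P {p | mu p ≠ 0} (c.bt.Psi (iv a A) (dcr n a f)) := by
      rw [P_Psi mN d3, P_Psi mN d4]
      congr 1
      refine Set.indicator_congr fun p hp => ?_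
      have : mm p ≠ 0 := by simpa [mm] using hp
      exact mul_inv_cancel_left₀ this _
    rw [ContinuousLinearMap.add_apply, c2, ← c3, map_add, map_neg, c5, c4, map_sub]
    abel
  · obtain ⟨d1, c1⟩ := cancel B hA (hn v) f (h0 _ ((hn v).perp f))
    have c2 : c.bt.P {p | mu p = 0} (y2 (KDa.dS v f)) = 0 := by
      rw [(e2 _).2, P_Psi mZ (e2 _).1, show {p : V | mu p = 0}.indicator
        (fun p => (mm p)⁻¹ * iv a A p) = fun _ => 0 from
        funext fun p => by by_cases hp : mu p = 0 <;> simp [mm, hp],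
        Psi_bd (Bd.const 0), c.bt.zero]
      rfl
    have c3 : c.bt.P {p | mu p = 0} (n v (KDa.dS a f)) =
        c.bt.P {p | mu p = 0} (n a (KDa.dS v f)) := by
      rw [← sub_eq_zero, ← map_sub]
      exact h3 v f
    rw [ContinuousLinearMap.add_apply, map_add, c2, add_zero, ← c1, (e1 _).2, P,
      ← Psi_Phi_comm (e1 _).1 (Bd.ind mZ), ← Psi_Phi_comm d1 (Bd.ind mZ)]
    exact congrArg _ c3.symm

lemma ex (b : B0 c) (hM : MUL c) (n : V →ₗ[ℝ] TT D) (hn : ∀ v, TC c (n v))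
    (h1 : ∀ v, Mu c (fun p => ((p o)⁻¹ : ℝ)) (n v))
    (h2 : Mu c (fun p => ((mu p * be p)⁻¹ : ℝ)) (dcr n va))
    (h3 : Mu c (fun p => ((mu p * al p)⁻¹ : ℝ)) (dcr n vb))
    (h4 : ∀ v v' f, c.bt.P {p | mu p = 0} (crl n v v' f) = 0) : ∃ m, Pot c n m := by
  have hA : MeasurableSet {p : V | 2 * al p ≤ be p} := measurableSet_le (by fun_prop) meas_be
  have k1 : ∀ (a : V) (A : Set V), (∀ p ∈ A, 0 < p o → p o ≤ 2 * mdot p a) →
      Mu c (iv a A) (n a) := fun a A h => by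
    refine mu_le (h1 a) zero_le_two fun f => ?_
    filter_upwards [ae_pos b.bas ((hn a).perp f)] with p hp
    by_cases hpA : p ∈ A
    · have h5 := h p hpA hp.1
      have h6 : 0 < mdot p a := by linarith [hp.1]
      refine (norm_iv a A p).trans ?_
      rw [Complex.norm_real, Real.norm_eq_abs, abs_of_pos (inv_pos.2 h6),
        abs_of_pos (inv_pos.2 hp.1), ← div_eq_mul_inv, inv_eq_one_div,
        div_le_div_iff₀ h6 hp.1]
      linarith
    · rw [iv, Set.indicator_of_notMem hpA, norm_zero]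
      positivity
  have k2 : ∀ (a : V) (A : Set V), Mu c (fun p => ((mu p * mdot p a)⁻¹ : ℝ)) (dcr n a) →
      Mu c (fun p => (mm p)⁻¹ * iv a A p) (dcr n a) := fun a A h => by
    refine mu_le h zero_le_one fun f => Eventually.of_forall fun p => ?_
    rw [one_mul, norm_mul, Complex.norm_real, mul_inv, norm_mul, norm_inv, norm_inv,
      Complex.norm_real]
    exact mul_le_mul_of_nonneg_left (norm_iv a A p) (by positivity)
  obtain ⟨y, ty, y1, y2⟩ := half b.ba hM hn hA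
    (fun z hz => (ae_pos b.bas hz).mono fun p hp => by rw [md_va']; exact hp.2.2)
    (k1 va _ fun p hp h => by
      have := time_eq p
      rw [md_va']
      simp only [Set.mem_setOf_eq] at hp
      linarith)
    (k2 va _ (by simpa only [md_va'] using h2)) fun v => h4 v va
  obtain ⟨z, tz, z1, z2⟩ := half b.ba hM hn hA.compl
    (fun z hz => (ae_pos b.bas hz).mono fun p hp => by rw [md_vb']; exact hp.2.1)
    (k1 vb _ fun p hp h => by
      have := time_eq p
      rw [md_vb']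
      simp only [Set.mem_compl_iff, Set.mem_setOf_eq, not_le] at hp
      linarith)
    (k2 vb _ (by simpa only [md_vb'] using h3)) fun v => h4 v vb
  refine ⟨y + z, b.ba.tc_add _ _ ty tz, fun f => ?_, fun v f => ?_⟩
  · rw [ContinuousLinearMap.add_apply, map_add, y1, z1, P_compl hA, ← map_add, add_sub_cancel]
  · rw [ContinuousLinearMap.add_apply, map_add, y2, z2, P_compl hA, ← map_add, add_sub_cancel]

lemma uq (b : B0 c) (n : V →ₗ[ℝ] TT D) (m m' : TT D) (h : Pot c n m) (h' : Pot c n m') :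
    m = m' := by
  have t := tc_sub b.ba h.tc h'.tc
  refine ContinuousLinearMap.ext fun f => sub_eq_zero.1 (eq_zero_of_ae (C := c.bt.toCalc) ?_)
  obtain ⟨d1, e1⟩ := bx_psi b.ba t f
  obtain ⟨d2, e2⟩ := b.ba.tc_psi (bas o 1) _ f t
  have a1 := null_of_P mN d1 (by
    rw [← neg_eq_zero, ← map_neg, ← e1, ContinuousLinearMap.sub_apply, map_sub, h.pos, h'.pos,
      sub_self])
  have a2 := null_of_P mZ d2 (by
    rw [← smul_eq_zero_iff_right (neg_ne_zero.2 Complex.I_ne_zero), ← map_smul, ← e2,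
      ContinuousLinearMap.sub_apply, map_sub, h.nul, h'.nul, sub_self])
  filter_upwards [a1, a2, ae_pos b.bas (t.perp f)] with p h1 h2 h3
  have h4 : mu p = 0 := by
    by_contra h0
    exact h0 (by simpa [mm] using h1 h0)
  have h5 : mdot p (bas o 1) = 0 := by simpa using h2 h4
  have h6 : mdot p (bas o 1) = p o := by simp [mdot_eq, bas, o]
  linarith [h3.1]

lemma phi_pr (B : BA c) (hH : HMU c) {a b y : V} (ha : IsNull a) (hb : IsNull b)
    (hab : 0 < mdot a b) {h : ℝ → ℝ} (hh : Bd fun t => (h t : ℂ)) {σ : ℝ} {u u' : Completion D}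
    (hp : Pr (c.N (Wdg a b y)) c.Om u (σ • Th c u')) :
    Pr (c.N (Wdg a b y)) c.Om (c.bt.Phi (fun p => h (mu p)) u)
      (σ • Th c (c.bt.Phi (fun p => h (mu p)) u')) := by
  have := hH a b y _ _ h ha hb hab hh hp
  rw [B.th_phi _ _ (hh.comp meas_mu)]
  simpa only [Complex.conj_ofReal, ContinuousLinearMap.map_smul_of_tower] using this

lemma hk_phi (B : BA c) {n : V →ₗ[ℝ] TT D} {m : TT D} (h : Pot c n m) (k : ℕ) (g : Sch) :
    c.bt.Phi (fun p => hk k (mu p)) (dvg (fun v => n v) g) =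
      c.bt.P {p | ((k : ℝ) + 1)⁻¹ ≤ |mu p|} (m g) := by
  have bd : Bd fun p : V => (hk k (mu p) : ℂ) := (hk_bd k).comp meas_mu
  have k0 : (0 : ℝ) < ((k : ℝ) + 1)⁻¹ := by positivity
  have e : ∀ u, c.bt.Phi (fun p => hk k (mu p)) u =
      c.bt.Phi (fun p => hk k (mu p)) (c.bt.P {p | mu p ≠ 0} u) := fun u => by
    rw [P, ← c.bt.mul_apply bd (Bd.ind mN)]
    congr 2
    funext p
    by_cases hp : mu p = 0
    · simp [hk, hp, not_le.2 k0]
    · simp [hp]
  obtain ⟨d, e1⟩ := bx_psi B h.tc g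
  rw [e, ← h.pos, ← e, e1, map_neg, Phi_Psi bd d, ← Psi_neg (d.bd_mul bd), P,
    ← Psi_bd (Bd.ind (mK k))]
  congr 1
  funext p
  by_cases hp : ((k : ℝ) + 1)⁻¹ ≤ |mu p|
  · have : mu p ≠ 0 := abs_pos.1 (k0.trans_le hp)
    simp [hk, hp, mm, this]
  · simp [hk, hp]

lemma tend (u : Completion D) : Tendsto (fun k : ℕ => c.bt.P {p | ((k : ℝ) + 1)⁻¹ ≤ |mu p|} u)
    atTop (𝓝 (c.bt.P {p | mu p = 0}ᶜ u)) := by
  refine tendsto_P mK mZ.compl (Eventually.of_forall fun p => ?_)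
  by_cases hp : mu p = 0
  · refine Eventually.of_forall fun k => ?_
    have k0 : (0 : ℝ) < ((k : ℝ) + 1)⁻¹ := by positivity
    simp [hp, not_le.2 k0]
  · have h1 : Tendsto (fun n : ℕ => ((n : ℝ) + 1)⁻¹) atTop (𝓝 0) :=
      (tendsto_natCast_atTop_atTop.atTop_add tendsto_const_nhds).inv_tendsto_atTop
    filter_upwards [h1.eventually_le_const (abs_pos.2 hp)] with k hk
    simp [hp, hk]

lemma loc (B : BA c) (hH : HMU c) (hD : DL0 c) (n : V →ₗ[ℝ] TT D) (m : TT D) (K : Set V)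
    (hl : ∀ v, Loc c (-1) K (n v)) (h : Pot c n m) : Loc c 1 K m := by
  refine hD 1 K m h.tc fun v a b y f ha hb hab h1 h2 h3 => ?_
  have e0 : c.bt.Phi (fun p => (({0} : Set ℝ).indicator (fun _ => (1 : ℝ)) (mu p) : ℝ)) =
      c.bt.P {p | mu p = 0} := by
    rw [P]
    congr 1
    funext p
    by_cases hp : mu p = 0 <;> simp [hp]
  have p1 := phi_pr B hH ha hb hab (h := ({0} : Set ℝ).indicator fun _ => (1 : ℝ))
    (Bd.ofReal (measurable_const.indicator (measurableSet_singleton 0)) (C := 1) fun t => by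
      by_cases ht : t = 0 <;> simp [ht]) (hl v a b y f ha hb hab h1 h2 h3)
  rw [e0, ← h.nul, ← h.nul] at p1
  have l2 := B.loc_der _ _ v _ (loc_dvg B hl) a b y f ha hb hab h1 h2 h3
  rw [neg_neg] at l2
  have p2 := KDa.pr_lim (Eventually.of_forall fun k => by
      have := phi_pr B hH ha hb hab (hk_bd k) l2
      rwa [ContinuousLinearMap.comp_apply, ContinuousLinearMap.comp_apply, hk_phi B h,
        hk_phi B h] at this)
    (tend _) ((((Th c).continuous.tendsto _).comp (tend _)).const_smul (-1 : ℝ))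
  have p3 := KDa.pr_add p1 p2
  rwa [← smul_add, ← map_add, P_compl mZ, P_compl mZ, add_sub_cancel, add_sub_cancel] at p3

end Ptr

/-- **row POT** -/
theorem pot_row (c : Ctx D) : B0 c → MUL c → HMU c → DL0 c → POT c := fun b hM hH hD =>
  ⟨Ptr.ex b hM, Ptr.uq b, fun n m K _ hl h => Ptr.loc b.ba hH hD n m K hl h⟩

end

end Vale.Agent.P352X.ZZ.TPD
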