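import Vale.Agent.P352Z.TPD.Ba1
import Vale.Agent.P352Z.R.GRP.C
import Vale.Agent.P352X.R.WK.Gen
import Vale.Agent.P352Y.W0

/-!
# P352Z, block TPD: rows PRE and SRC (helper40)
-/

set_option linter.all false

noncomputable section

open Filter Topology Set Metric
open scoped SchwartzMap ContDiff LineDeriv

namespace Vale.Agent.P352X.ZZ.TPD

open Vale.Agent.P352 Vale.Agent.P352.GF Vale.Agent.P352.BW Api4
open Vale.Agent.P352.H246 (In)
open UniformSpace (Completion)
open Ap (Cc)
open P352Y (Lt open_Lt f2 f2_lam Cc_smul tsupport_comp sw_sw sw_tens tsupport_sw Cc_sim off_of)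

variable {D : Type*} [NormedAddCommGroup D] [InnerProductSpace ℂ D]

namespace Pr0

/-- the kernel of the product of two components of `T` -/
def WP (Q : Theory D) (T : Ix → Ix → Fld D) (W : WW D) : Prop := ∀ K M (f g : Sch),
  W K M (ST.tens f g) = ((T K.1 K.2 (ev f) (T M.1 M.2 (ev g) Q.vac) : D) : Completion D)

/-- the time ordered product off the diagonal -/
structure W0 (W w : WW D) : Prop where
  lt : ∀ I J (F : S2), tsupport F ⊆ Lt → w I J F = W I J F
  swap : ∀ I J (F G : S2), (∀ x y, G (x, y) = F (y, x)) → w I J F = w J I G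

variable {Q : Theory D} {T T' : Ix → Ix → Fld D} {W W' w w' : WW D}

/-- locality of the kernel -/
lemma WP.loc (hT : P2 Q T) (hW : WP Q T W) (I J : I2) {F : S2} (h1 : tsupport F ⊆ Lt)
    (h2 : tsupport F ⊆ Prod.swap ⁻¹' Lt) : W I J F = W J I (Str.sw F) := by
  refine sub_eq_zero.1 (ST.ker2 (W I J - W J I ∘L Str.sw)
    (open_Lt.inter (open_Lt.preimage continuous_swap)) (fun f g _ _ h => ?_) F
    (subset_inter h1 h2))
  rw [ContinuousLinearMap.sub_apply, ContinuousLinearMap.comp_apply, sw_tens, hW, hW,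
    Q.loc _ _ _ _ _ (hT.bose _ _) (ZZ.Grp.T_fld hT _ _) ⟨f, rfl⟩ ⟨g, rfl⟩ (Ap.sep_iff.2
      ⟨fun x hx y hy => (h (mk_mem_prod hx hy)).1, fun y hy x hx => (h (mk_mem_prod hx hy)).2⟩),
    sub_self]

theorem exists_w0 (hT : P2 Q T) (hW : WP Q T W) : ∃ w, W0 W w := by
  have h1 : ∀ I J, ∃ u : S2 →L[ℂ] Completion D, (∀ F : S2, tsupport F ⊆ Lt → u F = W I J F) ∧
      ∀ F : S2, tsupport F ⊆ Lt → u (Str.sw F) = W J I F := fun I J => by
    obtain ⟨u, hu⟩ := f2.glue (ι := Bool) (fun b => {u | cond b (-u) u ∉ Cc})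
      (fun b => cond b (W I J) (W J I ∘L Str.sw))
      (fun b => by
        cases b
        exacts [Ap.closed_Cc.isOpen_compl, Ap.closed_Cc.isOpen_compl.preimage continuous_neg])
      (fun b u s hs h a => by
        cases b
        · exact h (Cc_smul hs a)
        · exact h (by simpa using Cc_smul hs a))
      (fun b h => by cases b <;> exact h (by simpa using Ap.zero_Cc))
      (fun u hu => by
        by_cases h : u ∈ Cc
        · exact ⟨true, fun a => hu (Ap.Cc_anti h a)⟩
        · exact ⟨false, h⟩)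
      fun b b' F _ hF => by
        have k : ∀ {F : S2}, tsupport F ⊆ f2.lam ⁻¹' {u | -u ∉ Cc} →
            tsupport F ⊆ f2.lam ⁻¹' {u | u ∉ Cc} → W I J F = W J I (Str.sw F) := fun a b =>
          hW.loc hT I J (fun z hz c => a hz (by rwa [f2_lam, neg_sub])) fun z hz => b hz
        cases b <;> cases b'
        · rfl
        · exact (k (fun z hz => (hF hz).2) fun z hz => (hF hz).1).symm
        · exact k (fun z hz => (hF hz).1) fun z hz => (hF hz).2
        · rfl
    exact ⟨u, fun F hF => hu true F fun z hz c => hF hz (by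
      rwa [cond_true, f2_lam, neg_sub] at c), fun F hF => hu false _ fun z hz =>
        hF (tsupport_sw F hz)⟩
  choose u h1 h2 using h1
  refine ⟨fun I J => (1 / 2 : ℂ) • (u I J + u J I ∘L Str.sw), fun I J F hF => ?_,
    fun I J F G e => ?_⟩
  · simp only [ContinuousLinearMap.smul_apply, ContinuousLinearMap.add_apply,
      ContinuousLinearMap.comp_apply, h1 _ _ F hF, h2 _ _ F hF]
    rw [← two_smul ℂ, smul_smul]
    norm_num
  · rw [show G = Str.sw F from SchwartzMap.ext fun z => e z.1 z.2]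
    simp only [ContinuousLinearMap.smul_apply, ContinuousLinearMap.add_apply,
      ContinuousLinearMap.comp_apply, sw_sw]
    rw [add_comm]

lemma cov1 {s : ℝ} {L : Ix → V} (hs : 0 < s) (hL : IsLor L) (a : V)
    (h : ∀ m n f v, IsTest f → T m n f (Q.U s L a v) = ∑ i, ∑ j, (L i m * L j n : ℂ) •
      Q.U s L a (T' i j (fun x => f (sim s L a x)) v)) (K : I2) (f : Sch) (v : D) :
    T K.1 K.2 (ev f) (Q.U s L a v) =
      ∑ K', L2 L K' K • ueI Q hs hL a (T' K'.1 K'.2 (ev (Grp.simS hs hL a f)) v) := by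
  rw [h _ _ _ v ⟨f, rfl⟩, Fintype.sum_prod_type,
    show ev (Grp.simS hs hL a f) = _ from funext (Grp.simS_apply hs hL a f)]
  simp only [L2, Complex.ofReal_mul]
  rfl

/-- covariance of the kernels -/
lemma WP.cov (hT : P2 Q T) (hW : WP Q T W) (hW' : WP Q T' W') {s : ℝ} {L : Ix → V} (hs : 0 < s)
    (hL : IsLor L) (a : V)
    (h : ∀ m n f v, IsTest f → T m n f (Q.U s L a v) = ∑ i, ∑ j, (L i m * L j n : ℂ) •
      Q.U s L a (T' i j (fun x => f (sim s L a x)) v)) (K M : I2) (F : S2) :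
    W K M F = ∑ K', ∑ M', (L2 L K' K * L2 L M' M) • Ug Q s L a (W' K' M' (Wk.sim2 hs hL a F)) := by
  have key : W K M = ∑ K', ∑ M', (L2 L K' K * L2 L M' M) •
      (Ug Q s L a ∘L W' K' M' ∘L Wk.sim2 hs hL a) := ST.ext2 fun f g _ _ => by
    simp only [ContinuousLinearMap.sum_apply, ContinuousLinearMap.smul_apply,
      ContinuousLinearMap.comp_apply, Wk.sim2_tens, hW _ _ _ _, hW' _ _ _ _, Wk.ug_coe hs hL]
    conv_lhs => rw [← Q.U_vac s L a hs hL, cov1 hs hL a h, ← Wk.fL_apply (ZZ.Grp.T_fld hT K.1 K.2)]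
    simp only [map_sum, map_smul, Wk.fL_apply, ueI_apply, cov1 hs hL a h, Finset.smul_sum,
      smul_smul]
    rw [Finset.sum_comm, ← Completion.coe_toComplL (𝕜 := ℂ), map_sum]
    simp only [map_sum, map_smul, Completion.coe_toComplL, mul_comm]
  rw [key]
  simp only [ContinuousLinearMap.sum_apply, ContinuousLinearMap.smul_apply,
    ContinuousLinearMap.comp_apply]

namespace W0

lemma sw (h : W0 W w) (I J : I2) (F : S2) : w I J (Str.sw F) = w J I F :=
  h.swap I J _ F fun _ _ => rfl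

/-- causal factorisation -/
theorem fac (h : W0 W w) (hW : WP Q T W) (I J : I2) (f g : Sch) (F : S2)
    (e : ∀ x y, F (x, y) = f x * g y) (hL : Late (tsupport f) (tsupport g)) :
    w I J F = ((T I.1 I.2 (ev f) (T J.1 J.2 (ev g) Q.vac) : D) : Completion D) := by
  rw [show F = ST.tens f g from SchwartzMap.ext fun z => e z.1 z.2, h.lt _ _ _ fun z hz =>
    hL _ (ST.tsupport_tens f g hz).1 _ (ST.tsupport_tens f g hz).2, hW]

/-- exact covariance off the diagonal -/
theorem cov (h : W0 W w) (h' : W0 W' w') {s : ℝ} {L : Ix → V} (hs : 0 < s) (hL : IsLor L) (a : V)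
    (hW : ∀ K M F, W K M F =
      ∑ K', ∑ M', (L2 L K' K * L2 L M' M) • Ug Q s L a (W' K' M' (Wk.sim2 hs hL a F)))
    (I J : I2) (F G : S2) (e : ∀ x y, G (x, y) = F (sim s L a x, sim s L a y))
    (hF : OffD F) : w I J F = ∑ K, ∑ M, (L2 L K I * L2 L M J) • Ug Q s L a (w' K M G) := by
  have k : ∀ I J (F : S2), tsupport F ⊆ Lt → w I J F =
      ∑ K, ∑ M, (L2 L K I * L2 L M J) • Ug Q s L a (w' K M (Wk.sim2 hs hL a F)) :=
    fun I J F hF => by
      have : tsupport (Wk.sim2 hs hL a F) ⊆ Lt := fun z hz c => hF (tsupport_comp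
        (e := fun z : V × V => (sim s L a z.1, sim s L a z.2)) (by unfold sim; fun_prop)
        (fun z a' => (Wk.sim2_apply hs hL a F z.1 z.2).trans a') hz) ((Cc_sim hs hL a _ _).2 c)
      simp only [h'.lt _ _ _ this, h.lt _ _ _ hF]
      exact hW I J F
  rw [show G = Wk.sim2 hs hL a F from SchwartzMap.ext fun z =>
    (e z.1 z.2).trans (Wk.sim2_apply hs hL a F z.1 z.2).symm]
  have := off_of (w I J - ∑ K, ∑ M, (L2 L K I * L2 L M J) •
    (Ug Q s L a ∘L w' K M ∘L Wk.sim2 hs hL a)) (fun F hF => ?_) (fun F hF => ?_) hF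
  all_goals simp only [ContinuousLinearMap.sub_apply, ContinuousLinearMap.sum_apply,
    ContinuousLinearMap.smul_apply, ContinuousLinearMap.comp_apply, sub_eq_zero] at *
  · exact this
  · exact k I J F hF
  · rw [h.sw, k J I F hF, Finset.sum_comm]
    refine Finset.sum_congr rfl fun K _ => Finset.sum_congr rfl fun M _ => ?_
    rw [mul_comm, ← h'.sw K M]
    congr 3

/-- local linear field equations hold in the first slot off the diagonal -/
theorem off (h : W0 W w) (hW : WP Q T W) (hT : P2 Q T) {ι : Type} [Fintype ι] (a : ι → ℂ)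
    (K : ι → I2) (A : ι → S2 →L[ℂ] S2) (B : ι → Sch → Sch)
    (e : ∀ i f g, A i (ST.tens f g) = ST.tens (B i f) g)
    (s : ∀ i F, tsupport (A i F) ⊆ tsupport F)
    (h0 : ∀ f v, ∑ i, a i • T (K i).1 (K i).2 (ev (B i f)) v = 0) (J : I2) {G : S2}
    (hG : OffD G) : ∑ i, a i • w (K i) J (A i G) = 0 := by
  have k1 : ∑ i, a i • W (K i) J ∘L A i = 0 := ST.ext2 fun f g _ _ => by
    simp only [ContinuousLinearMap.sum_apply, ContinuousLinearMap.smul_apply,
      ContinuousLinearMap.comp_apply, e, hW _ _ _ _, ← Completion.coe_smul, ← Str.coe_sum, h0]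
    rfl
  have k2 : ∑ i, a i • W J (K i) ∘L Str.sw ∘L A i ∘L Str.sw = 0 := ST.ext2 fun f g _ _ => by
    simp only [ContinuousLinearMap.sum_apply, ContinuousLinearMap.smul_apply,
      ContinuousLinearMap.comp_apply, e, sw_tens, hW _ _ _ _, ← Completion.coe_smul, ← Str.coe_sum,
      ← Wk.fL_apply (ZZ.Grp.T_fld hT J.1 J.2), ← map_smul, ← map_sum, h0, map_zero]
    rfl
  have := off_of (∑ i, a i • w (K i) J ∘L A i) (fun F hF => ?_) (fun F hF => ?_) hG
  · simpa only [ContinuousLinearMap.sum_apply, ContinuousLinearMap.smul_apply,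
      ContinuousLinearMap.comp_apply] using this
  · refine Eq.trans ?_ (DFunLike.congr_fun k1 F)
    simp only [ContinuousLinearMap.sum_apply, ContinuousLinearMap.smul_apply,
      ContinuousLinearMap.comp_apply, fun i => h.lt (K i) J _ ((s i F).trans hF)]
  · refine Eq.trans ?_ (DFunLike.congr_fun k2 F)
    simp only [ContinuousLinearMap.sum_apply, ContinuousLinearMap.smul_apply,
      ContinuousLinearMap.comp_apply]
    refine Finset.sum_congr rfl fun i _ => congrArg _ ?_
    rw [← h.sw J, h.lt _ _ _ fun z hz => hF (tsupport_sw F (s i _ (tsupport_sw _ hz)))]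

/-- first order equations -/
theorem off1 (h : W0 W w) (hW : WP Q T W) (hT : P2 Q T) {ι : Type} [Fintype ι] (a : ι → ℂ)
    (K : ι → I2) (m : ι → Ix)
    (h0 : ∀ f v, IsTest f → ∑ i, a i • T (K i).1 (K i).2 (pd (m i) f) v = 0) (J : I2) {G : S2}
    (hG : OffD G) : ∑ i, a i • w (K i) J (p21 (m i) G) = 0 :=
  h.off hW hT a K (fun i => p21 (m i)) (fun i f => ∂_{(bas (m i) 1 : V)} f)
    (fun i f g => SchwartzMap.ext fun z => Str.d_tens (m i) f g z.1 z.2)
    (fun i F => SchwartzMap.tsupport_lineDerivOp_subset _ F)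
    (fun f v => by simpa only [Grp.pd_ev] using h0 (ev f) v ⟨f, rfl⟩) J hG

/-- locality relative to the local algebras -/
theorem loc (h : W0 W w) (hW : WP Q T W) (Θ : Completion D →L⋆[ℂ] Completion D)
    (hΘ : ∀ (K M : I2) (f g : Sch), Θ (T K.1 K.2 (ev f) (T M.1 M.2 (ev g) Q.vac) : D) =
      (T K.1 K.2 (bar (ev (ng f))) (T M.1 M.2 (bar (ev (ng g))) Q.vac) : D))
    {M : VonNeumannAlgebra (Completion D)} {O : Set V} (hO : IsOpen O)
    (haf : ∀ m n f, In O f → BW.T.Afs M (T m n f) (T m n (bar f))) (I J : I2) {G G' : S2}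
    (hG : OffD G) (hs : tsupport G ⊆ O ×ˢ O) (e : ∀ x y, G' (x, y) = G (-x, -y)) :
    Pr M (om Q) (w I J G) (Θ (w I J G')) := fun Z hZ => by
  rw [show G' = P352Y.W0.ng _ G from SchwartzMap.ext fun z => e z.1 z.2]
  refine sub_eq_zero.1 (ST.ker2_local (innerSL ℂ (star Z (om Q)) ∘L w I J -
    ((innerSLFlip ℂ (Z (om Q))).comp Θ) ∘L w I J ∘L P352Y.W0.ng _) G fun q hq => ?_)
  obtain ⟨δ, d0, d⟩ := Str.late_near (x := q.1) (y := q.2) fun a => hG q.1 (by
    rwa [show (q.1, q.1) = q from Prod.ext rfl a])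
  obtain ⟨δ1, d1, b1⟩ := Metric.isOpen_iff.1 hO _ (hs hq).1
  obtain ⟨δ2, d2, b2⟩ := Metric.isOpen_iff.1 hO _ (hs hq).2
  have key : ∀ I J (f g : Sch), In O (ev f) → In O (ev g) → Late (tsupport f) (tsupport g) →
      inner ℂ (star Z (om Q)) (w I J (ST.tens f g)) =
        inner ℂ (Θ (w I J (P352Y.W0.ng _ (ST.tens f g)))) (Z (om Q)) := fun I J f g hf hg hL => by
    have n1 : ∀ f : Sch, tsupport (ng f) ⊆ (fun x => -x) ⁻¹' tsupport f := fun f =>
      tsupport_comp continuous_neg fun x a => (ng_apply f x).trans a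
    have n2 : ∀ f : Sch, ng (ng f) = f := fun f =>
      SchwartzMap.ext fun z => by rw [ng_apply, ng_apply, neg_neg]
    rw [h.fac hW I J f g _ (fun _ _ => rfl) hL, h.swap I J _ (ST.tens (ng g) (ng f))
      fun x y => by
        rw [ST.tens_apply, ng_apply, ng_apply]
        exact mul_comm _ _, h.fac hW J I _ _ _ (fun _ _ => rfl) fun x hx y hy c =>
        hL _ (n1 f hy) _ (n1 g hx) (by rwa [neg_sub_neg]), hΘ, n2, n2]
    exact Pr.of_afs (afs_comp (haf _ _ _ hf) (haf _ _ _ hg)) Q.vac Z hZ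
  refine ⟨min δ (min δ1 δ2), by positivity, fun f g cf cg s1 s2 => sub_eq_zero.2 ?_⟩
  have hf : In O (ev f) := ⟨⟨f, rfl⟩, cf, s1.trans
    ((ball_subset_ball ((min_le_right _ _).trans (min_le_left _ _))).trans b1)⟩
  have hg : In O (ev g) := ⟨⟨g, rfl⟩, cg, s2.trans
    ((ball_subset_ball ((min_le_right _ _).trans (min_le_right _ _))).trans b2)⟩
  replace s1 := s1.trans (ball_subset_ball (min_le_left _ _))
  replace s2 := s2.trans (ball_subset_ball (min_le_left _ _))
  rcases d with d | d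
  · exact key I J f g hf hg (Ap.late_mono d s1 s2)
  · have := key J I g f hg hf (Ap.late_mono d s2 s1)
    rwa [← h.sw I J, ← h.sw I J (P352Y.W0.ng _ _), sw_tens,
      show Str.sw (P352Y.W0.ng _ (ST.tens g f)) = P352Y.W0.ng _ (ST.tens f g) from
        SchwartzMap.ext fun _ => mul_comm _ _] at this

end W0

end Pr0

open Pr0

/-- **row PRE** -/
theorem pre_row (c : Ctx D) : B0 c → PRE c := fun b K R h => by
  have k1 : ∀ l, ∃ W, WP c.Q (R l) W := fun l =>
    (b.sub (R l) (h.p2 l)).wk1.imp fun W hW K M f g => hW.1 K M f g _ fun _ _ => rfl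
  choose W hW using k1
  choose u hu using fun l => exists_w0 (h.p2 l) (hW l)
  have pW : ∀ I J F, PL K fun l => W l I J F := fun I J F =>
    ⟨fun j => PL.cf K (fun l => W l I J) j F, fun l => by
      have : W l I J = ∑ j ∈ Finset.range (K + 1), l ^ j • PL.cf K (fun l => W l I J) j :=
        ST.ext2 fun f g _ _ => by
          rw [hW, (h.pl I J f g).eq l]
          simp [PL.cf, ContinuousLinearMap.sum_apply, hW _ _ _ _ _]
      exact (DFunLike.congr_fun this F).trans (by simp [ContinuousLinearMap.sum_apply])⟩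
  set w : ℝ → WW D := fun l I J =>
    ∑ j ∈ Finset.range (K + 1), l ^ j • PL.cf K (fun l => u l I J) j with hw
  have w0 : ∀ l, W0 (W l) (w l) := fun l => ⟨fun I J F hF => by
      rw [(pW I J F).eq l]
      simp [hw, PL.cf, ContinuousLinearMap.sum_apply, fun x => (hu x).lt I J F hF],
    fun I J F G e => by
      simp [hw, PL.cf, ContinuousLinearMap.sum_apply, fun x => (hu x).swap I J F G e]⟩
  refine ⟨w, ⟨fun l => (w0 l).swap, fun l s L a I J F G hs hL hF e => (w0 l).cov (w0 _) hs hL a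
    ((hW l).cov (h.p2 l) (hW _) hs hL a fun m n f v hf => h.cov l m n s L a f v hs hL hf) I J F G e
      hF, fun I J => ⟨_, fun l => rfl⟩, fun l n J G hG => ?_, fun l k m n J G hG => ?_,
    fun l J G hG => ?_, fun l a b' y I J G G' _ _ _ hG _ hs e => (w0 l).loc (hW l) (Th c)
      (th_two c b.toT3 b.ten (h.p2 l)) (Ap.open_wdg a b' y)
      (fun m n f => ZZ.Grp.afs_T c.hN (h.p2 l) m n) I J hG hs e⟩, fun l => (w0 l).fac (hW l)⟩
  · have := (w0 l).off1 (hW l) (h.p2 l) (fun _ => 1) (fun m => (m, n)) (fun m => m)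
      (fun f v hf => by simpa only [one_smul] using h.conserved l n f v hf) J hG
    simp only [one_smul] at this
    exact this
  · have := (w0 l).off1 (hW l) (h.p2 l) (ι := Fin 6)
      ![eta k, -eta k, eta m, -eta m, eta n, -eta n]
      ![(m, n), (n, m), (n, k), (k, n), (k, m), (m, k)] ![k, k, m, m, n, n]
      (fun f v hf => by
        rw [← h.bian l k m n f v hf]
        simp [Fin.sum_univ_six, cu]
        module) J hG
    rw [← this]
    simp [Fin.sum_univ_six, bi1, cu1]
    module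
  · exact (w0 l).off (hW l) (h.p2 l) (fun m => (eta m : ℂ)) (fun m => (m, m))
      (fun _ => ContinuousLinearMap.id ℂ _) (fun _ f => f) (fun _ _ _ => rfl) (fun _ _ => subset_rfl)
      (fun f v => h.trace l _ v ⟨f, rfl⟩) J hG

/-- **row SRC** -/
theorem src_row (c : Ctx D) : B0 c → SRC c := fun b K w h => by
  refine ⟨⟨fun l I J F G e => congrArg (Pp c) (h.swap l I J F G e),
    fun l s L a I J F G hs hL hF e => ?_,
    fun I J => PL.clm fun F => ((h.pl I J).app F).map ((Pp c).toLinearMap.restrictScalars ℝ),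
    fun l n J G hG => ?_, fun l k m n J G hG => ?_, fun l J G hG => ?_,
    fun l a b' y I J G G' ha hb hab hG k1 k2 e => ?_⟩, fun l I J F => (b.ba.pp _).1⟩
  · simp only [ContinuousLinearMap.comp_apply, h.cov l s L a I J F G hs hL hF e, map_sum, map_smul,
      (b.ba.pp _).2.2.2.2]
  · simpa only [dv1, map_sum, map_zero, ContinuousLinearMap.comp_apply] using
      congrArg (Pp c) (h.c1 l n J G hG)
  · simpa only [bi1, cu1, map_add, map_sub, map_smul, map_zero, ContinuousLinearMap.comp_apply]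
      using congrArg (Pp c) (h.b1 l k m n J G hG)
  · simpa only [map_sum, map_smul, map_zero, ContinuousLinearMap.comp_apply] using
      congrArg (Pp c) (h.t1 l J G hG)
  · simpa only [ContinuousLinearMap.comp_apply, (b.ba.pp _).2.1] using
      b.ba.pp_pr _ _ _ (h.loc l a b' y I J G G' ha hb hab hG k1 k2 e)

end Vale.Agent.P352X.ZZ.TPD
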