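import Vale.Agent.P352X.TPD.RHO
import Vale.Agent.P352Z.TPD.Spec
import Vale.Agent.P352Z.R.TWO.Mu

/-!
# P352Z, block TPD, row RHO: the two point measure is tempered (port, helper18)
-/

set_option linter.all false

open MeasureTheory Measure Set Filter Topology
open scoped SchwartzMap ComplexConjugate NNReal ENNReal

namespace Vale.Agent.P352X.ZZ.TPD

open Vale.Agent.P352.GF Vale.Agent.P352.BW Vale.Agent.P352.H496 Vale.Agent.P352.H755
open UniformSpace (Completion)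
open ZZ.Two
open Vale.Agent.P352X.Two (gS sq2 cont_k meas_sq2 g0_ne g0 bd_ft g0_in)

noncomputable section

namespace Rh

export Vale.Agent.P352X.TPD.Rh (W meas_W W_le int_W temp p0_pos)

variable {D : Type*} [NormedAddCommGroup D] [InnerProductSpace ℂ D] {c : Ctx D}

lemma rel {x : TT D} (h : TC c x) (f g : Sch) :
    c.bt.Phi (ft (ev g)) (x f) = c.bt.Phi (ft (ev f)) (x g) :=
  rel_clm x (fun y _ => (h.tra y f).symm) fun y _ => (h.tra y g).symm

/-- the spectral measures of a translation covariant distribution -/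
lemma nu_tc {x : TT D} (h : TC c x) (f : Sch) :
    c.nu (x f) = (rho c (x gS)).withDensity (sq2 (ft (ev f))) :=
  nu_eq (bd_ft ⟨f, rfl⟩) (rel h f gS)

lemma lint_tc {x : TT D} (h : TC c x) (f : Sch) :
    ∫⁻ p, sq2 (ft (ev f)) p ∂rho c (x gS) = ENNReal.ofReal (‖x f‖ ^ 2) := by
  rw [← c.bt.nu_univ, ofReal_measureReal, show c.bt.nu (x f) = _ from nu_tc h f,
    withDensity_apply _ MeasurableSet.univ, restrict_univ]

end Rh

variable {D : Type*} [NormedAddCommGroup D] [InnerProductSpace ℂ D] (c : Ctx D)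

theorem rho_thm : RHO c := fun x h => by
  haveI : IsLocallyFiniteMeasure (rho c (x gS)) :=
    IsLocallyFiniteMeasure.withDensity_ofReal (cont_k.norm.pow 2)
  refine ⟨rho c (x gS), this, Rh.nu_tc h, withDensity_absolutelyContinuous _ _ ?_, ?_⟩
  · filter_upwards [Br.ae_be_pos c (h.perp gS), (bas_thm c).cone (x gS)] with p h1 h2
      using ⟨Rh.p0_pos h1 h2.1 h2.2, h2.2⟩
  obtain ⟨C, N, hC, hb⟩ := ST.clm_sn_c x
  refine ⟨2 * N + 5, Rh.temp (meas_sq2 (bd_ft g0_in.1).1) (fun p => (ENNReal.ofReal_pos.2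
    (pow_pos (norm_pos_iff.2 (g0_ne p)) 2)).ne')
    (C := (C * (4 ^ N * (1 + ‖mdL‖) ^ N * ST.sn V ℂ N gS)) ^ 2) fun ξ => ?_⟩
  have e := Rh.lint_tc h (ST.mdl (mdL ξ) gS)
  simp only [sq2, Two.ft_mdl] at e ⊢
  refine e.le.trans (ENNReal.ofReal_le_ofReal ?_)
  rw [pow_mul', ← mul_pow]
  refine pow_le_pow_left₀ (norm_nonneg _) ((hb _).trans ?_) 2
  rw [mul_assoc]
  refine mul_le_mul_of_nonneg_left ((ST.sn_mdl _ _ _).trans ?_) hC
  rw [mul_right_comm _ (ST.sn V ℂ N gS), mul_assoc (4 ^ N) ((1 + ‖mdL‖) ^ N),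
    ← mul_pow (1 + ‖mdL‖)]
  gcongr
  nlinarith [mdL.le_opNorm ξ, norm_nonneg ξ, norm_nonneg mdL]

theorem rho_row : B0 c → RHO c := fun _ => rho_thm c

end

end Vale.Agent.P352X.ZZ.TPD
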