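import Vale.Agent.P352Z.TPD.PRE
import Vale.Agent.P352Y.T3D

/-!
# P352Z, block TPD: row T3P (helper40)
-/

set_option linter.all false

noncomputable section

open Filter Topology Set Metric
open scoped SchwartzMap ComplexConjugate

namespace Vale.Agent.P352X.ZZ.TPD

open Vale.Agent.P352 Vale.Agent.P352.GF Vale.Agent.P352.BW Api4
open UniformSpace (Completion)
open Ap (Cc)
open Vale.Agent.P352X.ST (tens)

namespace T3

export Vale.Agent.P352Y (M3 e12 e23 s1 s2 sim3 sim3_apply p1 p2 Ag Rg Rg_23 Rr Kk Good braid cj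
  cj_smul tsupport_cj bd_two ker3_box open_Rg open_Rr Le le_box w3 exists_good cv_off tsupport_comp
  sw_tens)

/-! ## traceless multiplets -/

/-- the metric -/
def ei (I : I2) : ℂ := (bas I.1 (eta I.1) I.2 : ℝ)

lemma sum_ei (X : I2 → ℂ) : ∑ I, ei I * X I = ∑ m, eta m * X (m, m) := by
  simp [Fintype.sum_prod_type, ei, bas, apply_ite Complex.ofReal]

lemma ei_r {L : Ix → V} (hL : IsLor L) (I : I2) : ∑ m, eta m * L2 L I (m, m) = ei I := by
  rw [ei, ← hL.1, GF.mdot]
  simp [L2, mul_assoc]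

lemma ei_l {L : Ix → V} (hL : IsLor L) (I : I2) : ∑ m, eta m * L2 L (m, m) I = ei I := by
  rw [ei, ← lor_transpose hL]
  simp [L2, mul_assoc]

lemma ei_4 : ∑ m, eta m * ei (m, m) = 4 := by
  simp [ei, bas, Fin.sum_univ_four, eta, o]
  norm_num

/-- removal of the trace in the first slot -/
def r1 (t : M3) : M3 := fun I J K => t I J K - (ei I / 4) • ∑ m, (eta m : ℂ) • t (m, m) J K

lemma r1_apply (t : M3) (I J K : I2) (F : S3) :
    r1 t I J K F = t I J K F - ei I / 4 * ∑ m, eta m * t (m, m) J K F := by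
  simp [r1, ContinuousLinearMap.sum_apply]

lemma cv_r1 {s : ℝ} {L : Ix → V} {hs : 0 < s} {hL : IsLor L} {a : V} {t : M3} {F : S3}
    (h : P352Y.Cv hs hL a t F) : P352Y.Cv hs hL a (r1 t) F := fun I J K => by
  set Y : I2 → ℂ := fun I' => ∑ J', ∑ K', L2 L J' J * L2 L K' K * t I' J' K' (sim3 hs hL a F)
    with hY
  have h1 : ∀ I, t I J K F = ∑ I', L2 L I' I * Y I' := fun I => by
    simp only [h I J K, hY, Finset.mul_sum, mul_assoc]
  have h2 : ∑ m, eta m * t (m, m) J K F = ∑ m, eta m * Y (m, m) := by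
    simp only [h1, Finset.mul_sum, ← mul_assoc]
    rw [Finset.sum_comm, ← sum_ei]
    simp only [← Finset.sum_mul, ei_r hL]
  have h3 : ∑ J', ∑ K', L2 L J' J * L2 L K' K * ∑ m, eta m * t (m, m) J' K' (sim3 hs hL a F) =
      ∑ m, eta m * Y (m, m) := by
    simp only [hY, Finset.mul_sum]
    rw [Finset.sum_comm (γ := Ix)]
    refine Finset.sum_congr rfl fun J' _ => ?_
    rw [Finset.sum_comm (γ := Ix)]
    exact Finset.sum_congr rfl fun _ _ => Finset.sum_congr rfl fun _ _ => by ring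
  have h4 : ∀ I', ∑ J', ∑ K', L2 L I' I * L2 L J' J * L2 L K' K * r1 t I' J' K' (sim3 hs hL a F) =
      L2 L I' I * Y I' - ei I' * L2 L I' I * ((∑ m, eta m * Y (m, m)) / 4) := fun I' => by
    rw [← h3, hY, Finset.sum_div, Finset.mul_sum, Finset.mul_sum, ← Finset.sum_sub_distrib]
    refine Finset.sum_congr rfl fun _ _ => ?_
    rw [Finset.sum_div, Finset.mul_sum, Finset.mul_sum, ← Finset.sum_sub_distrib]
    exact Finset.sum_congr rfl fun _ _ => by rw [r1_apply]; ring
  simp only [h4, Finset.sum_sub_distrib, ← Finset.sum_mul]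
  rw [r1_apply, h2, ← h1, sum_ei, ei_l hL]
  ring

/-- traceless in the first slot -/
def Z1 (t : M3) : Prop := ∀ J K F, ∑ m, eta m * t (m, m) J K F = 0
/-- traceless in the second slot -/
def Z2 (t : M3) : Prop := ∀ I K F, ∑ m, eta m * t I (m, m) K F = 0
/-- traceless in the third slot -/
def Z3 (t : M3) : Prop := ∀ I J F, ∑ m, eta m * t I J (m, m) F = 0

variable {t : M3} {k : Bool → M3}

lemma z1_r1 (t : M3) : Z1 (r1 t) := fun J K F => by
  simp only [r1_apply, mul_sub, Finset.sum_sub_distrib, ← mul_assoc, ← Finset.sum_mul,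
    ← mul_div_assoc, ← Finset.sum_div, ei_4]
  ring

lemma z_aux (X : Ix → ℂ) (Y : Ix → Ix → ℂ) (a : ℂ) (h : ∑ m, eta m * X m = 0)
    (h' : ∀ n, ∑ m, eta m * Y n m = 0) : ∑ m, eta m * (X m - a * ∑ n, eta n * Y n m) = 0 := by
  have : ∑ m, eta m * ∑ n, eta n * Y n m = 0 := by
    simp only [Finset.mul_sum]
    rw [Finset.sum_comm]
    refine Finset.sum_eq_zero fun n _ => ?_
    simp only [mul_left_comm _ (eta n : ℂ), ← Finset.mul_sum, h', mul_zero]
  simp only [mul_sub, Finset.sum_sub_distrib, h, mul_left_comm _ a, ← Finset.mul_sum, this,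
    mul_zero, sub_zero]

lemma Z2.r1 (h : Z2 t) : Z2 (r1 t) := fun I K F => by
  simpa only [r1_apply] using z_aux _ (fun n m => t (n, n) (m, m) K F) _ (h I K F) fun n => h _ K F

lemma Z3.r1 (h : Z3 t) : Z3 (r1 t) := fun I J F => by
  simpa only [r1_apply] using z_aux _ (fun n m => t (n, n) J (m, m) F) _ (h I J F) fun n => h _ J F

lemma good_r1 (hk : ∀ e, Z1 (k e) ∧ Z2 (k e) ∧ Z3 (k e)) (h : Good k t) : Good k (r1 t) :=
  ⟨fun e i I J K F hF => by
    have z : Z1 (Kk k e i) := by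
      fin_cases i
      exacts [(hk e).1, fun J K F => (hk e).2.1 J K _, fun J K F => (hk e).2.1 K J _]
    simp only [r1_apply, fun I => h.ag e i I J K F hF, z J K F, mul_zero, sub_zero],
    fun L hL a F => cv_r1 (h.cv L hL a F)⟩

/-- **Symmetrisation.** -/
theorem good_symm (h2 : ∀ e, p2 (k e) = k e) (hk : ∀ e, Z1 (k e) ∧ Z2 (k e) ∧ Z3 (k e))
    (h : Good k t) : ∃ u, Good k u ∧ p1 u = u ∧ p2 u = u ∧ Z1 u := by
  have c := ((good_r1 hk (((good_r1 hk ((good_r1 hk h).p1 h2)).p2 h2).p1 h2)).p1 h2)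
  have a1 : Z2 (p1 (r1 t)) := fun I K F => z1_r1 t I K _
  have b1 : Z2 (p1 (p2 (r1 (p1 (r1 t))))) := fun I K F => z1_r1 _ K I _
  have b2 : Z3 (p1 (p2 (r1 (p1 (r1 t))))) := fun I J F => a1.r1 J I _
  have c1 : Z1 (p1 (r1 (p1 (p2 (r1 (p1 (r1 t))))))) := fun J K F => b1.r1 J K _
  have c2 : Z2 (p1 (r1 (p1 (p2 (r1 (p1 (r1 t))))))) := fun I K F => z1_r1 _ I K _
  have c3 : Z3 (p1 (r1 (p1 (p2 (r1 (p1 (r1 t))))))) := fun I J F => b2.r1 J I _
  generalize p1 (r1 (p1 (p2 (r1 (p1 (r1 t)))))) = v at c c1 c2 c3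
  have d := c.avg2 (c.p2 h2)
  refine ⟨_, d.avg3 (d.p1 h2) ((d.p1 h2).p2 h2), ?_, ?_, fun J K F => ?_⟩
  · funext I J K
    ext F
    simp only [P352Y.p1, P352Y.p2, Pi.smul_apply, Pi.add_apply, ContinuousLinearMap.smul_apply,
      ContinuousLinearMap.add_apply, ContinuousLinearMap.comp_apply, smul_eq_mul,
      show ∀ F, s1 (s1 F) = F from fun _ => rfl, show ∀ F, s2 (s2 F) = F from fun _ => rfl,
      show ∀ F, s2 (s1 (s2 F)) = s1 (s2 (s1 F)) from fun _ => rfl]
    ring
  · funext I J K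
    ext F
    simp only [P352Y.p1, P352Y.p2, Pi.smul_apply, Pi.add_apply, ContinuousLinearMap.smul_apply,
      ContinuousLinearMap.add_apply, ContinuousLinearMap.comp_apply, smul_eq_mul,
      show ∀ F, s2 (s2 F) = F from fun _ => rfl]
    ring
  · simp only [P352Y.p1, P352Y.p2, Pi.smul_apply, Pi.add_apply, ContinuousLinearMap.smul_apply,
      ContinuousLinearMap.add_apply, ContinuousLinearMap.comp_apply, smul_eq_mul, mul_add,
      fun m a b => mul_left_comm (eta m : ℂ) a b, Finset.sum_add_distrib]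
    simp only [← Finset.mul_sum, c1 _ _ _, c2 _ _ _, c3 _ _ _, mul_zero, add_zero]

/-! ## the kernels -/

variable {D : Type*} [NormedAddCommGroup D] [InnerProductSpace ℂ D] {Q : Theory D}
  {T : Ix → Ix → Fld D} {wp wm : I2 → I2 → S2 →L[ℂ] Completion D}

/-- one component applied to the vacuum -/
def tO (hT : P2 Q T) (I : I2) : Sch →L[ℂ] Completion D :=
  Completion.toComplL ∘L Grp.fC (ZZ.Grp.T_fld hT I.1 I.2) Q.vac

lemma tO_apply (hT : P2 Q T) (I : I2) (f : Sch) :
    tO hT I f = (T I.1 I.2 (ev f) Q.vac : D) := rfl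

lemma tO_perp (hT : P2 Q T) (I : I2) (f : Sch) : inner ℂ (om Q) (tO hT I f) = 0 :=
  (Completion.inner_coe _ _).trans (hT.perp _ _ _ ⟨f, rfl⟩)

lemma tO_cov (hT : P2 Q T) (hC : CT Q T) {s : ℝ} {L : Ix → V} (hs : 0 < s) (hL : IsLor L) (a : V) (I : I2)
    (f : Sch) : tO hT I f = ∑ K, L2 L K I • ueC Q hs hL a (tO hT K (Grp.simS hs hL a f)) := by
  rw [tO_apply, ← Q.U_vac s L a hs hL, Pr0.cov1 hs hL a
    fun m n f v => hC.cov m n s L a f v hs hL, Str.coe_sum]
  refine Finset.sum_congr rfl fun K _ => ?_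
  rw [Completion.coe_smul, tO_apply, ueC_apply, ue_coe hs hL]
  rfl

/-- the kernels -/
structure KP (hT : P2 Q T) (wp wm : I2 → I2 → S2 →L[ℂ] Completion D) (k : Bool → M3) :
    Prop where
  tt : ∀ I J K f G, k true I J K (tens f G) = inner ℂ (tO hT I (cj f)) (wp J K G)
  ff : ∀ I J K f G, k false I J K (tens f G) = inner ℂ (wm J K (cj G)) (tO hT I f)

theorem exists_kp (hT : P2 Q T) (wp wm : I2 → I2 → S2 →L[ℂ] Completion D) :
    ∃ k, KP hT wp wm k := by
  have h1 : ∀ I J K, ∃ u : S3 →L[ℂ] ℂ, ∀ f G,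
      u (tens f G) = inner ℂ (tO hT I (cj f)) (wp J K G) := fun I J K => by
    obtain ⟨m, C, h⟩ := bd_two ((tO hT I).restrictScalars ℝ ∘L cj) ((wp J K).restrictScalars ℝ)
    exact Wk.kernel (LinearMap.mk₂ ℂ (fun f G => inner ℂ (tO hT I (cj f)) (wp J K G))
      (fun _ _ _ => by simp only [map_add, inner_add_left])
      (fun _ _ _ => by rw [cj_smul, map_smul, inner_smul_left, Complex.conj_conj, smul_eq_mul])
      (fun _ _ _ => by simp only [map_add, inner_add_right])
      fun _ _ _ => by rw [map_smul, inner_smul_right, smul_eq_mul]) fun f G => (norm_inner_le_norm _ _).trans (h f G)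
  have h2 : ∀ I J K, ∃ u : S3 →L[ℂ] ℂ, ∀ f G,
      u (tens f G) = inner ℂ (wm J K (cj G)) (tO hT I f) := fun I J K => by
    obtain ⟨m, C, h⟩ := bd_two ((tO hT I).restrictScalars ℝ) ((wm J K).restrictScalars ℝ ∘L cj)
    exact Wk.kernel (LinearMap.mk₂ ℂ (fun f G => inner ℂ (wm J K (cj G)) (tO hT I f))
      (fun _ _ _ => by simp only [map_add, inner_add_right])
      (fun _ _ _ => by rw [map_smul, inner_smul_right, smul_eq_mul])
      (fun _ _ _ => by simp only [map_add, inner_add_left])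
      fun _ _ _ => by rw [cj_smul, map_smul, inner_smul_left, Complex.conj_conj, smul_eq_mul])
      fun f G => (norm_inner_le_norm _ _).trans ((mul_comm _ _).trans_le (h f G))
  choose u hu using h1
  choose v hv using h2
  exact ⟨fun e => cond e u v, hu, hv⟩

variable {hT : P2 Q T} {I J K : I2} {f g h : Sch}

include hT in
lemma w3_12 (a : Late (tsupport f) (tsupport g)) (b : Late (tsupport g) (tsupport f)) :
    w3 Q T I f J g K h = w3 Q T J g I f K h := congrArg _
  (Q.loc _ _ _ _ _ (hT.bose _ _) (ZZ.Grp.T_fld hT _ _) ⟨f, rfl⟩ ⟨g, rfl⟩ (Ap.sep_iff.2 ⟨a, b⟩))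

include hT in
lemma w3_23 (a : Late (tsupport g) (tsupport h)) (b : Late (tsupport h) (tsupport g)) :
    w3 Q T I f J g K h = w3 Q T I f K h J g := congrArg (fun v => inner ℂ Q.vac (T _ _ _ v))
  (Q.loc _ _ _ _ _ (hT.bose _ _) (ZZ.Grp.T_fld hT _ _) ⟨g, rfl⟩ ⟨h, rfl⟩ (Ap.sep_iff.2 ⟨a, b⟩))

include hT in
lemma herm_cj (I : I2) (f : Sch) (v w : D) :
    inner ℂ (T I.1 I.2 (ev (cj f)) v) w = inner ℂ v (T I.1 I.2 (ev f) w) := by
  rw [hT.herm _ _ _ _ _ ⟨_, rfl⟩, show bar (ev (cj f)) = ev f from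
    funext fun x => Complex.conj_conj _]

namespace KP

variable (kp : KP hT wp wm k) (tp : TP2 Q T true wp) (tm : TP2 Q T false wm)
include kp tp tm

lemma p2 (e : Bool) : P352Y.p2 (k e) = k e := by
  funext I J K
  refine ST.ext2 fun f G _ _ => ?_
  rw [P352Y.p2, ContinuousLinearMap.comp_apply, show s2 (tens f G) = tens f (Str.sw G) from rfl]
  cases e
  · rw [kp.ff, kp.ff, tm.swap J K (cj G) (cj (Str.sw G)) fun _ _ => rfl]
  · rw [kp.tt, kp.tt, tp.swap J K G (Str.sw G) fun _ _ => rfl]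

lemma trc (hC : CT Q T) (e : Bool) : Z1 (k e) ∧ Z2 (k e) ∧ Z3 (k e) := by
  have t0 : ∀ f, ∑ m, (eta m : ℂ) • tO hT (m, m) f = 0 := fun f => by
    simp only [tO_apply, ← Completion.coe_smul, ← Str.coe_sum]
    exact (congrArg _ (hC.trace _ _ ⟨f, rfl⟩)).trans Completion.coe_zero
  have t1 : ∀ {e w}, TP2 Q T e w → ∀ K G, ∑ m, (eta m : ℂ) • w (m, m) K G = 0 := fun h K G => by
    simpa only [ContinuousLinearMap.sum_apply, ContinuousLinearMap.smul_apply,
      ContinuousLinearMap.zero_apply, smul_eq_mul] using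
      DFunLike.congr_fun (h.trc K) G
  have l : ∀ (u : Ix → Completion D) v, ∑ m, (eta m : ℂ) • u m = 0 →
      ∑ m, eta m * inner ℂ (u m) v = 0 ∧ ∑ m, eta m * inner ℂ v (u m) = 0 := fun u v h => by
    have h1 := congrArg (inner ℂ · v) h
    have h2 := congrArg (inner ℂ v) h
    simp only [sum_inner, inner_sum, inner_smul_left, inner_smul_right, Complex.conj_ofReal,
      inner_zero_left, inner_zero_right] at h1 h2
    exact ⟨h1, h2⟩
  have x : ∀ u : Ix → S3 →L[ℂ] ℂ, (∀ f G, ∑ m, eta m * u m (tens f G) = 0) →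
      ∀ F, ∑ m, eta m * u m F = 0 := fun u h F => by
    have : ∑ m, (eta m : ℂ) • u m = 0 := ST.ext2 fun f G _ _ => by
      simpa only [ContinuousLinearMap.sum_apply, ContinuousLinearMap.smul_apply,
      ContinuousLinearMap.zero_apply, smul_eq_mul] using h f G
    simpa only [ContinuousLinearMap.sum_apply, ContinuousLinearMap.smul_apply,
      ContinuousLinearMap.zero_apply, smul_eq_mul] using
      DFunLike.congr_fun this F
  have z2 : Z2 (k e) := fun I K => x _ fun f G => by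
    cases e
    · simpa only [kp.ff] using (l _ _ (t1 tm K _)).1
    · simpa only [kp.tt] using (l _ _ (t1 tp K _)).2
  refine ⟨fun J K => x _ fun f G => ?_, z2, fun I J F => ?_⟩
  · cases e
    · simpa only [kp.ff] using (l _ _ (t0 _)).2
    · simpa only [kp.tt] using (l _ _ (t0 _)).1
  · rw [← kp.p2 tp tm e]
    exact z2 I J _

lemma cv (hC : CT Q T) (e : Bool) {s : ℝ} {L : Ix → V} (hs : 0 < s) (hL : IsLor L) (a : V) (F : S3) :
    P352Y.Cv hs hL a (k e) F := fun I J K => by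
  have key : k e I J K = ∑ I', ∑ J', ∑ K', (L2 L I' I * L2 L J' J * L2 L K' K) •
      (k e I' J' K' ∘L sim3 hs hL a) := ST.ext2 fun f G _ _ => by
    have e1 : sim3 hs hL a (tens f G) = tens (Grp.simS hs hL a f) (Str.sim2 hs hL a G) :=
      SchwartzMap.ext fun z => by
        rw [sim3_apply, ST.tens_apply, ST.tens_apply, Grp.simS_apply,
          Str.sim2_apply hs hL a G z.2.1 z.2.2]
    have r : ∀ K I, conj (L2 L K I) = L2 L K I := fun _ _ => Complex.conj_ofReal _
    simp only [ContinuousLinearMap.sum_apply, ContinuousLinearMap.smul_apply,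
      ContinuousLinearMap.comp_apply, e1, smul_eq_mul]
    cases e
    · obtain ⟨κ, hκ⟩ := tm.cov s L a J K (cj G) (cj (Str.sim2 hs hL a G)) hs hL fun x y =>
        congrArg conj (Str.sim2_apply hs hL a G x y)
      simp only [kp.ff]
      rw [hκ, inner_add_left, inner_smul_left, tO_perp, mul_zero, add_zero, tO_cov hT hC hs hL a I f]
      simp only [inner_sum, sum_inner, inner_smul_left, inner_smul_right, map_mul, r,
        ← ueC_apply hs hL, LinearIsometry.inner_map_map, Finset.mul_sum, mul_assoc]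
    · obtain ⟨κ, hκ⟩ := tp.cov s L a J K G _ hs hL (Str.sim2_apply hs hL a G)
      simp only [kp.tt]
      rw [hκ, inner_add_right, inner_smul_right, ← inner_conj_symm _ (om Q), tO_perp, map_zero,
        mul_zero, add_zero, tO_cov hT hC hs hL a I (cj f),
        show Grp.simS hs hL a (cj f) = cj (Grp.simS hs hL a f) from rfl]
      simp only [sum_inner, inner_smul_left, r]
      simp only [inner_sum, inner_smul_right, ← ueC_apply hs hL, LinearIsometry.inner_map_map,
        Finset.mul_sum, mul_assoc]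
  rw [key]
  simp only [ContinuousLinearMap.sum_apply, ContinuousLinearMap.smul_apply,
    ContinuousLinearMap.comp_apply, smul_eq_mul]

lemma sym (e : Bool) : k e I J K (tens f (tens g h)) = k e I K J (tens f (tens h g)) := by
  conv_lhs => rw [← kp.p2 tp tm e]
  rw [← sw_tens g h]
  rfl

omit tm in
lemma vt (a : Late (tsupport g) (tsupport h)) :
    k true I J K (tens f (tens g h)) = w3 Q T I f J g K h := by
  rw [kp.tt, tp.fac J K g h _ (fun _ _ => rfl) a, if_pos rfl, tO_apply, Completion.inner_coe,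
    herm_cj (hT := hT), w3]

omit tp in
lemma vf (a : Late (tsupport g) (tsupport h)) :
    k false I J K (tens f (tens g h)) = w3 Q T J g K h I f := by
  rw [kp.ff, tm.fac J K (cj g) (cj h) (cj (tens g h)) (fun _ _ => map_mul conj _ _)
    (Ap.late_mono a (tsupport_cj g) (tsupport_cj h)), if_neg (by simp), tO_apply,
    Completion.inner_coe, herm_cj (hT := hT), herm_cj (hT := hT), w3]

lemma alpha {e e' : Bool} (a : Le e f g ∧ Le e f h) (b : Le e' g f ∧ Le e' g h) :
    k e I J K (tens f (tens g h)) = k e' J I K (tens g (tens f h)) := by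
  cases e <;> cases e'
  · rw [kp.sym tp tm, kp.vf tm b.2, kp.sym tp tm, kp.vf tm a.2, w3_23 (hT := hT) a.1 b.1]
  · rw [kp.vf tm b.2, kp.sym tp tm, kp.vt tp a.2]
  · rw [kp.sym tp tm, kp.vt tp b.2, kp.vf tm a.2]
  · rw [kp.vt tp b.2, kp.vt tp a.2, w3_12 (hT := hT) a.1 b.1]

end KP

namespace KP

variable (kp : KP hT wp wm k) (tp : TP2 Q T true wp) (tm : TP2 Q T false wm)
include kp tp tm

lemma gamma (hc : P352Y.Cmp Q T wp wm) : Ag (Rg true ∩ Rg false) (k true) (k false) := fun I J K F hF => by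
  refine sub_eq_zero.1 (ST.vanish_local (k true I J K - k false I J K) F fun q hq => ?_)
  by_cases e : q.2.1 = q.2.2
  · obtain ⟨δ, hδ, h⟩ := hc q.1 q.2.1 ((Ap.sp_iff (A := {q.1}) (B := {q.2.1})).2
      ⟨fun _ a _ b => a ▸ b ▸ (hF hq).1.1, fun _ a _ b => a ▸ b ▸ (hF hq).2.1⟩ _ rfl _ rfl)
    refine ⟨δ, hδ, fun u hu => ST.ker2_local _ u fun r hr => ?_⟩
    obtain ⟨ε, hε, hb⟩ := Metric.isOpen_iff.1 isOpen_ball r (hu hr)
    rw [← ball_prod_same r.1 r.2, ← ball_prod_same q.1 q.2, Set.prod_subset_prod_iff'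
      ((nonempty_ball.2 hε).prod (nonempty_ball.2 hε))] at hb
    refine ⟨ε, hε, fun f G cf cG sf sG => ?_⟩
    rw [ContinuousLinearMap.sub_apply, kp.tt, kp.ff, sub_eq_zero]
    exact h I J K f G _ cf cG (sf.trans hb.1)
      ((sG.trans hb.2).trans (by rw [show q.2 = (q.2.1, q.2.1) from Prod.ext rfl e.symm]))
      fun _ => rfl
  · obtain ⟨δ, hδ, hd⟩ := Str.late_near e
    obtain ⟨ε, hε, hb⟩ := Metric.isOpen_iff.1 ((open_Rg true).inter (open_Rg false)) q (hF hq)
    refine ⟨min δ ε, lt_min hδ hε, fun u hu => ker3_box _ isOpen_ball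
      (fun A B C nA nB nC hs f g h sf sg sh => sub_eq_zero.2 ?_) hu⟩
    have h1 := fun x a y b z c => hb (ball_subset_ball (min_le_right _ _)
      (hs (mk_mem_prod (a := x) a (mk_mem_prod (a := y) (b := z) b c))))
    have a := le_box nB nC (fun x a y b z c => (h1 x a y b z c).1) sf sg sh
    have b := le_box nB nC (fun x a y b z c => (h1 x a y b z c).2) sf sg sh
    replace hs := hs.trans (ball_subset_ball (min_le_left _ _))
    rw [← ball_prod_same, ← ball_prod_same, Set.prod_subset_prod_iff' (nA.prod (nB.prod nC)),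
      Set.prod_subset_prod_iff' (nB.prod nC)] at hs
    show k true I J K (tens f (tens g h)) = k false I J K (tens f (tens g h))
    rcases hd with d | d
    · have d := Ap.late_mono d (sg.trans hs.2.1) (sh.trans hs.2.2)
      rw [kp.vt tp d, kp.vf tm d, w3_12 (hT := hT) a.1 b.1, w3_23 (hT := hT) a.2 b.2]
    · have d := Ap.late_mono d (sh.trans hs.2.2) (sg.trans hs.2.1)
      rw [kp.sym tp tm, kp.sym tp tm false, kp.vt tp d, kp.vf tm d, w3_12 (hT := hT) a.2 b.2,
        w3_23 (hT := hT) a.1 b.1]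

lemma same (hc : P352Y.Cmp Q T wp wm) (e e' : Bool) : Ag (Rg e ∩ Rg e') (k e) (k e') := by
  cases e <;> cases e'
  · exact fun _ _ _ _ _ => rfl
  · exact fun I J K F hF => (kp.gamma tp tm hc I J K F (inter_comm _ _ ▸ hF)).symm
  · exact kp.gamma tp tm hc
  · exact fun _ _ _ _ _ => rfl

/-- **compatibility of the pieces** -/
theorem compat (hc : P352Y.Cmp Q T wp wm) (e e' : Bool) (i j : Fin 3) :
    Ag (Rr e i ∩ Rr e' j) (Kk k e i) (Kk k e' j) := by
  have key : ∀ e e', Ag (Rr e 0 ∩ Rr e' 1) (Kk k e 0) (Kk k e' 1) := fun e e' I J K F hF => by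
    refine sub_eq_zero.1 (ker3_box (Kk k e 0 I J K - Kk k e' 1 I J K)
      ((open_Rr e 0).inter (open_Rr e' 1))
      (fun A B C nA nB nC hs f g h sf sg sh => sub_eq_zero.2 ?_) hF)
    have h1 := fun x a y b z c => hs (mk_mem_prod (a := x) a (mk_mem_prod (a := y) (b := z) b c))
    refine (kp.alpha tp tm (le_box nB nC (fun x a y b z c => (h1 x a y b z c).1) sf sg sh)
      (le_box nA nC (fun y b x a z c => (h1 x a y b z c).2) sg sf sh)).trans ?_
    exact congrArg _ (SchwartzMap.ext fun z => mul_left_comm _ _ _)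
  have k2 : ∀ e e', Ag (Rr e 0 ∩ Rr e' 2) (Kk k e 0) (Kk k e' 2) := fun e e' => by
    have := (key e e').p2
    rwa [preimage_inter, show P352Y.p2 (Kk k e 0) = Kk k e 0 from kp.p2 tp tm e,
      show e23 ⁻¹' Rr e 0 = Rr e 0 from Rg_23 e] at this
  have k3 : ∀ e e', Ag (Rr e 1 ∩ Rr e' 2) (Kk k e 1) (Kk k e' 2) := fun e e' => by
    have := (k2 e e').p1
    rwa [preimage_inter, show P352Y.p1 (Kk k e' 2) = Kk k e' 2 from
      (braid _).trans (by rw [kp.p2 tp tm]; rfl),
      show e12 ⁻¹' Rr e' 2 = Rr e' 2 from Set.ext fun _ => and_comm] at this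
  have sy : ∀ {U U' t t'}, Ag (U ∩ U') t t' → Ag (U' ∩ U) t' t := fun h I J K F hF =>
    (h I J K F (inter_comm _ _ ▸ hF)).symm
  fin_cases i <;> fin_cases j
  exacts [kp.same tp tm hc e e', key e e', k2 e e', sy (key e' e), (kp.same tp tm hc e e').p1,
    k3 e e', sy (k2 e' e), sy (k3 e' e), (kp.same tp tm hc e e').p1.p2]

end KP

/-- **The time ordered three point function exists.** -/
theorem exists_t (hT : P2 Q T) (hC : CT Q T) (tp : TP2 Q T true wp) (tm : TP2 Q T false wm)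
    (hc : P352Y.Cmp Q T wp wm) : ∃ t, TP Q T wp wm t := by
  obtain ⟨k, kp⟩ := exists_kp hT wp wm
  have hcv := fun e s L hs hL => kp.cv tp tm hC e (s := s) (L := L) hs hL
  obtain ⟨t, ht⟩ := exists_good hcv (kp.compat tp tm hc)
  obtain ⟨u, hu, u1, u2, u3⟩ := good_symm (kp.p2 tp tm) (kp.trc tp tm hC) ht
  refine ⟨u, tp, tm, fun I J K f G F e h => ?_, fun I J K G G' f F e e' h => ?_,
    fun I J K F G e => ?_, fun I J K F G e => ?_, fun J K => ?_, fun s L a I J K F G hs hL e h => ?_⟩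
  · obtain rfl : F = ST.tens f G := SchwartzMap.ext fun z => e z.1 z.2.1 z.2.2
    refine (hu.ag true 0 I J K _ fun z hz => ?_).trans (kp.tt I J K f G)
    have := ST.tsupport_tens f G hz
    exact ⟨h _ this.1 _ (.inl ⟨_, this.2, rfl⟩), h _ this.1 _ (.inr ⟨_, this.2, rfl⟩)⟩
  · obtain rfl : G' = cj G := SchwartzMap.ext e'
    have e2 : s1 (s2 F) = ST.tens f G := SchwartzMap.ext fun z =>
      (e z.2.1 z.2.2 z.1).trans (mul_comm _ _)
    refine (hu.ag false 2 I J K F fun z hz => ?_).trans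
      ((congrArg (k false K I J) e2).trans (kp.ff K I J f G))
    have := ST.tsupport_tens f G (tsupport_comp (e := fun z : V × V × V => (z.2.2, z.1, z.2.1))
      (by fun_prop) (fun z a => (e z.1 z.2.1 z.2.2).trans ((mul_comm _ _).trans a)) hz)
    exact ⟨h _ (.inl ⟨_, this.2, rfl⟩) _ this.1, h _ (.inr ⟨_, this.2, rfl⟩) _ this.1⟩
  · obtain rfl : G = s1 F := SchwartzMap.ext fun z => e z.1 z.2.1 z.2.2
    exact (congrArg (fun v : M3 => v I J K F) u1).symm
  · obtain rfl : G = s2 F := SchwartzMap.ext fun z => e z.1 z.2.1 z.2.2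
    exact (congrArg (fun v : M3 => v I J K F) u2).symm
  · ext F
    simpa only [ContinuousLinearMap.sum_apply, ContinuousLinearMap.smul_apply,
      ContinuousLinearMap.zero_apply, smul_eq_mul] using u3 J K F
  · obtain rfl : G = sim3 hs hL a F := SchwartzMap.ext fun z =>
      (e z.1 z.2.1 z.2.2).trans (sim3_apply hs hL a F z).symm
    rcases h with rfl | h
    exacts [hu.cv L hL a F I J K, cv_off hcv hu.ag hs hL a h I J K]

end T3

/-- **row T3P** -/
theorem t3p_row {D : Type*} [NormedAddCommGroup D] [InnerProductSpace ℂ D] (c : Ctx D) :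
    B0 c → T3P c := fun _ hC _ _ tp tm hc =>
  T3.exists_t c.hT (c.hC0 hC).ct tp tm fun x y h =>
    (hc x y h).imp fun _ a => ⟨a.1, fun I J K f G G' _ _ => a.2 I J K f G G'⟩

end Vale.Agent.P352X.ZZ.TPD
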