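import Vale.Agent.P352Z.TPD.Spec
import Vale.Agent.P352X.TPD.Ten2
import Vale.Agent.P352X.TPD.Ten3
import Vale.Agent.P352X.TPD.Ut

/-!
# P352Z, block TPD: symbols, small common lemmas (helper18)
-/

set_option linter.all false

open MeasureTheory Filter Topology
open scoped SchwartzMap ComplexConjugate ENNReal ContDiff

namespace Vale.Agent.P352X.ZZ.TPD

open Vale.Agent.P352 Vale.Agent.P352.GF Vale.Agent.P352.BW Vale.Agent.P352.H246
open Vale.Agent.P352.H496 Vale.Agent.P352.H755 Vale.Agent.P352.H15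
open Vale.Agent.P352X.TPD.Tn1 Vale.Agent.P352X.TPD.Tn2
open UniformSpace (Completion)

noncomputable section

export Vale.Agent.P352X.TPD (sim_id cm_one one_cm lor_one ec0 tt_ext)

theorem ten_thm : TEN :=
  P352X.TPD.TEN.of P352X.TPD.ten1_row P352X.TPD.ten2_row P352X.TPD.ten3_row

namespace Tn4

variable {κ : Type} [Fintype κ] [DecidableEq κ] {a : Sb κ} {X X' : V → Tn κ} {χ χ' : V → ℝ}
  {L : Ix → V}

lemma sm_dX (h : ContDiff ℝ ∞ X) (m : Ix) : ContDiff ℝ ∞ (dX m X) :=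
  contDiff_pi.2 fun ν => Ap.smooth_dr (contDiff_pi.1 h ν) m

lemma sm_lin {ι : Type} [Fintype ι] [DecidableEq ι] (A : Tn κ →ₗ[ℝ] Tn ι) (h : ContDiff ℝ ∞ X) :
    ContDiff ℝ ∞ fun u => A (X u) := (LinearMap.toContinuousLinearMap A).contDiff.comp h

lemma sm_dA (a : Sb κ) (h : ContDiff ℝ ∞ X) : ContDiff ℝ ∞ (dA a X) :=
  ContDiff.sum fun m _ => sm_lin (a m) (sm_dX h m)

lemma dX_pf (h : ContDiff ℝ ∞ X) (s : ℝ) (L : Ix → V) (m : Ix) (u : V) :
    dX m (pf s L X) u = s • ∑ t, L m t • pb L (dX t X (sim s L 0 u)) := by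
  have c : ∀ μ, ContDiff ℝ ∞ fun v => X v μ := contDiff_pi.1 h
  funext ν
  simp only [dX, pf, pb_apply, Pi.smul_apply, Finset.sum_apply, smul_eq_mul]
  rw [dr_sum (f := fun μ v => X (sim s L 0 v) μ) fun μ => (c μ).comp (cd_sim s L)]
  simp only [dr_sim (c _), Finset.mul_sum]
  rw [Finset.sum_comm]
  exact Finset.sum_congr rfl fun _ _ => Finset.sum_congr rfl fun _ _ => by ring

lemma dA_pf (e : Eqv a) (h : ContDiff ℝ ∞ X) (s : ℝ) (hL : IsLor L) :
    dA a (pf s L X) = s • pf s L (dA a X) := by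
  funext u
  simp only [dA, dX_pf h, map_smul, map_sum, pf, Pi.smul_apply, e L _ _ hL, ← Finset.smul_sum]
  rw [Finset.sum_comm]

lemma bA_pf (e : Eqv a) (h : ContDiff ℝ ∞ χ) (X : V → Tn κ) (s : ℝ) (hL : IsLor L) :
    bA a (fun u => χ (sim s L 0 u)) (pf s L X) = s • pf s L (bA a χ X) := by
  funext u
  simp only [bA, dr_sim h, pf, map_sum, map_smul, Pi.smul_apply, e L _ _ hL, Finset.smul_sum,
    smul_smul, Finset.mul_sum, Finset.sum_smul]
  rw [Finset.sum_comm]
  exact Finset.sum_congr rfl fun _ _ => Finset.sum_congr rfl fun _ _ => by congr 1; ring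

lemma ok_bA (a : Sb κ) (h : Tst χ) (h0 : ∀ᶠ u in 𝓝 (0 : V), χ u = χ 0) (hX : ContDiff ℝ ∞ X) :
    Ok (bA a χ X) ∧ tsupport (bA a χ X) ⊆ tsupport χ :=
  ok_of h (h0.eventually_nhds.mono fun u hu => by simp [bA, dr_zero hu])
    (ContDiff.sum fun m _ => (Ap.smooth_dr h.1 _).smul (sm_lin (a m) hX))
    fun u hu => by simp [bA, dr_zero hu]

lemma bA_add (a : Sb κ) (χ : V → ℝ) (X X' : V → Tn κ) :
    bA a χ (X + X') = bA a χ X + bA a χ X' := funext fun u => by
  simp [bA, Finset.sum_add_distrib]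

lemma bA_smul (a : Sb κ) (χ : V → ℝ) (t : ℝ) (X : V → Tn κ) : bA a χ (t • X) = t • bA a χ X :=
  funext fun u => by simp [bA, Finset.smul_sum, smul_comm t]

lemma dA_a1 (X : V → Tn (Fin 3)) : dA a1 X = d1 X := by
  funext u ν
  simp [dA, a1, d1, dX, bas, Finset.sum_apply]

lemma bA_a1 (χ : V → ℝ) (X : V → Tn (Fin 3)) : bA a1 χ X = b1 χ X := by
  funext u ν
  simp [bA, a1, b1, bas, Finset.sum_apply]

theorem eqv_a1 : Eqv a1 := fun L t X _ => by
  funext ν
  have e : (∑ r, L r t • a1 r (pb L X)) ν = L (ν 0) t * pb L X ![ν 1, ν 2, ν 3] := by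
    simp [Finset.sum_apply, a1, bas]
  rw [e, pb4, Finset.sum_eq_single t (fun r _ hr => by simp [a1, bas, hr]) (by simp)]
  simp [pb3, a1, bas, Finset.mul_sum, mul_comm, mul_left_comm, mul_assoc]

/-- the contraction with the first index -/
def a0 : Sb (Fin 5) := fun m =>
  { toFun := fun X ν => eta m * X (Matrix.vecCons m ν)
    map_add' := fun _ _ => funext fun _ => mul_add _ _ _
    map_smul' := fun _ _ => funext fun _ => mul_left_comm _ _ _ }

lemma eqv_a0 : Eqv a0 := fun L t X hL => by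
  funext ν
  have e : ∀ r, pb L X (Matrix.vecCons r ν) =
      ∑ k, L r k * pb L (fun μ => X (Matrix.vecCons k μ)) ν := fun r => by
    simp only [pb_apply, sum_succ (n := 4), Fin.prod_univ_succ (n := 4), Matrix.cons_val_zero,
      Matrix.cons_val_succ, Finset.mul_sum, mul_assoc]
  have e2 : a0 t X = eta t • fun μ => X (Matrix.vecCons t μ) := rfl
  rw [e2, map_smul]
  simp only [Finset.sum_apply, Pi.smul_apply, smul_eq_mul, a0, LinearMap.coe_mk, AddHom.coe_mk, e,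
    Finset.mul_sum]
  rw [Finset.sum_comm]
  simp only [← mul_assoc, ← Finset.sum_mul]
  simp only [mul_comm (L _ t), lor_transpose hL]
  simp [bas]

/-- permutations of the indices -/
def pm {ι : Type} (σ : Equiv.Perm ι) : Tn ι →ₗ[ℝ] Tn ι := LinearMap.funLeft ℝ ℝ fun ν => ν ∘ σ

lemma pb_pm {ι : Type} [Fintype ι] [DecidableEq ι] (σ : Equiv.Perm ι) (L : Ix → V) (X : Tn ι) :
    pm σ (pb L X) = pb L (pm σ X) := (pb_perm σ L X).symm

/-- the antisymmetrisation in the first three indices -/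
def alt : Tn (Fin 5) →ₗ[ℝ] Tn (Fin 5) := LinearMap.id - pm (.swap 1 2) +
  pm (.swap 0 1 * .swap 0 2) - pm (.swap 0 1) + pm (.swap 0 1 * .swap 1 2) - pm (.swap 0 2)

lemma aB_eq (m : Ix) (X : Tn (Fin 5)) : aB m X = a0 m (alt X) := by
  funext ν
  have e : ∀ (σ : Equiv.Perm (Fin 5)) (μ : Fin 5 → Ix), pm σ X μ =
      X ![μ (σ 0), μ (σ 1), μ (σ 2), μ (σ 3), μ (σ 4)] := fun σ μ =>
    congrArg X (funext fun i => by fin_cases i <;> rfl)
  have e0 : X (Matrix.vecCons m ν) = X ![m, ν 0, ν 1, ν 2, ν 3] :=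
    congrArg X (funext fun i => by fin_cases i <;> rfl)
  simp only [a0, alt, LinearMap.coe_mk, AddHom.coe_mk, LinearMap.add_apply, LinearMap.sub_apply,
    LinearMap.id_apply, Pi.add_apply, Pi.sub_apply, e, e0]
  rfl

theorem eqv_aB : Eqv aB := fun L t X hL => by
  have : alt (pb L X) = pb L (alt X) := by
    simp only [alt, LinearMap.add_apply, LinearMap.sub_apply, LinearMap.id_apply, pb_pm, map_add,
      map_sub]
  simp only [aB_eq, eqv_a0 L t _ hL, this]

lemma swp_eq (t : Tn (Fin 4)) : swp t = pm (.swap 0 2 * .swap 1 3) t :=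
  funext fun ν => congrArg t (funext fun i => by fin_cases i <;> rfl)

lemma swp_pb (L : Ix → V) (t : Tn (Fin 4)) : swp (pb L t) = pb L (swp t) := by
  rw [swp_eq, swp_eq, pb_pm]

end Tn4

variable {D : Type*} [NormedAddCommGroup D] [InnerProductSpace ℂ D] {c : Ctx D}

lemma ga_mul (B : BA c) {s s' : ℝ} {L L' : Ix → V} (x : Fam D) (hs : 0 < s) (hs' : 0 < s')
    (hL : IsLor L) (hL' : IsLor L') :
    ga c s L (ga c s' L' x) = ga c (s * s') (T.cm L' L) x := by
  funext l η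
  rw [ga_apply, ga_apply, ga_apply, B.mul _ _ _ _ _ hs hs' hL hL',
    (ten_thm.pull η s s' L L' hs hs' hL hL').1, Real.log_mul hs.ne' hs'.ne', add_assoc]

/-- dilations commute with everything -/
lemma ga_dil (B : BA c) {s : ℝ} {L : Ix → V} (hs : 0 < s) (hL : IsLor L) (x : Fam D) :
    ga c s L x = ga c 1 L (ga c s GF.one x) ∧ ga c s L x = ga c s GF.one (ga c 1 L x) := by
  rw [ga_mul B _ one_pos hs hL (lor_one ten_thm), ga_mul B _ hs one_pos (lor_one ten_thm) hL,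
    one_mul, mul_one, cm_one, one_cm]
  exact ⟨rfl, rfl⟩

lemma tc_sum (B : BA c) {ι : Type*} (s : Finset ι) {x : ι → TT D} (h : ∀ r, TC c (x r)) :
    TC c (∑ r ∈ s, x r) := Finset.sum_induction _ _ B.tc_add B.tc0 fun r _ => h r

lemma loc_sum (B : BA c) {ι : Type*} (s : Finset ι) {σ K} {x : ι → TT D}
    (h : ∀ r, Loc c σ K (x r)) : Loc c σ K (∑ r ∈ s, x r) :=
  Finset.sum_induction _ _ (B.loc_add σ K) (B.loc0 σ K) fun r _ => h r

lemma tc_sub (B : BA c) {x y : TT D} (h : TC c x) (h' : TC c y) : TC c (x - y) := by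
  simpa only [neg_one_smul, ← sub_eq_add_neg] using B.tc_add _ _ h (B.tc_smul (-1) _ h')

lemma loc_sub (B : BA c) {σ K} {x y : TT D} (h : Loc c σ K x) (h' : Loc c σ K y) :
    Loc c σ K (x - y) := by
  simpa only [neg_one_smul, ← sub_eq_add_neg] using B.loc_add _ _ _ _ h (B.loc_smul _ _ (-1) _ h')

/-- logarithmic families vanish if the homogeneous distributions vanish -/
theorem LH.zero (B : BA c) {σ : ℝ} {k K : ℕ} (u : ∀ y, Hom c σ k y → y = 0) {y : ℝ → TT D}
    (h : LH c σ k y) (p : PL K y) (l : ℝ) : y l = 0 :=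
  PL.kill (P := LH c σ k) (fun x t hx => ⟨fun _ => tc_sub B (hx.tc _) (hx.tc _),
    fun _ => loc_sub B (hx.loc _) (hx.loc _), fun l s hs => by
      rw [map_sub, smul_sub, add_right_comm, hx.hom _ s hs, hx.hom _ s hs]⟩)
    (fun a ha => u a ⟨ha.tc 0, ha.loc 0, ha.hom 0⟩) p h l

end

end Vale.Agent.P352X.ZZ.TPD
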