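import Vale.Agent.P352X.TPD.WL2
import Vale.Agent.P352Z.TPD.Spec
import Vale.Agent.P352Z.R.TWO.Mu
import Vale.Agent.P352Z.Api1C
import Vale.Agent.P352Z.R.GRP
import Vale.Agent.P352Z.R.KD.B

/-!
# P352Z, block TPD: the weight lemma, row WL (port, helper18)
-/

set_option linter.all false

noncomputable section

namespace Vale.Agent.P352X.ZZ.Wl

open MeasureTheory Filter Topology Complex Set
open scoped Real SchwartzMap ENNReal
open Vale.Agent.P352 Vale.Agent.P352.GF Vale.Agent.P352.BW ZZ.Two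
open Vale.Agent.P352X.Two hiding Phi_W rho rho_map ug_ut rel_clm rho_fin nu_eq
open Vale.Agent.P352.H496 (Wdg)
open UniformSpace (Completion)

export Vale.Agent.P352Y.Wl (pb pb_apply bS bS_apply ee ft_bS cont_bS dyadic bx closed_bx cpt_bx mem_bx
  sim_dil kms ex_G Gs gz int_gz cont_gz Gr gauss)

variable {D : Type*} [NormedAddCommGroup D] [InnerProductSpace ℂ D] {c : Ctx D} {d : ℕ}
  {om om' : Sch →L[ℂ] Completion D}

/-- translation covariant distributions of dimension `d`, orthogonal to the vacuum -/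
structure Hom (c : Ctx D) (d : ℝ) (om : Sch →L[ℂ] Completion D) : Prop where
  tr : ∀ y f, om (ST.tsl y f) = Ut c.Q y (om f)
  sc : ∀ s (f g : Sch), 0 < s → (∀ x, g x = f (s • x)) →
    om f = ((s ^ (4 - d) : ℝ) : ℂ) • Ug c.Q s GF.one 0 (om g)
  perp : ∀ f, inner ℂ c.Om (om f) = 0

lemma Hom.rel {d : ℝ} (h : Hom c d om) (f g : Sch) :
    c.bt.Phi (ft (ev g)) (om f) = c.bt.Phi (ft (ev f)) (om g) :=
  rel_clm om (fun y _ => h.tr y f) fun y _ => h.tr y g

lemma Hom.hom (h : Hom c d om) {A : Set V} (hA : MeasurableSet A) {s : ℝ} (hs : 0 < s) :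
    rho c (om gS) ((fun p => s⁻¹ • p) ⁻¹' A) = ENNReal.ofReal (s ^ (2 * d)) * rho c (om gS) A := by
  have i := inv_pos.2 hs
  have e := h.sc s⁻¹ gS (pb (conf_smul i.ne') gS) i fun _ => rfl
  have := rho_map ((grp_row c).uni s⁻¹ GF.one 0) (conf_smul i.ne') (t := (s⁻¹ ^ (4 - d : ℝ))⁻¹)
    (by positivity) (measurable_const_smul s⁻¹) (measurable_const_smul s)
    (fun y => sim_dil s⁻¹ y ▸ ug_ut i H496.isLor_one y) (fun p y => by rw [H755.md_smul, H755.md_smul_l])
    (fun p => inv_smul_smul₀ hs.ne' p) (fun p => smul_inv_smul₀ hs.ne' p)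
    (h.rel (pb (conf_smul i.ne') gS) gS) (v' := om gS) (by
      rw [ofReal_inv, eq_inv_smul_iff₀ (ofReal_ne_zero.2 (by positivity)), ← e])
  rw [← Measure.map_apply (measurable_const_smul _) hA, this, Measure.smul_apply, smul_eq_mul,
    Real.rpow_sub i, show (4 : ℝ) = (4 : ℕ) by norm_num, Real.rpow_natCast, Real.rpow_natCast]
  congr 2
  field_simp
  rw [one_div, inv_pow, pow_mul', ← mul_pow, inv_mul_cancel₀ (by positivity), one_pow]

/-- **growth under the boosts** -/
theorem Hom.gr (h : Hom c d om) (f : Sch) : Gr d fun t => Bo c.Q t (om (bS t f)) := by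
  have g := grp_row c
  refine ⟨g.sc_cont (fun t => ⟨Real.exp_pos _, Real.exp_pos _⟩) (by fun_prop) (by fun_prop)
    (om.continuous.comp (cont_bS f)), ?_⟩
  obtain ⟨m, C, C0, hC⟩ := ft_decay (d + 1)
  set ρ := rho c (om gS)
  have fin : ∀ ε, ρ (bx ε) ≠ ∞ := fun ε => (rho_fin _ univ _ (cpt_bx ε) (subset_univ _)).ne
  have l := tendsto_measure_biInter_gt (μ := ρ) (s := bx) (a := 0)
    (fun r _ => (closed_bx r).measurableSet.nullMeasurableSet)
    (fun i j _ k u hu => ⟨hu.1, hu.2.1, hu.2.2.trans k⟩) ⟨1, one_pos, fin 1⟩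
  rw [measure_mono_null (μ := ρ) (t := {p | tx p = 0}) (fun u hu => norm_le_zero_iff.1
    (le_of_forall_pos_le_add fun ε hε => by simpa using (mem_iInter₂.1 hu ε hε).2.2))
    (withDensity_absolutelyContinuous _ _ ((bas_thm c).ker _ (h.perp _)).2.2.1)] at l
  have l1 : Tendsto (fun t : ℝ => 2 * rexp (-|t|)) (cocompact ℝ) (𝓝[>] 0) :=
    tendsto_nhdsWithin_iff.2 ⟨((Real.tendsto_exp_neg_atTop_nhds_zero.comp
      (tendsto_norm_cocompact_atTop (E := ℝ))).const_mul 2).trans_eq (by rw [mul_zero]),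
      .of_forall fun t => mul_pos two_pos (Real.exp_pos _)⟩
  have l2 := ((((ENNReal.tendsto_toReal ENNReal.zero_ne_top).comp (l.comp l1)).const_mul
    ((C * sn m f) ^ 2)).mul_const 2).sqrt
  simp only [ENNReal.toReal_zero, mul_zero, zero_mul, Real.sqrt_zero] at l2
  refine squeeze_zero (fun t => by positivity) (fun t => Real.le_sqrt_of_sq_le ?_) l2
  have k := dyadic (closed_bx (2 * rexp (-|t|))).measurableSet
    (fun s hs => h.hom (closed_bx _).measurableSet hs) (F := sq2 (ft (ev (bS t f))))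
    (sq_nonneg (C * sn m f)) (Real.exp_pos |t|) fun p => by
      set q := scp (rexp t) (rexp (-t)) p
      obtain ⟨k, k1, k2⟩ := exists_nat_pow_near (le_add_of_nonneg_right (norm_nonneg q))
        (one_lt_two (α := ℝ))
      refine ⟨k, mem_bx (by positivity) (by linarith [pow_succ' (2 : ℝ) k]),
        ENNReal.ofReal_le_ofReal ?_⟩
      rw [ft_bS, le_div_iff₀' (by positivity)]
      refine le_trans ?_ (pow_le_pow_left₀ (by positivity) (hC f q) 2)
      rw [mul_pow, ← pow_mul (1 + ‖q‖)]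
      exact mul_le_mul_of_nonneg_right ((pow_le_pow_right₀ (one_le_pow₀ one_le_two)
        (show 2 * d + 1 ≤ (d + 1) * 2 by omega)).trans (pow_le_pow_left₀ (by positivity) k1 _))
        (sq_nonneg _)
  rw [← setLIntegral_univ, ← withDensity_apply _ .univ,
    ← nu_eq (bd_ft ⟨_, rfl⟩) (h.rel (bS t f) gS)] at k
  have k' := ENNReal.toReal_mono (ENNReal.mul_ne_top (ENNReal.mul_ne_top ENNReal.ofReal_ne_top
    (fin _)) ENNReal.ofNat_ne_top) k
  rw [ENNReal.toReal_mul, ENNReal.toReal_mul, ENNReal.toReal_ofReal (by positivity),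
    ENNReal.toReal_ofNat, ← measureReal_def, c.bt.nu_univ] at k'
  rw [mul_pow, Bo, Usc, g.ug_norm, Real.exp_neg, inv_pow, inv_mul_le_iff₀ (by positivity),
    Real.exp_nat_mul, ← pow_mul, mul_comm d]
  exact k'.trans_eq (by simp only [Function.comp_apply]; ring)

lemma Hom.key {d : ℝ} (h : Hom c d om) (f g : Sch) (s : ℝ) : c.bt.Phi (ft (ev f)) (Bo c.Q s (om g)) =
    Bo c.Q s (c.bt.Phi (ft (ev g)) (om (bS s f))) := by
  rw [h.rel, Phi_W (k := scp (rexp (-s)) (rexp s)) (meas_scp _ _) ((grp_row c).bo_ut s)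
    (fun p y => md_scp_l p y) (bd_ft ⟨_, rfl⟩)]
  simp only [ft_bS, scp_scp _ (Real.exp_nonneg _) (Real.exp_nonneg _), ee, mul_comm (rexp (-s)),
    scp_one]

lemma Hom.lim (h : Hom c d om) (f : Sch) {G : ℕ → Sch} (b : ∀ n p, ‖ft (ev (G n)) p‖ ≤ 1)
    (l : ∀ p, Tendsto (fun n => ft (ev (G n)) p) atTop (𝓝 1)) (z : ℂ) :
    Tendsto (fun n => c.bt.Phi (ft (ev f)) (Gs (fun s => Bo c.Q s (om (G n))) z)) atTop
      (𝓝 (Gs (fun s => Bo c.Q s (om (bS s f))) z)) := by
  have u := (grp_row c).ugB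
  have i : ∀ v, Integrable fun s => gz z s • Bo c.Q s v := fun v =>
    ((int_gz z 0).norm.mul_const ‖v‖).mono' ((cont_gz z).smul (u.cont v)).aestronglyMeasurable
      (.of_forall fun s => by simp [norm_smul, u.norm])
  simp only [Gs, ← ContinuousLinearMap.integral_comp_comm _ (i _), map_smul]
  refine tendsto_integral_of_dominated_convergence _ (fun n => ((cont_gz z).smul
    ((c.bt.Phi _).continuous.comp (u.cont _))).aestronglyMeasurable) ((h.gr f).int z).norm
    (fun n => .of_forall fun s => ?_) (.of_forall fun s => ?_)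
  · simp only [h.key, norm_smul, u.norm]
    gcongr
    exact (c.bt.norm_le (bd_ft ⟨_, rfl⟩) zero_le_one _ (.of_forall (b n))).trans_eq (one_mul _)
  · simp only [h.key]
    have := c.bt.tendsto_Phi (fun n => bd_ft ⟨G n, rfl⟩) (SN.Bd.const 1) (v := om (bS s f))
      (.of_forall fun n => .of_forall (b n)) (.of_forall l)
    rw [c.bt.const_apply, one_smul] at this
    exact (((Bo c.Q s).continuous.tendsto _).comp this).const_smul _

variable (c) in
/-- locality in the wedge: the partner of `om g` is `J om' (g ∘ j)` -/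
def Lc (om om' : Sch →L[ℂ] Completion D) : Prop := ∀ g g' : Sch, HasCompactSupport g →
  tsupport g ⊆ Wdg va vb 0 → (∀ x, g' x = g (jr x)) →
    Pr (c.N (Wdg va vb 0)) c.Om (om g) (c.J (om' g'))

lemma Lc.shift (h : Hom c d om) (h' : Hom c d om') (l : Lc c om om') (f : Sch) (z : ℂ) :
    Gs (fun s => Bo c.Q s (om (bS s f))) (z + π * I) = Gs (fun s => Bo c.Q s (om' (bS s f))) z := by
  obtain ⟨G, g1, g2, g3⟩ := ex_G
  have e : ∀ n p, ft (ev (pb conf_jr (G n))) p = ft (ev (G n)) (jr p) := fun n p =>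
    (Two.ft_conf conf_jr (q := jr p) (fun z => md_jr p z) (ev (G n))).trans (by simp)
  refine tendsto_nhds_unique (h.lim f g2 g3 _) ((h'.lim f (G := fun n => pb conf_jr (G n))
    (fun n p => e n p ▸ g2 n _) (fun p => by simpa only [e] using g3 _) z).congr fun n => ?_)
  have := kms c.E (l (G n) (pb conf_jr (G n)) (g1 n).1 (g1 n).2 fun _ => rfl) z
  simp only [← KDa.bo_eq, c.E.J_J] at this
  rw [this]

lemma bo_zero (f : Sch) : Bo c.Q 0 (om (bS 0 f)) = om f := by
  rw [(grp_row c).ugB.zero', show bS 0 f = f from SchwartzMap.ext fun x => by simp [bS_apply, scp_one]]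
  rfl

/-- **The weight lemma.** -/
theorem wl (h : Hom c d om) (h' : Hom c d om') (l : Lc c om om') (l' : Lc c om' om) (f : Sch) :
    ∃ a : ℕ → Completion D, a 0 = 0 ∧ ∀ t : ℝ,
      Bo c.Q t (om (bS t f)) = ∑ j ∈ Finset.range (2 * d), cexp ((j - d) * t) • a j ∧
      Bo c.Q t (om' (bS t f)) = ∑ j ∈ Finset.range (2 * d), ((-1) ^ (j + d) * cexp ((j - d) * t)) • a j :=
  gauss (h.gr f) (h'.gr f) (l.shift h h' f) (l'.shift h' h f)

end Vale.Agent.P352X.ZZ.Wl

namespace Vale.Agent.P352X.ZZ.TPD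

open Complex Finset
open Vale.Agent.P352 Vale.Agent.P352.GF Vale.Agent.P352.BW

variable {D : Type*} [NormedAddCommGroup D] [InnerProductSpace ℂ D] {c : Ctx D}

namespace Wl2

export Vale.Agent.P352X.TPD.Wl2 (resum ss rr)

lemma hom {σ : ℝ} {k d : ℕ} {y : TT D} (e : k + d = 4) (h : Hom c σ k y) : Wl.Hom c d y where
  tr a f := (h.tc.tra a f).symm
  sc s f g hs hg := by
    have := DFunLike.congr_fun (h.hom s hs) f
    rw [_root_.smul_apply, act_apply, show pS s GF.one f = g from SchwartzMap.ext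
      fun z => by rw [pS_apply hs H496.isLor_one, Wl.sim_dil, hg]] at this
    rw [← this, Complex.coe_smul, show (4 - d : ℝ) = k by rw [sub_eq_iff_eq_add]; exact_mod_cast e.symm,
      Real.rpow_natCast]
  perp := h.tc.perp

lemma lc (t : TEN) {σ : ℝ} {y : TT D} (h : Loc c σ ∅ y) : Wl.Lc c y (σ • act c 1 r1 y) :=
  fun g g' h1 h2 e => by
    have := h va vb 0 g null_va null_vb (md_ab ▸ one_pos) h1 h2 (by simp)
    rwa [_root_.smul_apply, act_apply, show pS 1 r1 g' = ng g from SchwartzMap.ext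
      fun z => by rw [pS_apply one_pos t.r1.1, t.r1.2, e, ng_apply]; congr 1; ext m; simp [jr_apply, ← mul_assoc, ss],
      ← Complex.coe_smul, c.J.map_smulₛₗ, conj_ofReal, Complex.coe_smul]

lemma lb (t : TEN) (y : TT D) (s : ℝ) (f : Sch) :
    act c 1 (Lb s) y f = Bo c.Q s (y (Wl.bS s f)) := by
  rw [act_apply, Bo, Usc, Wl.ee, Real.sqrt_one, show pS 1 (Lb s) f = Wl.bS s f from
    SchwartzMap.ext fun z => by rw [pS_apply one_pos (t.lb s).1, (t.lb s).2.1, Wl.bS_apply]]
  rfl

end Wl2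

open Wl2 in
/-- **row WL** -/
theorem wl_row (c : Ctx D) (b : B0 c) (kl : KILL c) : WL c := fun σ k y hσ h => by
  have B := b.ba
  have t := b.ten
  rcases le_or_gt k 4 with hk | hk
  swap
  · have : y = 0 := by
      refine kl σ y (1 / 2) (1 / 2) (2 ^ k) h.tc h.loc (by norm_num) (by norm_num) (by norm_num)
        (by norm_num) ?_ ?_
      · rw [(t.lsc _ _ one_half_pos one_half_pos).2.2, Real.sqrt_mul_self one_half_pos.le]
        conv_rhs => rw [← h.hom _ one_half_pos, smul_smul, ← mul_pow]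
        norm_num
      · calc _ ≤ (1 / 2 * (1 / 2) : ℝ) ^ (-2 : ℝ) :=
              Real.rpow_le_rpow_of_exponent_ge (by norm_num) (by norm_num) (by norm_num)
          _ < 2 ^ 5 := by norm_num
          _ ≤ _ := pow_le_pow_right₀ one_le_two hk
    subst this
    exact ⟨0, fun n => ⟨h, fun s => by simp⟩, fun _ _ => rfl, by simp, by simp⟩
  obtain ⟨d, e⟩ := Nat.exists_eq_add_of_le hk
  have hd : d ≤ 4 := by omega
  have h' := B.hom_smul σ k σ _ (B.hom_act σ k r1 y t.r1.1 h)
  have l' := lc t h'.loc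
  rw [map_smul, B.mul _ _ _ _ _ one_pos one_pos t.r1.1 t.r1.1, rr, one_mul, B.one, smul_smul, hσ,
    one_smul] at l'
  choose a a0 ha using Wl.wl (hom e.symm h) (hom e.symm h') (lc t h.loc) l'
  obtain ⟨M, q, hq⟩ := b.exp.lag (Icc (-4) 4)
  have key : ∀ (n : ℤ) (s : ℝ) f, |n| < d → (∑ i ∈ range M, q n i • act c 1 (Lb (s + i)) y) f =
      Real.exp (n * s) • a f (n + d).toNat := fun n s f hn => by
    have hn' := abs_lt.1 hn
    simp only [FunLike.coe_sum, Finset.sum_apply, _root_.smul_apply,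
      lb t, (ha f _).1, smul_sum, ← Complex.coe_smul, smul_smul]
    rw [sum_comm]
    simp only [← sum_smul]
    have u : ∀ j ∈ range (2 * d), ∑ i ∈ range M, q n i * cexp ((j - d) * (s + i : ℝ)) =
        if (j - d : ℤ) = n then cexp (n * s) else 0 := fun j hj => by
      have := congrArg (fun x : ℝ => cexp ((j - d) * s) * x)
        (hq n (mem_Icc.2 (by omega)) (j - d) (mem_Icc.2 (by have := mem_range.1 hj; omega)))
      push_cast [mul_sum, apply_ite ofReal] at this ⊢
      simp only [mul_add, Complex.exp_add, mul_left_comm (q n _ : ℂ), this]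
      split_ifs with k
      · rw [← k]
        simp
      · simp
    rw [sum_eq_single_of_mem (n + d).toNat (mem_range.2 (by omega)) fun j hj k => by
      rw [u j hj, if_neg (by omega), zero_smul], u _ (mem_range.2 (by omega)), if_pos (by omega)]
    push_cast
    rfl
  set z : ℤ → TT D := fun n => if |n| < d then ∑ i ∈ range M, q n i • act c 1 (Lb i) y else 0
  have zf : ∀ n f, z n f = if |n| < d then a f (n + d).toNat else 0 := fun n f => by
    simp only [z]
    split_ifs with hn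
    · simpa using key n 0 f hn
    · rfl
  refine ⟨z, fun n => ⟨?_, fun s => ?_⟩, fun n hn => if_neg (by omega), ?_, ?_⟩
  · simp only [z]
    split_ifs
    · exact sum_induction _ _ (B.hom_add σ k) (B.hom0 σ k) fun i _ =>
        B.hom_smul σ k _ _ (B.hom_act σ k _ y (t.lb _).1 h)
    · exact B.hom0 σ k
  · ext f
    rw [_root_.smul_apply, zf]
    simp only [z]
    split_ifs with hn
    · simp only [map_sum, map_smul, B.mul _ _ _ _ _ one_pos one_pos (t.lb _).1 (t.lb _).1,
        (t.lb _).2.2.1, one_mul, key n s f hn]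
    · simp
  · ext f
    have := resum hd (a0 f) 1
    simp only [Pi.one_apply, one_smul, ← zf] at this
    simpa [Wl.bo_zero, this] using (ha f 0).1
  · ext f
    have := resum hd (a0 f) fun n => (-1) ^ n
    simp only [← zf] at this
    have u := (ha f 0).2
    rw [Wl.bo_zero] at u
    rw [u]
    simp only [FunLike.coe_sum, Finset.sum_apply, _root_.smul_apply, ← Complex.coe_smul]
    push_cast
    refine Eq.trans (sum_congr rfl fun j _ => ?_) this.symm
    rw [zpow_sub₀ (by norm_num), zpow_natCast, zpow_natCast, pow_add, div_eq_mul_inv, ← inv_pow]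
    simp

end Vale.Agent.P352X.ZZ.TPD

end
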