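import Vale.Agent.P352X.TPD.EXP
import Vale.Agent.P352X.TPD.SPAN
import Vale.Agent.P352Z.TPD.Ba2
import Vale.Agent.P352Z.TPD.RHO
import Vale.Agent.P352Z.TPD.IRQ
import Vale.Agent.P352Z.TPD.IRG
import Vale.Agent.P352Z.TPD.ANI
import Vale.Agent.P352Z.TPD.LIM
import Vale.Agent.P352Z.TPD.WL
import Vale.Agent.P352Z.TPD.EU
import Vale.Agent.P352Z.TPD.FU
import Vale.Agent.P352Z.TPD.FIN
import Vale.Agent.P352Z.TPD.ODD
import Vale.Agent.P352Z.TPD.POT
import Vale.Agent.P352Z.TPD.IRN
import Vale.Agent.P352Z.TPD.CRL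
import Vale.Agent.P352Z.TPD.DIV
import Vale.Agent.P352Z.TPD.A2
import Vale.Agent.P352Z.TPD.PRE
import Vale.Agent.P352Z.TPD.CMP
import Vale.Agent.P352Z.TPD.T3P

/-!
# P352Z, block TPD: all analytic rows (helper18)
-/

set_option linter.all false

namespace Vale.Agent.P352X.ZZ.TPD

variable {D : Type*} [NormedAddCommGroup D] [InnerProductSpace ℂ D]

theorem rows_of (c : Ctx D) (comb : COMB) (eq1 : EQ1) (eq2 : COMB → EQ2) (inv : INV) : Rows c where
  ten := ten_thm
  exp := P352X.TPD.exp_row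
  span := P352X.TPD.span_row ten_thm
  comb := comb
  eq1 := eq1
  eq2 := eq2
  inv := inv
  ba t e := BA.of (ba1_row c t e) (ba2_row c t e (ba1_row c t e))
  bp := bp_row c
  rho := rho_row c
  irq := irq_row c
  irg := irg_row c
  ani := ani_row c
  kill := kill_row c
  lim := lim_row c
  wl := wl_row c
  eu := eu_row c
  a3 := a3_row c
  a1 := a1_row c
  fu := fu_row c
  odd := odd_row c
  aq := aq_row c
  hmu := hmu_row c
  dl0 := dl0_row c
  irn0 := irn0_row c
  irn := irn_row c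
  mul := mul_row c
  pot := pot_row c
  crl := crl_row c
  div := div_row c
  a2 := a2_row c
  pre := pre_row c
  src := src_row c
  fin := fin_row c
  cmp := cmp_row c
  t3p := t3p_row c

end Vale.Agent.P352X.ZZ.TPD
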